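import Crest.Agent.R309.Chain
import Crest.Agent.R309.Range

/-!
# R304: the counting algorithm on lists

`n` is the number of vertices, `s ≥ n` the size parameter, `g` the adjacency bits.  A matching is the list of partners.
-/

set_option autoImplicit false
open Finset Crest.Agent.PTime Crest.Agent.R309

namespace Crest.Agent.R304

def bz (s : ℕ) : ℕ := Nat.size s
def pw2 (s : ℕ) : ℕ := 2 ^ bz s
def RR (s : ℕ) : ℕ := pw2 s ^ 194
/-- size of the population -/
def rr (s : ℕ) : ℕ := RR s ^ 2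
/-- number of small steps in a large step -/
def SS (s : ℕ) : ℕ := s ^ 18 * rr s ^ 2
def AA (s : ℕ) : ℕ := s ^ 87
def TT (s : ℕ) : ℕ := 8 * rr s * AA s * (1000 * bz s)
def BB (s : ℕ) : ℕ := 2000 * bz s
def b0 (s : ℕ) : ℕ := 778 * bz s
def T0 (s : ℕ) : ℕ := s ^ 8
def LL (s : ℕ) : ℕ := 200 * SS s * s ^ 2
def rq (s : ℕ) : ℚ := 1 + 1 / (200 * SS s)
def dq (s : ℕ) : ℚ := 1 / (100 * s ^ 2)
def sseg (s : ℕ) : ℕ := TT s * (b0 s + 1 + BB s)
def glen (s : ℕ) : ℕ := rr s * (s * BB s)
def plen (s : ℕ) : ℕ := glen s + T0 s * SS s * sseg s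
def olen (s : ℕ) : ℕ := T0 s * plen s + plen s
def clen (s : ℕ) : ℕ := 2 * s * olen s

/-- a change of the exponent of a pair, up or down -/
abbrev Bump := ℕ × ℕ × Bool

def swN (b c v : ℕ) : ℕ := if v = b then c else if v = c then b else v

def cjL (n : ℕ) (X : List ℕ) (b c : ℕ) : List ℕ := (List.range n).map fun v => swN b c (gn X (swN b c v))

def cycS (X Y : List ℕ) (z : ℕ × Bool) : ℕ × Bool := (if z.2 = true then gn Y z.1 else gn X z.1, !z.2)

def compL (n : ℕ) (X Y : List ℕ) (a : ℕ) : List ℕ := (List.range n).map fun t => ((cycS X Y)^[t] (a, false)).1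

def mixL (n : ℕ) (U X Y : List ℕ) : List ℕ := (List.range n).map fun v => if v ∈ U then gn Y v else gn X v

def mvL (n s θ : ℕ) (a : List ℕ × List ℕ) : List ℕ × List ℕ :=
  if θ % pw2 s < n ∧ θ / pw2 s < n then
    if θ % pw2 s = θ / pw2 s then
      (mixL n (compL n a.1 a.2 (θ % pw2 s)) a.1 a.2, mixL n (compL n a.1 a.2 (θ % pw2 s)) a.2 a.1)
    else (cjL n a.1 (θ % pw2 s) (θ / pw2 s), a.2)
  else a

def prpL (n s : ℕ) (M : List (List ℕ)) (k : ℕ) : List (List ℕ) :=
  if k % rr s = k / rr s % rr s then M else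
    (M.set (k % rr s) (mvL n s (k / rr s / rr s) (M.getD (k % rr s) [], M.getD (k / rr s % rr s) [])).1).set
      (k / rr s % rr s) (mvL n s (k / rr s / rr s) (M.getD (k % rr s) [], M.getD (k / rr s % rr s) [])).2

def cnt (ms : List Bump) (u v : ℕ) (up : Bool) : ℕ := ms.countP fun b => decide (b = (u, v, up) ∨ b = (v, u, up))

/-- the exponent after the changes `ms` -/
def PL (s : ℕ) (ms : List Bump) (u v : ℕ) : ℤ := (LL s : ℤ) + cnt ms u v true - cnt ms u v false

def lq (s : ℕ) (ms : List Bump) (u v : ℕ) : ℚ := rq s ^ (LL s + cnt ms u v true) / rq s ^ cnt ms u v false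

def wq (n s : ℕ) (ms : List Bump) (X : List ℕ) : ℚ := ((List.range n).map fun v => lq s ms v (gn X v)).prod

def WP (n s : ℕ) (ms : List Bump) (M : List (List ℕ)) : ℚ := (M.map (wq n s ms)).prod

def X0 (n : ℕ) : List ℕ := (List.range n).map fun v => if v % 2 = 0 then v + 1 else v - 1

def genS (n : ℕ) (z : ℕ × List ℕ) (l : List Bool) : ℕ × List ℕ := (z.1 + 1, cjL n z.2 z.1 (ofBits l % (z.1 + 1)))

/-- an almost uniform matching of the complete graph -/
def gen1 (n s : ℕ) (t : List Bool) : List ℕ := (runL (genS n) (BB s) n (0, X0 n) t).2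

def genP (n s : ℕ) (t : List Bool) : List (List ℕ) := draws (gen1 n s) (s * BB s) (rr s) t

def microS (n s : ℕ) (z : List Bump × List (List ℕ) × List Bool) (b : Bump) :
    List Bump × List (List ℕ) × List Bool :=
  (b :: z.1, sample (WP n s (b :: z.1)) (prpL n s) (b0 s) (BB s) (TT s) z.2.1 (z.2.2.take (sseg s)), z.2.2.drop (sseg s))

def micro (s : ℕ) (H : List Bump) : List Bump := H.flatMap (List.replicate (SS s))

/-- a population for the weights reached by the large steps `H` -/
def popRun (n s : ℕ) (H : List Bump) (t : List Bool) : List (List ℕ) :=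
  ((micro s H).foldl (microS n s) ([], genP n s (t.take (glen s)), t.drop (glen s))).2.1

def est (M : List (List ℕ)) (u v : ℕ) : ℚ := (M.countP fun X => decide (gn X u = v) : ℕ) / (M.length : ℚ)

def prs (n : ℕ) : List (ℕ × ℕ) :=
  (List.range n).flatMap fun u => ((List.range n).filter fun v => decide (u ≠ v)).map fun v => (u, v)

def adjL (n : ℕ) (g : List Bool) (u v : ℕ) : Bool := g.getD (u * n + v) false

def flL (n s : ℕ) (g : List Bool) (u v : ℕ) : ℤ := if adjL n g u v = true then LL s else 0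

def nxt (n s : ℕ) (g : List Bool) (H : List Bump) (M : List (List ℕ)) : Option Bump :=
  (((prs n).filter fun e => decide (est M e.1 e.2 < 2 * dq s)).map (fun e => (e.1, e.2, true)) ++
    ((prs n).filter fun e => decide (flL n s g e.1 e.2 + SS s ≤ PL s (micro s H) e.1 e.2 ∧
      4 * dq s < est M e.1 e.2)).map (fun e => (e.1, e.2, false))).head?

def fac (s : ℕ) (M : List (List ℕ)) (b : Bump) : ℚ :=
  1 + est M b.1 b.2.1 * ((if b.2.2 = true then rq s ^ (2 * SS s) else (rq s ^ (2 * SS s))⁻¹) - 1)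

def macroD (n s : ℕ) (g : List Bool) (z : List Bump × ℚ × Bool) (M : List (List ℕ)) : List Bump × ℚ × Bool :=
  if z.2.2 = true then z else
    (nxt n s g z.1 M).elim (z.1, z.2.1, true) fun b => (z.1 ++ [b], z.2.1 * fac s M b, false)

def macroS (n s : ℕ) (g : List Bool) (z : List Bump × ℚ × Bool) (l : List Bool) : List Bump × ℚ × Bool :=
  macroD n s g z (popRun n s z.1 l)

def Z0 (n : ℕ) : ℚ := (∏ i ∈ range (n / 2), (2 * i + 1) : ℕ)

def tune (n s : ℕ) (g : List Bool) (t : List Bool) : List Bump × ℚ × Bool :=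
  runL (macroS n s g) (plen s) (T0 s) ([], Z0 n, false) t

def finq (n s : ℕ) (g : List Bool) (ms : List Bump) (X : List ℕ) : ℚ :=
  if (List.range n).all (fun v => adjL n g v (gn X v)) = true then rq s ^ (n * LL s) / wq n s ms X else 0

def outD (n s : ℕ) (g : List Bool) (z : List Bump × ℚ × Bool) (l : List Bool) : ℚ :=
  z.2.1 * (((popRun n s z.1 l).map (finq n s g (micro s z.1))).sum / rr s)

/-- one estimate -/
def one (n s : ℕ) (g : List Bool) (t : List Bool) : ℚ :=
  outD n s g (tune n s g (t.take (T0 s * plen s))) (t.drop (T0 s * plen s))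

def cntA (n s : ℕ) (g : List Bool) (t : List Bool) : ℚ :=
  if n = 0 then 1 else if n % 2 = 1 then 0 else max 0 (median (draws (one n s g) (olen s) (2 * s) t))

end Crest.Agent.R304
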