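import Crest.Agent.R304.Enc

/-!
# R304: the basic relation for a quadrilateral

PLAN.  Write `T B s t = Ts B C N c s t`, `X = T I p z`, `S = cj X (c z) (c q)` (`cj_left` with `a = c p, b = c z, c = c q, d = c (q+1)`;
`X (c q) = c (q+1)` by `ins`), and choose the partner `Y`: `T F p (p+1)` if `y = z = p+N-1`, `T F (z+1) (p+N-1)` if `y = z < p+N-1`,
`T F (p-1) (z-1)` if `y = z-1`.  In each case `Y (c t) = c (t+1)` for `p ≤ t < z`, `t - p` even, `t ≠ y`, and for `z ≤ t < p+N-1`,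
`t - z` even, `t ≠ y` (use `c (t+N) = c t`).  `enc_of` with the removed edges `p-1, q, y` (window `[p,p+N)`, `c (p+N-1) = c (p-1)`)
gives `Enc X Y` and `Enc S Y`, so `|φ X - φ S| ≤ ε`.  With `U = (Icc p q).image c`: `comp S Y (c p) = U` (`comp_arc`) and
`mix U S Y = T I (q+1) z` (`IsT.eq_Ts`).  For `X' = T I p q`, `Y' = T F (q+1) (p+N-1)`: `Enc X' Y'`, `comp X' Y' (c p) = U`,
`mix U X' Y' = T I p (p+1)`; `S = X'` and `Y = Y'` on `U`, so `dv` agrees (`dv_congr`).  Add the three errors.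
`br'`: apply `br` to the reversed cycle with `(p,q,z,y) := (-z, -q-1, -p, -y-1)`; `Ts_rev`, `Ts_edge_eq`.
-/

set_option autoImplicit false
open Finset

namespace Crest.Agent.R304

variable {V : Type} [Fintype V] [DecidableEq V]
variable {ℓ : V → V → ℝ} {K ε : ℝ} {φ : PM V → ℝ} {I F : PM V} {C : Finset V} {N : ℕ} {c : ℤ → V}

theorem br_arc {X Y : PM V} {p q : ℤ} (hpq : p < q) (ho : (q - p) % 2 = 1) (ha : X.1 (c p) = c q)
    (hb : ∀ t, p < t → t < q → (t - p) % 2 = 1 → X.1 (c t) = c (t + 1))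
    (hc : ∀ t, p ≤ t → t < q → (t - p) % 2 = 0 → Y.1 (c t) = c (t + 1)) :
    Closed X Y ((Icc p q).image c) ∧ comp X Y (c p) = (Icc p q).image c ∧
      ∀ t, p ≤ t → t ≤ q → X.1 (c t) = c (tpi p q t) ∧
        Y.1 (c t) = c (if (t - p) % 2 = 0 then t + 1 else t - 1) := by
  have key : ∀ t, p ≤ t → t ≤ q → X.1 (c t) = c (tpi p q t) ∧
      Y.1 (c t) = c (if (t - p) % 2 = 0 then t + 1 else t - 1) := by
    intro t h1 h2
    constructor
    · unfold tpi
      split_ifs with a1 a2 a3 a4 a5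
      · rw [a1]; exact ha
      · rw [a2]; exact X.symm ha
      · exact hb t (by omega) a3 a4
      · refine X.symm ?_
        have := hb (t - 1) (by omega) (by omega) (by omega)
        rwa [sub_add_cancel] at this
      · omega
      · omega
    · split_ifs with a1
      · exact hc t h1 (by omega) a1
      · refine Y.symm ?_
        have := hc (t - 1) (by omega) (by omega) (by omega)
        rwa [sub_add_cancel] at this
  have hcl : Closed X Y ((Icc p q).image c) := by
    intro v hv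
    obtain ⟨t, ht, rfl⟩ := mem_image.1 hv
    obtain ⟨h1, h2⟩ := mem_Icc.1 ht
    rw [(key t h1 h2).1, (key t h1 h2).2]
    refine ⟨mem_image_of_mem _ (mem_Icc.2 ?_), mem_image_of_mem _ (mem_Icc.2 ?_)⟩
    · unfold tpi; split_ifs <;> omega
    · split_ifs <;> omega
  refine ⟨hcl, comp_arc hpq.le hcl fun t h1 h2 => ?_, key⟩
  rcases Int.emod_two_eq_zero_or_one (t - p) with h | h
  · exact Or.inr (hc t h1 h2 h)
  · exact Or.inl (hb t (by omega) h2 h)

theorem br_outs (hL : Lp C N c) {B X : PM V} {p q : ℤ} (hX : IsT B C N c p q X) {t : ℤ} (h1 : q < t + N)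
    (h2 : t < p) (ho : (t - q) % 2 = 1) : X.1 (c t) = c (t + 1) := by
  have hn := hL.mod_two
  have := hX.outs (t + N) h1 (by omega) (Int.odd_iff.2 (by omega))
  rwa [hL.per, show t + N + 1 = t + 1 + N by ring, hL.per] at this

theorem br (hW : Wt ℓ) (hR : Rg I F C N c) (hH : Hyp ℓ K φ I F C ε) {g : V → ℝ} (hg : Gauge ℓ K g) {p q z y : ℤ}
    (hpq : p < q) (hqz : q + 1 < z) (hz : z < p + N) (ho : Odd (q - p)) (ho' : Odd (z - p)) (hy : y = z ∨ y = z - 1)
    (h₁ : ℓ (c (p - 1)) (c p) ≤ g (c (p - 1)) * g (c p)) (h₂ : ℓ (c q) (c (q + 1)) ≤ g (c q) * g (c (q + 1)))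
    (h₃ : ℓ (c y) (c (y + 1)) ≤ g (c y) * g (c (y + 1))) :
    |φ (Ts I C N c p z) + φ (Ts I C N c p (p + 1)) - φ (Ts I C N c p q) - φ (Ts I C N c (q + 1) z)| ≤ 3 * ε := by
  have hL := hR.toLp
  have hn := hL.mod_two
  have ho1 := Int.odd_iff.1 ho
  have ho2 := Int.odd_iff.1 ho'
  have hI : ∀ v ∈ C, I.1 v ∈ C := fun v hv => (hR.closed v hv).1
  have hF : ∀ v ∈ C, F.1 v ∈ C := fun v hv => (hR.closed v hv).2
  have hc : ∀ t, c t ∈ C := fun t => (hL.mem _).2 ⟨t, rfl⟩
  have hne : ∀ {s t : ℤ}, p ≤ s → s < p + N → p ≤ t → t < p + N → s ≠ t → c s ≠ c t :=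
    fun a b d e h h' => h (hL.eq_of_win a b d e h')
  have hlast : c (p + N - 1) = c (p - 1) := by rw [← hL.per (p - 1)]; congr 1; ring
  have hU : ∀ t, q < t → t < p + N → c t ∉ (Icc p q).image c := by
    intro t a b h
    obtain ⟨s, hs, e⟩ := mem_image.1 h
    obtain ⟨h1, h2⟩ := mem_Icc.1 hs
    exact hne h1 (by omega) (by omega) b (by omega) e
  have hUC : ∀ v, v ∉ C → v ∉ (Icc p q).image c := fun v hv h => by
    obtain ⟨s, -, rfl⟩ := mem_image.1 h
    exact hv (hc s)
  have hUm : ∀ t, p ≤ t → t ≤ q → c t ∈ (Icc p q).image c := fun t a b =>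
    mem_image_of_mem _ (mem_Icc.2 ⟨a, b⟩)
  replace h₁ : ℓ (c (p - 1)) (c (p - 1 + 1)) ≤ g (c (p - 1)) * g (c (p - 1 + 1)) := by
    rwa [sub_add_cancel]
  -- the partner `Y`
  obtain ⟨Y, Y0, Y1, Y2⟩ : ∃ Y : PM V, (∀ v, v ∉ C → Y.1 v = F.1 v) ∧
      (∀ t, p ≤ t → t < z → (t - p) % 2 = 0 → t ≠ y → Y.1 (c t) = c (t + 1)) ∧
      ∀ t, z ≤ t → t < p + N - 1 → (t - z) % 2 = 0 → t ≠ y → Y.1 (c t) = c (t + 1) := by
    rcases hy with hy | hy
    · by_cases hz' : z = p + N - 1
      · exact ⟨_, (Ts_spec (p := p) (q := p + 1) hL hF (by omega) (by omega)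
          (Int.odd_iff.2 (by omega))).out, fun t _ _ h _ => Ts_edge hL hF (Int.even_iff.2 h),
          fun t _ _ _ _ => by omega⟩
      · have hY := Ts_spec (p := z + 1) (q := p + N - 1) hL hF (by omega) (by omega)
          (Int.odd_iff.2 (by omega))
        exact ⟨_, hY.out, fun t _ _ _ _ => br_outs hL hY (by omega) (by omega) (by omega),
          fun t _ _ _ _ => hY.ins t (by omega) (by omega) (Int.odd_iff.2 (by omega))⟩
    · have hY := Ts_spec (p := p - 1) (q := z - 1) hL hF (by omega) (by omega)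
        (Int.odd_iff.2 (by omega))
      exact ⟨_, hY.out, fun t _ _ _ _ => hY.ins t (by omega) (by omega) (Int.odd_iff.2 (by omega)),
        fun t _ _ _ _ => hY.outs t (by omega) (by omega) (Int.odd_iff.2 (by omega))⟩
  have hX := Ts_spec hL hI (show p < z by omega) hz ho'
  set X := Ts I C N c p z with hXd
  obtain ⟨S1, S2, S3⟩ := cj_left hX.chord (hX.ins q hpq (by omega) ho)
    (hne le_rfl (by omega) hpq.le (by omega) hpq.ne) (hne (by omega) hz hpq.le (by omega) (by omega))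
  set S := cj X (c z) (c q) with hSd
  have S4 : ∀ t, p < t → t < p + N → t ≠ z → t ≠ q → t ≠ q + 1 → S.1 (c t) = X.1 (c t) :=
    fun t a b d e f => S3 _ (hne a.le b le_rfl (by omega) a.ne') (hne a.le b (by omega) hz d)
      (hne a.le b hpq.le (by omega) e) (hne a.le b (by omega) (by omega) f)
  have S0 : ∀ v, v ∉ C → S.1 v = I.1 v := fun v hv =>
    (S3 v (fun e => hv (e ▸ hc _)) (fun e => hv (e ▸ hc _)) (fun e => hv (e ▸ hc _))
      (fun e => hv (e ▸ hc _))).trans (hX.out v hv)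
  have key : ∀ t, p ≤ t → t < p + N → c t ≠ c (p - 1) → c t ≠ c q → c t ≠ c y →
      (X.1 (c t) = c (t + 1) ∧ S.1 (c t) = c (t + 1)) ∨ Y.1 (c t) = c (t + 1) := by
    intro t a b d e f
    have d' : t ≠ p + N - 1 := fun h => d (h ▸ hlast)
    have e' : t ≠ q := fun h => e (h ▸ rfl)
    have f' : t ≠ y := fun h => f (h ▸ rfl)
    rcases lt_or_ge t z with h | h
    · rcases Int.emod_two_eq_zero_or_one (t - p) with h' | h'
      · exact Or.inr (Y1 t a h h' f')
      · have := hX.ins t (by omega) h (Int.odd_iff.2 h')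
        exact Or.inl ⟨this, (S4 t (by omega) b (by omega) e' (by omega)).trans this⟩
    · rcases Int.emod_two_eq_zero_or_one (t - z) with h' | h'
      · exact Or.inr (Y2 t h (by omega) h' f')
      · have := hX.outs t (by omega) b (Int.odd_iff.2 h')
        exact Or.inl ⟨this, (S4 t (by omega) b (by omega) e' (by omega)).trans this⟩
  have E1 : Enc ℓ K I F C X Y := enc_of hW hR hg h₁ h₂ h₃ (fun v hv => ⟨hX.out v hv, Y0 v hv⟩) p
    fun t a b d e f => (key t a b d e f).imp_left And.left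
  have E2 : Enc ℓ K I F C S Y := enc_of hW hR hg h₁ h₂ h₃ (fun v hv => ⟨S0 v hv, Y0 v hv⟩) p
    fun t a b d e f => (key t a b d e f).imp_left And.right
  have B1 := hH.loc X Y Y (c z) (c q) (hne (by omega) hz hpq.le (by omega) (by omega)) E1 E2
  obtain ⟨A1, A2, A3⟩ := br_arc (X := S) (Y := Y) hpq ho1 S1
    (fun t a b o => (S4 t a (by omega) (by omega) b.ne (by omega)).trans
      (hX.ins t a (by omega) (Int.odd_iff.2 o)))
    fun t a b o => Y1 t a (by omega) o (by omega)
  have M1 : mix ((Icc p q).image c) S Y = Ts I C N c (q + 1) z := by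
    refine IsT.eq_Ts hL hqz (by omega) (Int.odd_iff.2 (by omega))
      ⟨fun v hv => ?_, ?_, fun t a b o => ?_, fun t a b o => ?_⟩
    · rw [mix_apply A1, if_neg (hUC v hv), S0 v hv]
    · rw [mix_apply A1, if_neg (hU _ (by omega) (by omega))]
      exact S.symm S2
    · have o' := Int.odd_iff.1 o
      rw [mix_apply A1, if_neg (hU _ (by omega) (by omega)),
        S4 t (by omega) (by omega) (by omega) (by omega) (by omega)]
      exact hX.ins t (by omega) b (Int.odd_iff.2 (by omega))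
    · have o' := Int.odd_iff.1 o
      rcases lt_or_ge t (p + N) with h | h
      · rw [mix_apply A1, if_neg (hU _ (by omega) h),
          S4 t (by omega) h (by omega) (by omega) (by omega)]
        exact hX.outs t a h o
      · obtain ⟨s, rfl⟩ : ∃ s, t = s + N := ⟨t - N, by ring⟩
        rw [hL.per, show s + N + 1 = s + 1 + N by ring, hL.per, mix_apply A1,
          if_pos (hUm s (by omega) (by omega))]
        exact Y1 s (by omega) (by omega) (by omega) (by omega)
  have B2 := hH.blk S Y (c p) E2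
  rw [er, A2, M1] at B2
  have hX' := Ts_spec hL hI hpq (show q < p + N by omega) ho
  have hY' := Ts_spec (p := q + 1) (q := p + N - 1) hL hF (by omega) (by omega)
    (Int.odd_iff.2 (by omega))
  set X' := Ts I C N c p q with hX'd
  set Y' := Ts F C N c (q + 1) (p + N - 1) with hY'd
  have Y1' : ∀ t, p ≤ t → t < q → (t - p) % 2 = 0 → Y'.1 (c t) = c (t + 1) := fun t a b o =>
    br_outs hL hY' (by omega) (by omega) (by omega)
  have E3 : Enc ℓ K I F C X' Y' := by
    refine enc_of hW hR hg h₁ h₂ h₃ (fun v hv => ⟨hX'.out v hv, hY'.out v hv⟩) p fun t a b d e _ => ?_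
    have d' : t ≠ p + N - 1 := fun h => d (h ▸ hlast)
    have e' : t ≠ q := fun h => e (h ▸ rfl)
    rcases lt_or_ge t q with h | h
    · rcases Int.emod_two_eq_zero_or_one (t - p) with h' | h'
      · exact Or.inr (Y1' t a h h')
      · exact Or.inl (hX'.ins t (by omega) h (Int.odd_iff.2 h'))
    · rcases Int.emod_two_eq_zero_or_one (t - q) with h' | h'
      · exact Or.inr (hY'.ins t (by omega) (by omega) (Int.odd_iff.2 (by omega)))
      · exact Or.inl (hX'.outs t (by omega) b (Int.odd_iff.2 h'))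
  obtain ⟨A1', A2', A3'⟩ := br_arc (X := X') (Y := Y') hpq ho1 hX'.chord
    (fun t a b o => hX'.ins t a b (Int.odd_iff.2 o)) Y1'
  have M2 : mix ((Icc p q).image c) X' Y' = Ts I C N c p (p + 1) := by
    refine IsT.eq_Ts hL (by omega) (by omega) (Int.odd_iff.2 (by omega))
      ⟨fun v hv => ?_, ?_, fun t a b o => by omega, fun t a b o => ?_⟩
    · rw [mix_apply A1', if_neg (hUC v hv), hX'.out v hv]
    · rw [mix_apply A1', if_pos (hUm p le_rfl hpq.le)]
      exact Y1' p le_rfl hpq (by omega)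
    · have o' := Int.odd_iff.1 o
      rcases lt_or_ge q t with h | h
      · rw [mix_apply A1', if_neg (hU _ h b)]
        exact hX'.outs t h b (Int.odd_iff.2 (by omega))
      · rw [mix_apply A1', if_pos (hUm t (by omega) h)]
        exact Y1' t (by omega) (by omega) (by omega)
  have B3 := hH.blk X' Y' (c p) E3
  rw [er, A2', M2] at B3
  have D : dv ℓ φ ((Icc p q).image c) S Y = dv ℓ φ ((Icc p q).image c) X' Y' := by
    refine dv_congr φ (fun v hv => ?_) fun v hv => ?_
    all_goals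
      obtain ⟨t, ht, rfl⟩ := mem_image.1 hv
      obtain ⟨h1, h2⟩ := mem_Icc.1 ht
    · rw [(A3 t h1 h2).1, (A3' t h1 h2).1]
    · rw [(A3 t h1 h2).2, (A3' t h1 h2).2]
  rw [D] at B2
  rw [abs_le] at B1 B2 B3 ⊢
  constructor <;> linarith [B1.1, B1.2, B2.1, B2.2, B3.1, B3.2]

theorem br' (hW : Wt ℓ) (hR : Rg I F C N c) (hH : Hyp ℓ K φ I F C ε) {g : V → ℝ} (hg : Gauge ℓ K g) {p q z y : ℤ}
    (hpq : p < q) (hqz : q + 1 < z) (hz : z < p + N) (ho : Odd (q - p)) (ho' : Odd (z - p)) (hy : y = p ∨ y = p - 1)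
    (h₁ : ℓ (c z) (c (z + 1)) ≤ g (c z) * g (c (z + 1))) (h₂ : ℓ (c q) (c (q + 1)) ≤ g (c q) * g (c (q + 1)))
    (h₃ : ℓ (c y) (c (y + 1)) ≤ g (c y) * g (c (y + 1))) :
    |φ (Ts I C N c p z) + φ (Ts I C N c p (p + 1)) - φ (Ts I C N c p q) - φ (Ts I C N c (q + 1) z)| ≤ 3 * ε := by
  have hL := hR.toLp
  have hn := hL.mod_two
  have ho1 := Int.odd_iff.1 ho
  have ho2 := Int.odd_iff.1 ho'
  have hI : ∀ v ∈ C, I.1 v ∈ C := fun v hv => (hR.closed v hv).1
  have h := br hW hR.rev hH hg (p := -z) (q := -(q + 1)) (z := -p) (y := -(y + 1)) (by omega) (by omega)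
    (by omega) (Int.odd_iff.2 (by omega)) (Int.odd_iff.2 (by omega)) (by omega)
    (by rw [show -(-z - 1) = z + 1 by ring, neg_neg, hW.symm, mul_comm]; exact h₁)
    (by rw [show -(-(q + 1) + 1) = q by ring, neg_neg, hW.symm, mul_comm]; exact h₂)
    (by rw [show -(-(y + 1) + 1) = y by ring, neg_neg, hW.symm, mul_comm]; exact h₃)
  rw [Ts_rev hL hI (by omega) hz ho', show -z + 1 = -(z - 1) by ring,
    Ts_rev hL hI (by omega) (by omega) (Int.odd_iff.2 (by omega)),
    Ts_rev hL hI hqz (by omega) (Int.odd_iff.2 (by omega)), show -(q + 1) + 1 = -q by ring,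
    Ts_rev hL hI hpq (by omega) ho] at h
  have e := Ts_edge_eq (p := p) (q := z - 1) hL hI (Int.even_iff.2 (by omega))
  rw [sub_add_cancel] at e
  rw [e] at h
  rwa [sub_right_comm]

end Crest.Agent.R304
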