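import Crest.Agent.R304.PopC

/-!
# R304: the population follows a slowly changing law

PLAN.  `q = 1 - 1/(8rA) ≥ 7/8`, `r = R^2 ≥ 4`; the step sizes `(r-1)/(2r^2)` and `(r-2)/r^2` lie in `[1/(4r), 1/4]`, so both contraction factors are
at most `q`.  Use `Function.iterate_succ_apply` (`P^[T+1] f = P^[T] (P f)`), `funext (Pop_S2 ..)`, `Pop_lin`, `nr_sub_le`, `nr_mul`, `nr_Pop`.
`dec_S2`, induction on `T` for all degenerate `w`: the two remainder terms have norm at most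
`(1/r^2)(2 R^3 * 2 + 6 R^3 * 3) nr w = 22/R * nr w` (`nr_S2'` with `mn_Dop`, `nr_Dop`, `nr_S3`, `Z3_spec`, `sy_spec`), and
`176 A R * (1 - q) = 22/R`.  `dec_S1`, induction on `T`: the remainder is at most `1/(2r^2) (r^2 q^T + 176 A R) * 3 nr u`; `3/2 ≤ 2q` and
`264 A / R^3 ≤ 2200 A^2/R * (1-q) = 275 A/R^3`.
`pop`: `h x = μ' x / μ x - 1` has mean zero, `|h| ≤ η`, `pw μ' M = pw μ M * ∏ i, (1 + h (M i))`.  With `G = P^[T] F ∈ [0,1]`:
`mn (pw μ') G - mn (pw μ) G = mn (pw μ) ((∏ (1+h) - 1 - S1 h) G) + ip (S1 h) G`; `prod_expand`, `ip_Pop`, `abs_ip_le`, `nr_le_of_abs`, `mn_Pop`.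
-/

set_option autoImplicit false
open Finset Crest.Agent.R309

namespace Crest.Agent.R304

variable {X : Type} [Fintype X] [DecidableEq X]
variable {μ : X → ℝ} {τ : ℕ → X × X → X × X} {β r R b0 : ℕ} {A : ℝ}

namespace PopD

theorem q_mem (h4 : 4 ≤ r) (hA : 1 ≤ A) : 3 / 4 ≤ 1 - 1 / (8 * (r : ℝ) * A) ∧ 1 - 1 / (8 * (r : ℝ) * A) ≤ 1 := by
  have hr : (4 : ℝ) ≤ r := by exact_mod_cast h4
  have h1 : 1 / (8 * (r : ℝ) * A) ≤ 1 / 4 := one_div_le_one_div_of_le (by norm_num) (by nlinarith)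
  have h2 : 0 ≤ 1 / (8 * (r : ℝ) * A) := by positivity
  constructor <;> linarith

theorem fac_le (h4 : 4 ≤ r) (hA : 1 ≤ A) {s : ℝ} (hs : 1 / (4 * r) ≤ s) :
    1 - s / (2 * A) ≤ 1 - 1 / (8 * (r : ℝ) * A) := by
  have hr : (4 : ℝ) ≤ r := by exact_mod_cast h4
  have h1 : 1 / (8 * (r : ℝ) * A) = 1 / (4 * r) / (2 * A) := by
    field_simp
    ring
  rw [h1]
  gcongr

theorem le_of_sq {a b c d : ℝ} (hb : 0 ≤ b) (hd : 0 ≤ d) (h : a ^ 2 ≤ c * b ^ 2) (hc : c ≤ d ^ 2) : a ≤ d * b := by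
  refine (abs_le_of_sq_le_sq' ?_ (mul_nonneg hd hb)).2
  rw [mul_pow]
  exact h.trans (mul_le_mul_of_nonneg_right hc (sq_nonneg _))

end PopD
open PopD

theorem dec_S2 (h : Mv μ τ) (hb : 2 ^ b0 = r * r * 2 ^ β) (hR : r = R ^ 2) (h4 : 4 ≤ r) (hA : 1 ≤ A) (hg : HasGap μ τ β A)
    (T : ℕ) {w : X × X → ℝ} (hw : Deg2 μ w) :
    nr (pw μ) ((Pop μ τ r b0)^[T] (S2 w)) ≤ (r ^ 2 * (1 - 1 / (8 * r * A)) ^ T + 176 * A * R) * nr (m2 μ) w := by
  have hr : (4 : ℝ) ≤ r := by exact_mod_cast h4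
  have hrR : (r : ℝ) = R ^ 2 := by exact_mod_cast hR
  have hR0 : (0 : ℝ) < R := by
    rcases (Nat.cast_nonneg R : (0 : ℝ) ≤ R).eq_or_lt with h0 | h0
    · rw [← h0] at hrR
      linarith
    · exact h0
  obtain ⟨hq1, hq2⟩ := q_mem h4 hA
  induction T generalizing w with
  | zero =>
    refine (nr_S2 h.pr w).trans (mul_le_mul_of_nonneg_right ?_ (nr_nonneg _ _))
    have : 0 ≤ 176 * A * R := by positivity
    linarith
  | succ T ih =>
    have hs1 : 1 / (4 * (r : ℝ)) ≤ (r - 2) / r ^ 2 := by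
      rw [div_le_div_iff₀ (by positivity) (by positivity)]
      nlinarith
    have hs2 : ((r : ℝ) - 2) / r ^ 2 ≤ 1 / 4 := by
      rw [div_le_div_iff₀ (by positivity) (by positivity)]
      nlinarith
    obtain ⟨hv1, hv2⟩ := sy_spec h.pr hw
    obtain ⟨hc1, hc2⟩ := contr2 h hA hg (le_trans (by positivity) hs1) hs2 hv1
    obtain ⟨hz1, hz2⟩ := Z3_spec (β := β) h hv1
    have hD := nr_Dop (β := β) h (sy w)
    have hn := nr_nonneg (m2 μ) w
    have hn' := nr_nonneg (m2 μ) (sy w)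
    have b1 : nr (pw μ) (S2 (Dop μ τ β (sy w)) : (Fin r → X) → ℝ) ≤ 2 * R ^ 3 * nr (m2 μ) (Dop μ τ β (sy w)) :=
      le_of_sq (nr_nonneg _ _) (by positivity) (nr_S2' h.pr (mn_Dop h _)) (by rw [hrR]; exact le_of_eq (by ring))
    have b2 : nr (pw μ) (S3 (Z3 μ τ β (sy w)) : (Fin r → X) → ℝ) ≤ 6 * R ^ 3 * nr (m3 μ) (Z3 μ τ β (sy w)) :=
      le_of_sq (nr_nonneg _ _) (by positivity) (nr_S3 h.pr hz1) (by rw [hrR]; nlinarith [pow_pos hR0 6])
    have b3 := ih hc1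
    have b4 : nr (m2 μ) (fun a => sy w a - (r - 2 : ℝ) / r ^ 2 * A1 μ τ β (sy w) a) ≤
        (1 - 1 / (8 * r * A)) * nr (m2 μ) w :=
      hc2.trans ((mul_le_mul_of_nonneg_right (fac_le h4 hA hs1) hn').trans
        (mul_le_mul_of_nonneg_left hv2 (by linarith)))
    rw [Function.iterate_succ_apply, funext (Pop_S2 h hb w), Pop_lin, Pop_lin]
    refine (nr_sub_le h.pr.pw _ _).trans ((add_le_add_left (nr_sub_le h.pr.pw _ _) _).trans ?_)
    rw [nr_mul h.pr.pw, nr_mul h.pr.pw, abs_of_nonneg (by positivity)]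
    have b5 := (nr_Pop (b0 := b0) h (S2 (Dop μ τ β (sy w))) T).trans (b1.trans (mul_le_mul_of_nonneg_left
      (hD.trans (mul_le_mul_of_nonneg_left hv2 (by norm_num))) (by positivity)))
    have b6 := (nr_Pop (b0 := b0) h (S3 (Z3 μ τ β (sy w))) T).trans (b2.trans (mul_le_mul_of_nonneg_left
      (hz2.trans (mul_le_mul_of_nonneg_left hv2 (by norm_num))) (by positivity)))
    have b7 := b3.trans (mul_le_mul_of_nonneg_left b4 (by positivity))
    refine (add_le_add (add_le_add b7 (mul_le_mul_of_nonneg_left b5 (by positivity)))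
      (mul_le_mul_of_nonneg_left b6 (by positivity))).trans (le_of_eq ?_)
    rw [pow_succ _ T]
    generalize (1 - 1 / (8 * (r : ℝ) * A)) ^ T = Q
    rw [hrR]
    field_simp
    ring

theorem dec_S1 (h : Mv μ τ) (hb : 2 ^ b0 = r * r * 2 ^ β) (hR : r = R ^ 2) (h4 : 4 ≤ r) (hA : 1 ≤ A) (hg : HasGap μ τ β A)
    (T : ℕ) {u : X → ℝ} (hu : mn μ u = 0) :
    nr (pw μ) ((Pop μ τ r b0)^[T] (S1 u)) ≤ ((r + 2 * T) * (1 - 1 / (8 * r * A)) ^ T + 2200 * A ^ 2 / R) * nr μ u := by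
  have hr : (4 : ℝ) ≤ r := by exact_mod_cast h4
  have hrR : (r : ℝ) = R ^ 2 := by exact_mod_cast hR
  have hR0 : (0 : ℝ) < R := by
    rcases (Nat.cast_nonneg R : (0 : ℝ) ≤ R).eq_or_lt with h0 | h0
    · rw [← h0] at hrR
      linarith
    · exact h0
  obtain ⟨hq1, hq2⟩ := q_mem h4 hA
  induction T generalizing u with
  | zero =>
    refine (nr_S1 h.pr u).trans (mul_le_mul_of_nonneg_right ?_ (nr_nonneg _ _))
    have : 0 ≤ 2200 * A ^ 2 / R := by positivity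
    simp only [Nat.cast_zero, mul_zero, add_zero, pow_zero, mul_one]
    linarith
  | succ T ih =>
    have hs1 : 1 / (4 * (r : ℝ)) ≤ (r - 1) / (2 * r ^ 2) := by
      rw [div_le_div_iff₀ (by positivity) (by positivity)]
      nlinarith
    have hs2 : ((r : ℝ) - 1) / (2 * r ^ 2) ≤ 1 / 4 := by
      rw [div_le_div_iff₀ (by positivity) (by positivity)]
      nlinarith
    obtain ⟨hc1, hc2⟩ := contr h hA hg (le_trans (by positivity) hs1) hs2 hu
    obtain ⟨hz1, hz2⟩ := Bop_spec (β := β) h hu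
    have hn := nr_nonneg μ u
    have b3 := ih hc1
    have b4 : nr μ (fun x => u x - (r - 1 : ℝ) / (2 * r ^ 2) * Aop μ τ β u x) ≤ (1 - 1 / (8 * r * A)) * nr μ u :=
      hc2.trans (mul_le_mul_of_nonneg_right (fac_le h4 hA hs1) hn)
    have hQ : 0 ≤ (1 - 1 / (8 * (r : ℝ) * A)) ^ T := pow_nonneg (by linarith) T
    rw [Function.iterate_succ_apply, funext (Pop_S1 h hb u), Pop_lin]
    refine (nr_sub_le h.pr.pw _ _).trans ?_
    rw [nr_mul h.pr.pw, abs_of_nonneg (by positivity)]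
    have b5 := (dec_S2 h hb hR h4 hA hg T hz1).trans (mul_le_mul_of_nonneg_left hz2 (by positivity))
    have b7 := b3.trans (mul_le_mul_of_nonneg_left b4 (by positivity))
    refine (add_le_add b7 (mul_le_mul_of_nonneg_left b5 (by positivity))).trans ?_
    rw [pow_succ _ T, ← mul_assoc, ← mul_assoc, ← mul_assoc, ← add_mul]
    refine mul_le_mul_of_nonneg_right ?_ hn
    generalize (1 - 1 / (8 * (r : ℝ) * A)) ^ T = Q at hQ ⊢
    have e1 : 1 / (2 * (r : ℝ) ^ 2) * (r ^ 2 * Q + 176 * A * R) * 3 = 3 / 2 * Q + 264 * (A / R ^ 3) := by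
      rw [hrR]
      field_simp
      ring
    have e2 : 2200 * A ^ 2 / R * (1 - 1 / (8 * (r : ℝ) * A)) = 2200 * A ^ 2 / R - 275 * (A / R ^ 3) := by
      rw [hrR]
      field_simp
      ring
    have e3 : 0 ≤ A / R ^ 3 := by positivity
    rw [e1, add_mul, e2]
    push_cast
    nlinarith [mul_nonneg hQ (sub_nonneg.2 hq1)]

theorem pop (h : Mv μ τ) (hb : 2 ^ b0 = r * r * 2 ^ β) (hR : r = R ^ 2) (h4 : 4 ≤ r) (hA : 1 ≤ A) (hg : HasGap μ τ β A)
    {μ' : X → ℝ} (h1 : ∑ x, μ' x = 1) {η : ℝ} (hη : ∀ x, |μ' x - μ x| ≤ η * μ x) (hr : r * η ≤ 1) (T : ℕ)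
    {F : (Fin r → X) → ℝ} (hF : ∀ M, 0 ≤ F M ∧ F M ≤ 1) :
    |mn (pw μ') ((Pop μ τ r b0)^[T] F) - mn (pw μ) F| ≤
      (r * η) ^ 2 + η * ((r + 2 * T) * (1 - 1 / (8 * r * A)) ^ T + 2200 * A ^ 2 / R) := by
  have hne : Nonempty X := by
    by_contra hn
    rw [not_nonempty_iff] at hn
    simp at h1
  obtain ⟨x0⟩ := hne
  have hη0 : 0 ≤ η := nonneg_of_mul_nonneg_left ((abs_nonneg _).trans (hη x0)) (h.pr.pos x0)
  set g : X → ℝ := fun x => μ' x / μ x - 1 with hgdef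
  have g1 : ∀ x, μ x * (1 + g x) = μ' x := fun x => by
    have := (h.pr.pos x).ne'
    simp only [hgdef]
    field_simp
    ring
  have g2 : ∀ x, |g x| ≤ η := fun x => by
    have h2 := hη x
    rw [← g1 x, mul_add, mul_one, add_sub_cancel_left, abs_mul, abs_of_pos (h.pr.pos x), mul_comm η] at h2
    exact le_of_mul_le_mul_left h2 (h.pr.pos x)
  have g3 : mn μ g = 0 := by
    have : ∑ x, μ x * (1 + g x) = 1 := by simp only [g1, h1]
    simp only [mul_add, mul_one, sum_add_distrib, h.pr.total] at this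
    unfold mn
    linarith
  have g4 : ∀ M : Fin r → X, pw μ' M = pw μ M * ∏ i, (1 + g (M i)) := fun M => by
    simp only [pw, ← prod_mul_distrib, g1]
  have hG := Pop_bdd (b0 := b0) h hF T
  rw [← mn_Pop (b0 := b0) h F T]
  have e : mn (pw μ') ((Pop μ τ r b0)^[T] F) - mn (pw μ) ((Pop μ τ r b0)^[T] F) =
      ∑ M, pw μ M * ((∏ i, (1 + g (M i)) - 1 - ∑ i, g (M i)) * (Pop μ τ r b0)^[T] F M) +
        ip (pw μ) (S1 g) ((Pop μ τ r b0)^[T] F) := by
    simp only [mn, ip, g4, S1, ← sum_sub_distrib, ← sum_add_distrib]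
    exact sum_congr rfl fun M _ => by ring
  rw [e, ip_Pop h]
  refine (abs_add_le _ _).trans (add_le_add ?_ ?_)
  · refine (abs_sum_le_sum_abs _ _).trans ?_
    calc _ ≤ ∑ M : Fin r → X, pw μ M * (r * η) ^ 2 := sum_le_sum fun M _ => by
          rw [abs_mul, abs_mul, abs_of_pos (h.pr.pw.pos M), abs_of_nonneg (hG M).1]
          refine mul_le_mul_of_nonneg_left ?_ (h.pr.pw.pos M).le
          exact (mul_le_of_le_one_right (abs_nonneg _) (hG M).2).trans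
            (prod_expand hη0 hr (fun i => g (M i)) fun i => g2 _)
      _ = _ := by rw [← sum_mul, h.pr.pw.total, one_mul]
  · refine (abs_ip_le h.pr.pw _ _).trans ?_
    have b1 : nr (pw μ) F ≤ 1 := nr_le_of_abs h.pr.pw fun M => by
      rw [abs_of_nonneg (hF M).1]
      exact (hF M).2
    have hQ : 0 ≤ (1 - 1 / (8 * (r : ℝ) * A)) ^ T := pow_nonneg (by linarith [(q_mem h4 hA).1]) T
    refine (mul_le_of_le_one_right (nr_nonneg _ _) b1).trans ((dec_S1 h hb hR h4 hA hg T g3).trans ?_)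
    rw [mul_comm η]
    exact mul_le_mul_of_nonneg_left (nr_le_of_abs h.pr g2) (by positivity)

end Crest.Agent.R304
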