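import Crest.Agent.R304.Gen
import Crest.Agent.R304.PopD

/-!
# R304: the population follows the weights

PLAN.  `samp_close`: `sample_enc`, `Ex_runL`, `Kop_eq_Lk`; with `W M = WP n s ms (encP M)`, `aI W x y = min 1 (pw μ y / pw μ x)` (`WP_enc`; the factor
`ZZ^r` cancels), so `Lk (prp ..) b0 (aI W) = Pop ..`.  Induction on `T` as in `R309.Mixes.close`: `Lk_diff`, `abs_aR_sub`, `Lk_bdd`/`Pop_bdd`, and
`|Lk f - Lk g| ≤ c` if `|f - g| ≤ c` (`Lk_sub`, `Lk_bdd`).
`step_close`: `pop` with `μ = mu (lA (b :: hs))`, `μ' = mu (lA hs)`, `η = 3/(200 S)` (`PA_cons`, `mu_bp`, `hasGap`, `two_pow_b0`, `r_eta`), `samp_close`, `err_step`.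
`run_close`: induction on `ms` for all `hs`, `len`: `List.foldl_cons`, `Ex_split`; apply `step_close` to
`G L = Ex (len - sseg) (fun t => F (foldl .. ms (b :: hs, L, t)).2.1) ∈ [0,1]`.  `pop_close`: `Ex_split`, `genP_law` for that `G`, `run_close`, `PA_perm`
(`List.reverse_perm`), `(micro s H).length = H.length * SS s`, `T0 * SS / (SS * s^18) = 1/s^10`.
-/

set_option autoImplicit false
open Finset Crest.Agent.PTime Crest.Agent.R309

namespace Crest.Agent.R304

variable {n s : ℕ}

/-- an admissible schedule after the history `hs` -/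
def Sch (n s : ℕ) : List Bump → List Bump → Prop
  | _, [] => True
  | hs, b :: ms => (b.1 < n ∧ b.2.1 < n ∧ b.1 ≠ b.2.1) ∧
      (∀ u v : Fin n, u ≠ v → dd s ≤ xm (lA n s (b :: hs)) u v) ∧ Sch n s (b :: hs) ms

theorem Sch_append (hs ms ms' : List Bump) :
    Sch n s hs (ms ++ ms') ↔ Sch n s hs ms ∧ Sch n s (ms.reverse ++ hs) ms' := by
  induction ms generalizing hs with
  | nil => simp [Sch]
  | cons b ms ih => simp only [List.cons_append, Sch, ih, List.reverse_cons, List.append_assoc, List.nil_append,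
      and_assoc]

theorem Sch_replicate (hs : List Bump) {u v : Fin n} (huv : u ≠ v) (up : Bool) (k : ℕ)
    (h : ∀ j : ℕ, j ≤ k → ∀ a b, a ≠ b → dd s ≤ xm (lw (rho (SS s)) (bp (PA n s hs) u v (sgn up * j))) a b) :
    Sch n s hs (List.replicate k (u.val, v.val, up)) := by
  induction k generalizing hs with
  | zero => trivial
  | succ k ih =>
    refine ⟨⟨u.2, v.2, fun e => huv (Fin.ext e)⟩, fun a b hab => ?_, ih _ fun j hj a b hab => ?_⟩
    · have := h 1 (by omega) a b hab
      rw [Nat.cast_one, mul_one] at this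
      unfold lA
      rwa [PA_cons]
    · have := h (j + 1) (by omega) a b hab
      rw [PA_cons, bp_bp]
      rwa [Nat.cast_succ, mul_add, mul_one, add_comm] at this

theorem pr_mu [Nonempty (PM (Fin n))] (ms : List Bump) : Pr (mu (lA n s ms)) := by
  exact ⟨mu_pos (wt_lA ms), sum_mu (wt_lA ms)⟩

private theorem mn_close {Y : Type} [Fintype Y] {m : Y → ℝ} (h : Pr m) {f g : Y → ℝ} {c : ℝ}
    (hc : ∀ y, |f y - g y| ≤ c) : |mn m f - mn m g| ≤ c := by
  unfold mn
  rw [← sum_sub_distrib]
  refine (abs_sum_le_sum_abs _ _).trans ((sum_le_sum (g := fun y => m y * c) fun y _ => ?_).trans ?_)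
  · rw [← mul_sub, abs_mul, abs_of_pos (h.pos y)]
    exact mul_le_mul_of_nonneg_left (hc y) (h.pos y).le
  · rw [← sum_mul, h.total, one_mul]

private theorem kop_close {σ : Type} [Fintype σ] {W : σ → ℚ} (hW : ∀ x, 0 < W x) (prop : σ → ℕ → σ) (b B : ℕ)
    {f : σ → ℝ} (hf : ∀ x, 0 ≤ f x ∧ f x ≤ 1) (T : ℕ) (x : σ) :
    |(Kop (mstep W prop b B) (b + 1 + B))^[T] f x - (Lk prop b (aI W))^[T] f x| ≤ T * (1 / 2 ^ B) := by
  have hb : ∀ T x, 0 ≤ (Lk prop b (aI W))^[T] f x ∧ (Lk prop b (aI W))^[T] f x ≤ 1 := by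
    intro T
    induction T with
    | zero => exact hf
    | succ T ih =>
      intro x
      rw [Function.iterate_succ_apply']
      exact Lk_bdd (Ω := univ) (fun _ _ _ => mem_univ _) b (fun x _ y _ => aI_mem (hW x) (hW y))
        (fun y _ => ih y) x (mem_univ x)
  induction T generalizing x with
  | zero => simp
  | succ T ih =>
    rw [Function.iterate_succ_apply', Function.iterate_succ_apply', Kop_eq_Lk _ _ _ _ _ _ (hW x)]
    have h1 := Lk_bdd (Ω := univ) (prop := prop) (fun _ _ _ => mem_univ _) b (fun x _ y _ => aR_mem W B x y)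
      (fun y _ => abs_le.1 (ih y)) x (mem_univ x)
    rw [Lk_sub] at h1
    have h2 := Lk_diff prop b (aR W B) (aI W) ((Lk prop b (aI W))^[T] f) x
      (fun i => abs_aR_sub B (hW x) (hW _)) (c := 1) fun i => by
        have h3 := hb T x
        have h4 := hb T (prop x i)
        rw [abs_le]
        constructor <;> linarith
    rw [abs_le] at h2 ⊢
    push_cast
    constructor <;> linarith

theorem samp_close [Nonempty (PM (Fin n))] (ms : List Bump) {G : List (List ℕ) → ℝ} (hG : ∀ l, 0 ≤ G l ∧ G l ≤ 1)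
    (M : Fin (rr s) → PM (Fin n)) :
    |Ex (sseg s) (fun t => G (sample (WP n s ms) (prpL n s) (b0 s) (BB s) (TT s) (encP M) t)) -
      (Pop (mu (lA n s ms)) (tau n s) (rr s) (b0 s))^[TT s] (fun M => G (encP M)) M| ≤ TT s * (1 / 2 ^ BB s) := by
  have hw := wt_lA (n := n) (s := s) ms
  have hW : ∀ M : Fin (rr s) → PM (Fin n), 0 < WP n s ms (encP M) := fun M => by
    have : (0 : ℝ) < WP n s ms (encP M) := by
      rw [WP_enc]
      exact prod_pos fun i _ => wt_pos hw _
    exact_mod_cast this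
  have hP : Pop (mu (lA n s ms)) (tau n s) (rr s) (b0 s) =
      Lk (prp (tau n s) (rr s)) (b0 s) (aI fun M => WP n s ms (encP M)) := by
    unfold Pop
    congr 1
    funext x y
    have hZ := (ZZ_pos hw).ne'
    simp only [aI, WP_enc, pw, mu, prod_div_distrib]
    rw [div_div_div_cancel_right₀ (prod_ne_zero_iff.2 fun _ _ => hZ)]
  simp only [sample_enc]
  unfold sample
  rw [Ex_runL _ _ (TT s) (sseg s) le_rfl fun M => G (encP M), hP]
  exact kop_close hW _ _ _ (fun M => hG _) _ _

theorem step_close [Nonempty (PM (Fin n))] (hn : n ≤ s) (hs : 100 ≤ s) {b : Bump} {hist : List Bump}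
    (hb : b.1 < n ∧ b.2.1 < n ∧ b.1 ≠ b.2.1) (hx : ∀ u v : Fin n, u ≠ v → dd s ≤ xm (lA n s (b :: hist)) u v)
    {G : List (List ℕ) → ℝ} (hG : ∀ l, 0 ≤ G l ∧ G l ≤ 1) :
    |mn (pw (mu (lA n s hist))) (fun M : Fin (rr s) → PM (Fin n) => Ex (sseg s) fun t =>
        G (sample (WP n s (b :: hist)) (prpL n s) (b0 s) (BB s) (TT s) (encP M) t)) -
      mn (pw (mu (lA n s (b :: hist)))) (fun M : Fin (rr s) → PM (Fin n) => G (encP M))| ≤ 1 / (SS s * (s : ℝ) ^ 18) := by
  obtain ⟨u, v, up⟩ := b
  obtain ⟨hu, hv, huv⟩ := hb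
  lift u to Fin n using hu
  lift v to Fin n using hv
  have huv' : u ≠ v := fun e => huv (congrArg Fin.val e)
  have hA : (1 : ℝ) ≤ AA s := by
    have : 0 < AA s := pow_pos (by omega) _
    exact_mod_cast this
  have hη : ∀ X, |mu (lA n s hist) X - mu (lA n s ((u.val, v.val, up) :: hist)) X| ≤
      3 / (200 * SS s) * mu (lA n s ((u.val, v.val, up) :: hist)) X := fun X => by
    unfold lA
    rw [PA_cons]
    refine mu_bp (SS_pos (by omega)) huv' ?_ X
    unfold sgn
    split_ifs
    · exact Or.inl rfl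
    · exact Or.inr rfl
  have h1 := pop (R := RR s) ⟨pr_mu ((u.val, v.val, up) :: hist), tau_tau⟩ (two_pow_b0 s) rfl (four_le_rr hs) hA
    (hasGap u.pos hn hs (wt_lA _) hx) (pr_mu hist).total hη (r_eta hs) (TT s)
    (F := fun M => G (encP M)) fun M => hG _
  have h2 := mn_close (pr_mu (n := n) (s := s) hist).pw fun M => samp_close (s := s) ((u.val, v.val, up) :: hist) hG M
  have h3 := err_step hs
  rw [abs_le] at h1 h2 ⊢
  constructor <;> linarith [h1.1, h1.2, h2.1, h2.2]

theorem run_close [Nonempty (PM (Fin n))] (hn : n ≤ s) (hs : 100 ≤ s) (ms hist : List Bump) (h : Sch n s hist ms)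
    {len : ℕ} (hl : ms.length * sseg s ≤ len) {F : List (List ℕ) → ℝ} (hF : ∀ l, 0 ≤ F l ∧ F l ≤ 1) :
    |mn (pw (mu (lA n s hist))) (fun M : Fin (rr s) → PM (Fin n) => Ex len fun t =>
        F (ms.foldl (microS n s) (hist, encP M, t)).2.1) -
      mn (pw (mu (lA n s (ms.reverse ++ hist)))) (fun M : Fin (rr s) → PM (Fin n) => F (encP M))| ≤
      ms.length * (1 / (SS s * (s : ℝ) ^ 18)) := by
  induction ms generalizing hist len with
  | nil => simp [Ex_const]
  | cons b ms ih =>
    obtain ⟨hb, hx, hS⟩ := h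
    rw [List.length_cons, Nat.succ_mul] at hl
    have h1 := ih (b :: hist) hS (len := len - sseg s) (by omega)
    have h2 := step_close hn hs hb hx
      (G := fun L => Ex (len - sseg s) fun t => F (ms.foldl (microS n s) (b :: hist, L, t)).2.1)
      fun L => ⟨Ex_nonneg fun t _ => (hF _).1, Ex_le fun t _ => (hF _).2⟩
    have h3 : (fun M : Fin (rr s) → PM (Fin n) => Ex len fun t =>
        F ((b :: ms).foldl (microS n s) (hist, encP M, t)).2.1) = fun M => Ex (sseg s) fun l =>
          Ex (len - sseg s) fun t => F (ms.foldl (microS n s) (b :: hist,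
            sample (WP n s (b :: hist)) (prpL n s) (b0 s) (BB s) (TT s) (encP M) l, t)).2.1 := by
      funext M
      exact Ex_split (by omega) fun l t => F (ms.foldl (microS n s) (b :: hist,
            sample (WP n s (b :: hist)) (prpL n s) (b0 s) (BB s) (TT s) (encP M) l, t)).2.1
    rw [h3, List.reverse_cons, List.append_assoc, List.singleton_append, List.length_cons]
    rw [abs_le] at h1 h2 ⊢
    push_cast
    constructor <;> linarith [h1.1, h1.2, h2.1, h2.2]

theorem popRun_mem (h : Even n) (H : List Bump) (t : List Bool) :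
    ∃ M : Fin (rr s) → PM (Fin n), popRun n s H t = encP M := by
  have h1 : ∀ (ms hist : List Bump) (M : Fin (rr s) → PM (Fin n)) (t : List Bool),
      ∃ M' : Fin (rr s) → PM (Fin n), (ms.foldl (microS n s) (hist, encP M, t)).2.1 = encP M' := by
    intro ms
    induction ms with
    | nil => exact fun _ M _ => ⟨M, rfl⟩
    | cons b ms ih =>
      intro hist M t
      rw [List.foldl_cons]
      unfold microS
      simp only [sample_enc]
      exact ih _ _ _
  obtain ⟨M, hM⟩ := genP_mem (s := s) h (t.take (glen s))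
  unfold popRun
  rw [hM]
  exact h1 _ _ _ _

theorem pop_close (h : Even n) (hn : n ≤ s) (hs : 100 ≤ s) {H : List Bump} (hH : H.length ≤ T0 s)
    (hS : Sch n s [] (micro s H)) {len : ℕ} (hl : plen s ≤ len) {F : List (List ℕ) → ℝ} (hF : ∀ l, 0 ≤ F l ∧ F l ≤ 1) :
    |Ex len (fun t => F (popRun n s H t)) -
      mn (pw (mu (lA n s (micro s H)))) (fun M : Fin (rr s) → PM (Fin n) => F (encP M))| ≤ 2 / (s : ℝ) ^ 10 := by
  obtain ⟨X, -⟩ := X0_mem h
  haveI : Nonempty (PM (Fin n)) := ⟨X⟩
  have hlen : (micro s H).length = H.length * SS s := by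
    unfold micro
    induction H with
    | nil => simp
    | cons b H ih => simp [Nat.succ_mul, add_comm]
  have hlen' : (micro s H).length ≤ T0 s * SS s := hlen ▸ Nat.mul_le_mul_right _ hH
  unfold plen at hl
  have h1 := run_close hn hs (micro s H) [] hS (len := len - glen s)
    ((Nat.mul_le_mul_right _ hlen').trans (by omega)) hF
  have h2 := genP_law h hn hs
    (F := fun L => Ex (len - glen s) fun t => F ((micro s H).foldl (microS n s) ([], L, t)).2.1)
    fun L => ⟨Ex_nonneg fun t _ => (hF _).1, Ex_le fun t _ => (hF _).2⟩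
  have h3 : Ex len (fun t => F (popRun n s H t)) = Ex (glen s) fun l =>
      Ex (len - glen s) fun t => F ((micro s H).foldl (microS n s) ([], genP n s l, t)).2.1 :=
    Ex_split (by omega) fun l t => F ((micro s H).foldl (microS n s) ([], genP n s l, t)).2.1
  have h4 : lA n s ((micro s H).reverse ++ []) = lA n s (micro s H) := by
    unfold lA
    rw [List.append_nil, PA_perm (List.reverse_perm _)]
  have hs0 : (0 : ℝ) < s := by exact_mod_cast (by omega : 0 < s)
  have hS0 : (0 : ℝ) < SS s := by exact_mod_cast SS_pos (by omega)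
  have h5 : ((micro s H).length : ℝ) * (1 / (SS s * (s : ℝ) ^ 18)) ≤ 1 / (s : ℝ) ^ 10 := by
    have a1 : ((micro s H).length : ℝ) ≤ (s : ℝ) ^ 8 * SS s := by exact_mod_cast hlen'
    refine (mul_le_mul_of_nonneg_right a1 (by positivity)).trans (le_of_eq ?_)
    generalize (SS s : ℝ) = A at hS0
    field_simp
  have h6 : 2 / (s : ℝ) ^ 10 = 1 / (s : ℝ) ^ 10 + 1 / (s : ℝ) ^ 10 := by ring
  rw [h4] at h1
  rw [h3, h6]
  rw [abs_le] at h1 h2 ⊢
  constructor <;> linarith [h1.1, h1.2, h2.1, h2.2]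

end Crest.Agent.R304
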