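import Crest.Agent.R304.FF

/-!
# R304: the deterministic approximation algorithm on lists

`T` lists the triples `(i, j, multiplicity)`, `Z` the chosen odd sets.

PLAN for `PT` (library `Crest/Agent/Lib/PT`, style of `R309/PTModel.lean`): prove `PT` of every function in turn (`PT.sum_range`, `PT.map_range`,
`PT.flatMap_range`, `PT.rat_pow` with `PB.countP`, `PT.mcut`, `PT.findIdx`, `PT.eraseIdx`, `PT.find?`, `PT.option_elim`).  `mwZ`: `PT.iterate`; after `i` steps `Z` has at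
most `i` members, each a sublist of `List.range n` (`sz_sublist`, `sz_list_le`).
-/

set_option autoImplicit false
open Finset Crest.Agent.PTime Crest.Agent.R309

namespace Crest.Agent.R304

abbrev Tr := ℕ × ℕ × ℕ

def wL (T : List Tr) (i j : ℕ) : ℕ := (T.map fun t => if t.1 = i ∧ t.2.1 = j then t.2.2 else 0).sum

def wt2 (s : ℕ) (T : List Tr) (i j : ℕ) : ℕ :=
  if i < j then (if wL T i j = 0 then 1 else wL T i j * 2 ^ (3 * s ^ 2)) else 0

def sgq (s : ℕ) : ℚ := 1 / (s : ℚ) ^ 5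
def thq (s : ℕ) : ℚ := 1 + sgq s / 2

def cutB (S : List ℕ) (i j : ℕ) : Bool := decide (¬ (i ∈ S ↔ j ∈ S))

def omq (s : ℕ) (T : List Tr) (Z : List (List ℕ)) (i j : ℕ) : ℚ :=
  (wt2 s T i j : ℚ) * thq s ^ Z.countP fun S => cutB S i j

def Omq (n s : ℕ) (T : List Tr) (Z : List (List ℕ)) : ℚ := ∑ i ∈ range n, ∑ j ∈ range n, omq s T Z i j

def xq (n s : ℕ) (T : List Tr) (Z : List (List ℕ)) (i j : ℕ) : ℚ := ((n / 2 : ℕ) : ℚ) * omq s T Z i j / Omq n s T Z

def xcut (n s : ℕ) (T : List Tr) (Z : List (List ℕ)) (S : List ℕ) : ℚ :=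
  ∑ i ∈ range n, ∑ j ∈ range n, if cutB S i j = true then xq n s T Z i j else 0

def caps (n s : ℕ) (T : List Tr) (Z : List (List ℕ)) : List ℕ :=
  (List.range (n * n)).map fun e => ⌊(s : ℚ) ^ 7 * (xq n s T Z (e / n) (e % n) + xq n s T Z (e % n) (e / n))⌋.toNat

def cands (n s : ℕ) (T : List Tr) (Z : List (List ℕ)) : List (List ℕ) :=
  (List.range n).flatMap fun a => (List.range n).map fun b => mcut n (caps n s T Z) (s ^ 7) a b

def oddL (n : ℕ) (S : List ℕ) : Bool := decide ((List.range n).countP (fun v => decide (v ∈ S)) % 2 = 1)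

def mwS (n s : ℕ) (T : List Tr) (Z : List (List ℕ)) : List (List ℕ) :=
  if Z.findIdx (fun S => decide (1 < xcut n s T Z S)) < Z.length then
    Z.eraseIdx (Z.findIdx fun S => decide (1 < xcut n s T Z S))
  else ((cands n s T Z).find? fun S => oddL n S && decide (xcut n s T Z S < 1 - 2 * sgq s)).elim Z fun S => S :: Z

def mwZ (n s : ℕ) (T : List Tr) : List (List ℕ) := (mwS n s T)^[s ^ 14] []

def qD (n s : ℕ) (T : List Tr) (Z : List (List ℕ)) : ℚ :=
  (Omq n s T Z / ((n / 2 : ℕ) : ℚ)) ^ (n / 2) / thq s ^ Z.length / (27 ^ (n / 2) * 2 ^ (3 * s ^ 2 * (n / 2)))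

def detA (n s : ℕ) (T : List Tr) : ℕ :=
  if n = 0 then 1 else if n % 2 = 1 then 0 else
    if qD n s T (mwZ n s T) < 1 / 9 ^ n then 0 else max 1 ⌊qD n s T (mwZ n s T) / 2⌋.toNat

namespace DetAux

variable {α : Type} [Enc α]

theorem pwL {T : α → List Tr} {i j : α → ℕ} (hT : PT T) (hi : PT i) (hj : PT j) :
    PT (fun a => wL (T a) (i a) (j a)) := by
  unfold wL
  refine PT.list_sum (PT.map ?_ hT)
  exact PT.ite ((PT.id.snd.fst.eq (hi.comp PT.id.fst)).and (PT.id.snd.snd.fst.eq (hj.comp PT.id.fst)))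
    PT.id.snd.snd.snd (PT.const 0)

theorem pwt2 {s : α → ℕ} {T : α → List Tr} {i j : α → ℕ} (hs : PT s) (hs' : PB s) (hT : PT T) (hi : PT i)
    (hj : PT j) : PT (fun a => wt2 (s a) (T a) (i a) (j a)) := by
  have hw := pwL hT hi hj
  unfold wt2
  exact PT.ite (hi.lt hj) (PT.ite (hw.eq (PT.const 0)) (PT.const 1) (hw.mul ((PT.const 2).pow
    ((PT.const 3).mul (hs.pow (PT.const 2) (PB.const 2))) ((PB.const 3).mul (hs'.pow 2))))) (PT.const 0)

theorem psgq {s : α → ℕ} (hs : PT s) : PT (fun a => sgq (s a)) := by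
  unfold sgq
  exact (PT.const 1).rat_div (hs.natCast_rat.rat_pow (PT.const 5) (PB.const 5))

theorem pthq {s : α → ℕ} (hs : PT s) : PT (fun a => thq (s a)) := by
  unfold thq
  exact (PT.const 1).rat_add ((psgq hs).rat_div (PT.const 2))

theorem pcutB {S : α → List ℕ} {i j : α → ℕ} (hS : PT S) (hi : PT i) (hj : PT j) :
    PT (fun a => cutB (S a) (i a) (j a)) := by
  unfold cutB
  exact ((hi.mem hS).iff (hj.mem hS)).not.decide

section
variable {n s : α → ℕ} {T : α → List Tr} {Z : α → List (List ℕ)}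

theorem pomq {i j : α → ℕ} (hs : PT s) (hs' : PB s) (hT : PT T) (hZ : PT Z) (hi : PT i) (hj : PT j) :
    PT (fun a => omq (s a) (T a) (Z a) (i a) (j a)) := by
  unfold omq
  exact (pwt2 hs hs' hT hi hj).natCast_rat.rat_mul ((pthq hs).rat_pow
    (PT.countP (pcutB PT.id.snd (hi.comp PT.id.fst) (hj.comp PT.id.fst)) hZ) (PB.countP hZ))

theorem pOmq (hn : PT n) (hn' : PB n) (hs : PT s) (hs' : PB s) (hT : PT T) (hZ : PT Z) :
    PT (fun a => Omq (n a) (s a) (T a) (Z a)) := by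
  unfold Omq
  have f2 : PT (fun p : (α × U) × U => p.1.1) := PT.id.fst.fst
  exact PT.sum_range hn hn' (PT.sum_range (hn.comp PT.id.fst) (hn'.comp PT.id.fst)
    (pomq (hs.comp f2) (hs'.comp f2) (hT.comp f2) (hZ.comp f2) PT.id.fst.snd.val PT.id.snd.val))

theorem pxq {i j : α → ℕ} (hn : PT n) (hn' : PB n) (hs : PT s) (hs' : PB s) (hT : PT T) (hZ : PT Z) (hi : PT i)
    (hj : PT j) : PT (fun a => xq (n a) (s a) (T a) (Z a) (i a) (j a)) := by
  unfold xq
  exact ((hn.div (PT.const 2)).natCast_rat.rat_mul (pomq hs hs' hT hZ hi hj)).rat_div (pOmq hn hn' hs hs' hT hZ)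

theorem pxcut {S : α → List ℕ} (hn : PT n) (hn' : PB n) (hs : PT s) (hs' : PB s) (hT : PT T) (hZ : PT Z)
    (hS : PT S) : PT (fun a => xcut (n a) (s a) (T a) (Z a) (S a)) := by
  unfold xcut
  have f2 : PT (fun p : (α × U) × U => p.1.1) := PT.id.fst.fst
  have hi : PT (fun p : (α × U) × U => p.1.2.val) := PT.id.fst.snd.val
  have hj : PT (fun p : (α × U) × U => p.2.val) := PT.id.snd.val
  exact PT.sum_range hn hn' (PT.sum_range (hn.comp PT.id.fst) (hn'.comp PT.id.fst)
    (PT.ite ((pcutB (hS.comp f2) hi hj).eq (PT.const true))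
      (pxq (hn.comp f2) (hn'.comp f2) (hs.comp f2) (hs'.comp f2) (hT.comp f2) (hZ.comp f2) hi hj) (PT.const 0)))

theorem pcaps (hn : PT n) (hn' : PB n) (hs : PT s) (hs' : PB s) (hT : PT T) (hZ : PT Z) :
    PT (fun a => caps (n a) (s a) (T a) (Z a)) := by
  unfold caps
  have f1 : PT (fun p : α × U => p.1) := PT.id.fst
  have hi : PT (fun p : α × U => p.2.val / n p.1) := PT.id.snd.val.div (hn.comp f1)
  have hj : PT (fun p : α × U => p.2.val % n p.1) := PT.id.snd.val.mod (hn.comp f1)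
  exact PT.map_range (hn.mul hn) (hn'.mul hn') (((hs.comp f1).natCast_rat.rat_pow (PT.const 7) (PB.const 7)).rat_mul
    ((pxq (hn.comp f1) (hn'.comp f1) (hs.comp f1) (hs'.comp f1) (hT.comp f1) (hZ.comp f1) hi hj).rat_add
      (pxq (hn.comp f1) (hn'.comp f1) (hs.comp f1) (hs'.comp f1) (hT.comp f1) (hZ.comp f1) hj hi))).floor.toNat

theorem pcands (hn : PT n) (hn' : PB n) (hs : PT s) (hs' : PB s) (hT : PT T) (hZ : PT Z) :
    PT (fun a => R304.cands (n a) (s a) (T a) (Z a)) := by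
  unfold R304.cands
  have f2 : PT (fun p : (α × U) × U => p.1.1) := PT.id.fst.fst
  exact PT.flatMap_range hn hn' (PT.map_range (hn.comp PT.id.fst) (hn'.comp PT.id.fst)
    (PT.mcut (hn.comp f2) (hn'.comp f2) ((pcaps hn hn' hs hs' hT hZ).comp f2)
      ((hs.comp f2).pow (PT.const 7) (PB.const 7)) ((hs'.comp f2).pow 7) PT.id.fst.snd.val PT.id.snd.val))

theorem poddL {S : α → List ℕ} (hn : PT n) (hn' : PB n) (hS : PT S) : PT (fun a => oddL (n a) (S a)) := by
  unfold oddL
  exact (((PT.countP (PT.id.snd.mem (hS.comp PT.id.fst)).decide (PT.range hn hn')).mod (PT.const 2)).eq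
    (PT.const 1)).decide

theorem pmwS (hn : PT n) (hn' : PB n) (hs : PT s) (hs' : PB s) (hT : PT T) (hZ : PT Z) :
    PT (fun a => mwS (n a) (s a) (T a) (Z a)) := by
  have f1 : PT (fun p : α × List ℕ => p.1) := PT.id.fst
  have hx : PT (fun p : α × List ℕ => xcut (n p.1) (s p.1) (T p.1) (Z p.1) p.2) :=
    pxcut (hn.comp f1) (hn'.comp f1) (hs.comp f1) (hs'.comp f1) (hT.comp f1) (hZ.comp f1) PT.id.snd
  have hf : PT (fun a => (Z a).findIdx fun S => decide (1 < xcut (n a) (s a) (T a) (Z a) S)) :=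
    PT.findIdx ((PT.const 1).rat_lt hx).decide hZ
  unfold mwS
  exact PT.ite (hf.lt hZ.length) (hf.eraseIdx hZ) (PT.option_elim (PT.find?
    ((poddL (hn.comp f1) (hn'.comp f1) PT.id.snd).band (hx.rat_lt ((PT.const 1).rat_sub
      ((PT.const 2).rat_mul (psgq (hs.comp f1))))).decide) (pcands hn hn' hs hs' hT hZ)) hZ
    (PT.id.snd.cons (hZ.comp f1)))

end

theorem mw_inv (n s : ℕ) (T : List Tr) (i : ℕ) : ((mwS n s T)^[i] []).length ≤ i ∧
    ∀ S ∈ (mwS n s T)^[i] [], S.Sublist (List.range n) := by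
  induction i with
  | zero => simp
  | succ i ih =>
    rw [Function.iterate_succ_apply']
    generalize (mwS n s T)^[i] [] = Z at ih
    unfold mwS
    split_ifs
    · exact ⟨(List.eraseIdx_sublist _ _).length_le.trans (ih.1.trans (Nat.le_succ i)),
        fun S hS => ih.2 S ((List.eraseIdx_sublist _ _).subset hS)⟩
    · cases hf : (R304.cands n s T Z).find? fun S => oddL n S && decide (xcut n s T Z S < 1 - 2 * sgq s) with
      | none => exact ⟨ih.1.trans (Nat.le_succ i), ih.2⟩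
      | some S =>
        refine ⟨Nat.succ_le_succ ih.1, fun S' hS' => ?_⟩
        rcases List.mem_cons.1 hS' with rfl | hS'
        · obtain ⟨a, -, ha⟩ := List.mem_flatMap.1 (List.mem_of_find?_eq_some hf)
          obtain ⟨b, -, rfl⟩ := List.mem_map.1 ha
          exact List.filter_sublist
        · exact ih.2 S' hS'

theorem pmwZ {n s : α → ℕ} {T : α → List Tr} (hn : PT n) (hn' : PB n) (hs : PT s) (hs' : PB s) (hT : PT T) :
    PT (fun a => mwZ (n a) (s a) (T a)) := by
  have f1 : PT (fun p : α × List (List ℕ) => p.1) := PT.id.fst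
  unfold mwZ
  refine PT.iterate (f := fun a => mwS (n a) (s a) (T a))
    (pmwS (hn.comp f1) (hn'.comp f1) (hs.comp f1) (hs'.comp f1) (hT.comp f1) PT.id.snd) (PT.const [])
    (hs.pow (PT.const 14) (PB.const 14)) (hs'.pow 14) (B := fun a => s a ^ 14 * (sz (List.range (n a)) + 1) + 1)
    (((hs'.pow 14).mul ((PT.range hn hn').pb_sz.add (PB.const 1))).add (PB.const 1)) fun a i hi => ?_
  obtain ⟨h1, h2⟩ := mw_inv (n a) (s a) (T a) i
  exact (sz_list_le fun S hS => sz_sublist (h2 S hS)).trans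
    (Nat.add_le_add_right (Nat.mul_le_mul_right _ (h1.trans hi)) 1)

theorem pqD {n s : α → ℕ} {T : α → List Tr} {Z : α → List (List ℕ)} (hn : PT n) (hn' : PB n) (hs : PT s) (hs' : PB s)
    (hT : PT T) (hZ : PT Z) : PT (fun a => qD (n a) (s a) (T a) (Z a)) := by
  have h2 := hn.div (PT.const 2)
  have h2' : PB (fun a => n a / 2) := hn'.div
  unfold qD
  exact ((((pOmq hn hn' hs hs' hT hZ).rat_div h2.natCast_rat).rat_pow h2 h2').rat_div
    ((pthq hs).rat_pow hZ.length (PB.length hZ))).rat_div (((PT.const 27).rat_pow h2 h2').rat_mul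
      ((PT.const 2).rat_pow (((PT.const 3).mul (hs.pow (PT.const 2) (PB.const 2))).mul h2)
        (((PB.const 3).mul (hs'.pow 2)).mul h2')))

end DetAux
open DetAux

theorem PT.detA {α : Type} [Enc α] {n s : α → ℕ} {T : α → List Tr} (hn : PT n) (hn' : PB n) (hs : PT s) (hs' : PB s)
    (hT : PT T) : PT (fun a => R304.detA (n a) (s a) (T a)) := by
  have hq := pqD hn hn' hs hs' hT (pmwZ hn hn' hs hs' hT)
  unfold R304.detA
  exact PT.ite (hn.eq (PT.const 0)) (PT.const 1) (PT.ite ((hn.mod (PT.const 2)).eq (PT.const 1)) (PT.const 0)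
    (PT.ite (hq.rat_lt ((PT.const 1).rat_div ((PT.const 9).rat_pow hn hn'))) (PT.const 0)
      ((PT.const 1).max (hq.rat_div (PT.const 2)).floor.toNat)))

end Crest.Agent.R304
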