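import Crest.Agent.R304.Rep

/-!
# R304: multiplicative weights for the odd set constraints

PLAN.  `esym_le`: `(∑ ω)^m = ∑_{f : Fin m → E} ∏ ω (f i)` (`Finset.sum_pow'`/`Finset.prod_univ_sum`) is at least the sum over the injective `f`; or induction on `m`
with `(m+1) e_{m+1} ≤ e_m ∑ ω`.  `upper`: a matching `M` of nonzero weight has `Supp id univ (chi M)`, `m` edges (`cut_ind`, `sum_deg`) and meets the cut of every
member of `Z` (`cut_ind`), so `∏ om ≥ θ^|Z| ∏ w` (induction on `Z`); `m^m ≤ m! e^m` (`Real.pow_div_factorial_le_exp`), `e ≤ 3`.  `one_le_NN`: the matching `{(2i, 2i+1)}`.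
`Om_cons`: `om (S :: Z) e = om Z e * (if e is cut then θ else 1)`.  `add_step`: `m log (1 + (θ-1) c/m) ≤ (θ-1) c`, `log θ ≥ η - η^2` for `η = σ/2` (`log θ ≥ 1 - 1/θ`):
`η (1-2σ) - (1-σ)(η - η^2) ≤ -ση + η^2 = -σ^2/4`.  `del_step`: in terms of the weights of `S :: Z`,
`Om Z = Om (S :: Z) * (1 - (1 - 1/θ) c / m)`, `m log (..) ≤ -(1 - 1/θ) c ≤ -(η - η^2)`, `log θ ≤ η`.
`FF_eq`: `x e * log (w e) - x e * log (x e) = x e * (log (Om/m) - count e * log θ)`, and `∑ e, x e * count e = ∑_{S ∈ Z} cut x S` (induction on `Z`).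
`stop_bound`: `repair`, `lower`; `FF w ((1-τ)x + τ y) ≥ (1-τ) FF w x` (`Real.concaveOn_negMulLog`, `Real.negMulLog_nonneg`, `log w ≥ 0` on the support),
`FF w x ≥ log DD`, `τ log DD ≤ m`, `e^(3m) ≤ 27^m`.
-/

set_option autoImplicit false
open Finset

namespace Crest.Agent.R304

variable {n m : ℕ}

def om (θ : ℝ) (w : Fin n × Fin n → ℝ) (Z : List (Finset (Fin n))) (e : Fin n × Fin n) : ℝ :=
  w e * θ ^ Z.countP fun S => decide (¬ (e.1 ∈ S ↔ e.2 ∈ S))

def Om (θ : ℝ) (w : Fin n × Fin n → ℝ) (Z : List (Finset (Fin n))) : ℝ := ∑ e, om θ w Z e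

noncomputable def xx (m : ℕ) (θ : ℝ) (w : Fin n × Fin n → ℝ) (Z : List (Finset (Fin n))) (e : Fin n × Fin n) : ℝ :=
  m * om θ w Z e / Om θ w Z

noncomputable def DD (m : ℕ) (θ : ℝ) (w : Fin n × Fin n → ℝ) (Z : List (Finset (Fin n))) : ℝ :=
  (Om θ w Z / m) ^ m / θ ^ Z.length

noncomputable def Psi (m : ℕ) (σ : ℝ) (w : Fin n × Fin n → ℝ) (Z : List (Finset (Fin n))) : ℝ :=
  m * Real.log (Om (1 + σ / 2) w Z / m) - (1 - σ) * Z.length * Real.log (1 + σ / 2)

/-- weights at least one on the complete graph -/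
structure KW (m : ℕ) (w : Fin n × Fin n → ℝ) : Prop where
  card : n = 2 * m
  pos : 1 ≤ m
  ge : ∀ e : Fin n × Fin n, e.1 < e.2 → 1 ≤ w e
  zero : ∀ e : Fin n × Fin n, ¬ e.1 < e.2 → w e = 0

variable {w : Fin n × Fin n → ℝ} {Z : List (Finset (Fin n))} {θ σ : ℝ}

theorem esym_le {E : Type} [Fintype E] [DecidableEq E] {ω : E → ℝ} (h : ∀ e, 0 ≤ ω e) (m : ℕ) :
    (m.factorial : ℝ) * ∑ M ∈ powersetCard m univ, ∏ e ∈ M, ω e ≤ (∑ e, ω e) ^ m := by
  induction m with
  | zero => simp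
  | succ m ih =>
    have key : ((m : ℝ) + 1) * ∑ M ∈ powersetCard (m + 1) (univ : Finset E), ∏ e ∈ M, ω e ≤
        (∑ M ∈ powersetCard m (univ : Finset E), ∏ e ∈ M, ω e) * ∑ e, ω e := by
      have h1 : ((m : ℝ) + 1) * ∑ M ∈ powersetCard (m + 1) (univ : Finset E), ∏ e ∈ M, ω e =
          ∑ a, ∑ M ∈ (powersetCard (m + 1) (univ : Finset E)).filter (fun M => a ∈ M),
            (∏ e ∈ M.erase a, ω e) * ω a := by
        simp only [sum_filter]
        rw [sum_comm, mul_sum]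
        refine sum_congr rfl fun M hM => ?_
        rw [← sum_filter, filter_mem_eq_inter, univ_inter, sum_congr rfl fun a ha => prod_erase_mul M ω ha,
          sum_const, (mem_powersetCard.1 hM).2]
        simp
      rw [h1, mul_sum]
      refine sum_le_sum fun a _ => ?_
      rw [← sum_mul]
      refine mul_le_mul_of_nonneg_right ?_ (h a)
      rw [← sum_image (s := (powersetCard (m + 1) (univ : Finset E)).filter (fun M => a ∈ M))
        (g := fun M => M.erase a) (f := fun N => ∏ e ∈ N, ω e)]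
      · refine sum_le_sum_of_subset_of_nonneg ?_ fun N _ _ => prod_nonneg fun e _ => h e
        intro N hN
        obtain ⟨M, hM, rfl⟩ := mem_image.1 hN
        obtain ⟨hM1, hM2⟩ := mem_filter.1 hM
        refine mem_powersetCard.2 ⟨subset_univ _, ?_⟩
        rw [card_erase_of_mem hM2, (mem_powersetCard.1 hM1).2]
        simp
      · intro M hM N hN hMN
        have h2 : a ∈ M := (mem_filter.1 hM).2
        have h3 : a ∈ N := (mem_filter.1 hN).2
        rw [← insert_erase h2, ← insert_erase h3]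
        exact congrArg _ hMN
    have h0 : 0 ≤ ∑ e, ω e := sum_nonneg fun e _ => h e
    have hf : (0 : ℝ) ≤ m.factorial := Nat.cast_nonneg _
    rw [Nat.factorial_succ, pow_succ]
    push_cast
    calc ((m : ℝ) + 1) * m.factorial * ∑ M ∈ powersetCard (m + 1) (univ : Finset E), ∏ e ∈ M, ω e
        = m.factorial * (((m : ℝ) + 1) * ∑ M ∈ powersetCard (m + 1) (univ : Finset E), ∏ e ∈ M, ω e) := by ring
      _ ≤ m.factorial * ((∑ M ∈ powersetCard m (univ : Finset E), ∏ e ∈ M, ω e) * ∑ e, ω e) :=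
          mul_le_mul_of_nonneg_left key hf
      _ = (m.factorial * ∑ M ∈ powersetCard m (univ : Finset E), ∏ e ∈ M, ω e) * ∑ e, ω e := by ring
      _ ≤ _ := mul_le_mul_of_nonneg_right ih h0

theorem KW.nonneg (h : KW m w) (e : Fin n × Fin n) : 0 ≤ w e := by
  by_cases he : e.1 < e.2
  · linarith [h.ge e he]
  · exact (h.zero e he).ge

theorem KW.log_nonneg (h : KW m w) (e : Fin n × Fin n) : 0 ≤ Real.log (w e) := by
  by_cases he : e.1 < e.2
  · exact Real.log_nonneg (h.ge e he)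
  · simp [h.zero e he]

theorem KW.mpos (h : KW m w) : (0 : ℝ) < m := by
  have := h.pos
  exact_mod_cast (by omega : 0 < m)

theorem om_nonneg (h : KW m w) (hθ : 0 < θ) (Z : List (Finset (Fin n))) (e : Fin n × Fin n) : 0 ≤ om θ w Z e :=
  mul_nonneg (h.nonneg e) (pow_nonneg hθ.le _)

theorem om_cons (S : Finset (Fin n)) (e : Fin n × Fin n) :
    om θ w (S :: Z) e = om θ w Z e * if (e.1 ∈ S ↔ e.2 ∈ S) then 1 else θ := by
  unfold om
  rw [List.countP_cons]
  by_cases he : (e.1 ∈ S ↔ e.2 ∈ S)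
  · simp [he]
  · simp [he, pow_succ, mul_assoc]

theorem pm_supp {M : Finset (Fin n × Fin n)} (hu : ∀ e ∈ M, e.1 < e.2) : Supp id univ (chi M) := by
  intro e he
  have he' : e ∈ M := by
    by_contra hn
    exact he (by simp [chi, hn])
  exact ⟨mem_univ _, mem_univ _, (hu e he').ne⟩

theorem pm_card {M : Finset (Fin n × Fin n)} (hM : PMon id univ M) (hu : ∀ e ∈ M, e.1 < e.2) : 2 * M.card = n := by
  have h1 := sum_deg (pm_supp hu)
  rw [sum_congr rfl (cut_ind hM (pm_supp hu)).1] at h1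
  have h2 : ∑ e, chi M e = (M.card : ℝ) := by
    unfold chi
    rw [← sum_filter, filter_mem_eq_inter, univ_inter]
    simp
  rw [h2] at h1
  simp only [sum_const, card_univ, Fintype.card_fin, nsmul_eq_mul, mul_one] at h1
  exact_mod_cast h1.symm

theorem pm_cross {M : Finset (Fin n × Fin n)} (hM : PMon id univ M) (hu : ∀ e ∈ M, e.1 < e.2) {S : Finset (Fin n)}
    (hS : Odd S.card) : ∃ e ∈ M, ¬ (e.1 ∈ S ↔ e.2 ∈ S) := by
  by_contra hn
  have h1 := (cut_ind hM (pm_supp hu)).2 S (subset_univ _) hS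
  have h2 : cut id (chi M) S = 0 := by
    unfold cut
    refine sum_eq_zero fun e _ => ?_
    by_cases he : e ∈ M
    · have : (e.1 ∈ S ↔ e.2 ∈ S) := by
        by_contra h3
        exact hn ⟨e, he, h3⟩
      simp [this]
    · simp [chi, he]
  linarith

theorem cut_xx (S : Finset (Fin n)) : cut id (xx m θ w Z) S = m * cut id (om θ w Z) S / Om θ w Z := by
  unfold cut xx
  rw [mul_sum, sum_div]
  refine sum_congr rfl fun e _ => ?_
  split_ifs <;> simp

theorem Om_pos (h : KW m w) (hθ : 0 < θ) (Z : List (Finset (Fin n))) : 0 < Om θ w Z := by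
  have hn := h.card
  have hm := h.pos
  let e : Fin n × Fin n := (⟨0, by omega⟩, ⟨1, by omega⟩)
  have he : e.1 < e.2 := by simp [e, Fin.lt_def]
  have h1 : 0 < om θ w Z e := mul_pos (by linarith [h.ge e he]) (pow_pos hθ _)
  exact lt_of_lt_of_le h1 (single_le_sum (f := om θ w Z) (fun e _ => om_nonneg h hθ Z e) (mem_univ e))

theorem xx_spec (h : KW m w) (hθ : 0 < θ) (Z : List (Finset (Fin n))) :
    (∀ e, 0 ≤ xx m θ w Z e) ∧ Up (xx m θ w Z) ∧ ∑ e, xx m θ w Z e = m := by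
  have hO := Om_pos h hθ Z
  refine ⟨fun e => div_nonneg (mul_nonneg h.mpos.le (om_nonneg h hθ Z e)) hO.le, fun e he => ?_, ?_⟩
  · by_contra hn
    exact he (by simp [xx, om, h.zero e hn])
  · unfold xx
    rw [← sum_div, ← mul_sum]
    change (m : ℝ) * Om θ w Z / Om θ w Z = m
    field_simp

theorem om_perm {Z' : List (Finset (Fin n))} (h : Z.Perm Z') : om θ w Z = om θ w Z' := by
  funext e
  unfold om
  rw [h.countP_eq]

theorem prod_om (h : KW m w) (hθ : 1 ≤ θ) (hZ : ∀ S ∈ Z, Odd S.card) {M : Finset (Fin n × Fin n)}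
    (hM : PMon id univ M) (hu : ∀ e ∈ M, e.1 < e.2) : θ ^ Z.length * ∏ e ∈ M, w e ≤ ∏ e ∈ M, om θ w Z e := by
  have hθ0 : 0 < θ := by linarith
  induction Z with
  | nil => simp [om]
  | cons S Z ih =>
    have ih' := ih fun T hT => hZ T (List.mem_cons_of_mem _ hT)
    obtain ⟨e, he, hc⟩ := pm_cross hM hu (hZ S List.mem_cons_self)
    have h1 : θ ≤ ∏ e ∈ M, if (e.1 ∈ S ↔ e.2 ∈ S) then 1 else θ := by
      rw [← mul_prod_erase M _ he, if_neg hc]
      refine le_mul_of_one_le_right hθ0.le ?_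
      refine Finset.prod_induction _ (fun x : ℝ => 1 ≤ x) (fun a b ha hb => one_le_mul_of_one_le_of_one_le ha hb)
        le_rfl fun e _ => ?_
      split_ifs
      · exact le_rfl
      · exact hθ
    simp only [om_cons, prod_mul_distrib, List.length_cons, pow_succ]
    have h2 : 0 ≤ ∏ e ∈ M, om θ w Z e := prod_nonneg fun e _ => om_nonneg h hθ0 Z e
    calc θ ^ Z.length * θ * ∏ e ∈ M, w e = (θ ^ Z.length * ∏ e ∈ M, w e) * θ := by ring
      _ ≤ _ := mul_le_mul ih' h1 hθ0.le h2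

theorem upper (h : KW m w) (hθ : 1 ≤ θ) (hZ : ∀ S ∈ Z, Odd S.card) : NN w ≤ 3 ^ m * DD m θ w Z := by
  classical
  have hθ0 : 0 < θ := by linarith
  have hm := h.mpos
  have hO := Om_pos h hθ0 Z
  have h1 : θ ^ Z.length * NN w ≤ ∑ M ∈ powersetCard m (univ : Finset (Fin n × Fin n)), ∏ e ∈ M, om θ w Z e := by
    unfold NN
    rw [mul_sum, ← sum_filter_ne_zero]
    refine le_trans (sum_le_sum (g := fun M => ∏ e ∈ M, om θ w Z e) fun M hM => ?_)
      (sum_le_sum_of_subset_of_nonneg (fun M hM => ?_) fun M _ _ => prod_nonneg fun e _ => om_nonneg h hθ0 Z e)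
    all_goals
      obtain ⟨hM1, hM2⟩ := mem_filter.1 hM
      have hpm := (mem_filter.1 hM1).2
      have hu : ∀ e ∈ M, e.1 < e.2 := fun e he => by
        by_contra hn
        exact hM2 (by rw [prod_eq_zero he (h.zero e hn), mul_zero])
    · exact prod_om h hθ hZ hpm hu
    · have h2 := pm_card hpm hu
      have h3 := h.card
      exact mem_powersetCard.2 ⟨subset_univ _, by omega⟩
  have h2 := esym_le (om_nonneg h hθ0 Z) m
  have h3 : (m : ℝ) ^ m ≤ 3 ^ m * m.factorial := by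
    have h4 := Real.pow_div_factorial_le_exp (m : ℝ) hm.le m
    have hf : (0 : ℝ) < m.factorial := by exact_mod_cast m.factorial_pos
    rw [div_le_iff₀ hf] at h4
    refine h4.trans (mul_le_mul_of_nonneg_right ?_ hf.le)
    rw [← Real.exp_one_pow]
    exact pow_le_pow_left₀ (Real.exp_pos _).le (by linarith [Real.exp_one_lt_d9]) m
  have hf : (0 : ℝ) < m.factorial := by exact_mod_cast m.factorial_pos
  have hN : 0 ≤ θ ^ Z.length * NN w := by
    unfold NN
    exact mul_nonneg (pow_nonneg hθ0.le _) (sum_nonneg fun M _ => prod_nonneg fun e _ => h.nonneg e)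
  unfold DD
  rw [div_pow, ← mul_div_assoc, le_div_iff₀ (pow_pos hθ0 _), ← mul_div_assoc, le_div_iff₀ (pow_pos hm _)]
  change _ ≤ (Om θ w Z) ^ m at h2
  calc NN w * θ ^ Z.length * (m : ℝ) ^ m = (θ ^ Z.length * NN w) * (m : ℝ) ^ m := by ring
    _ ≤ (θ ^ Z.length * NN w) * (3 ^ m * m.factorial) := mul_le_mul_of_nonneg_left h3 hN
    _ = 3 ^ m * (m.factorial * (θ ^ Z.length * NN w)) := by ring
    _ ≤ 3 ^ m * Om θ w Z ^ m :=
        mul_le_mul_of_nonneg_left ((mul_le_mul_of_nonneg_left h1 hf.le).trans h2) (by positivity)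

theorem one_le_NN (h : KW m w) : 1 ≤ NN w := by
  classical
  have hn := h.card
  let M : Finset (Fin n × Fin n) := univ.filter fun e => e.1.val % 2 = 0 ∧ e.2.val = e.1.val + 1
  have hM : PMon id univ M := by
    intro v _
    have hv := v.2
    rw [card_eq_one]
    refine ⟨(⟨v.val - v.val % 2, by omega⟩, ⟨v.val - v.val % 2 + 1, by omega⟩), ?_⟩
    ext ⟨a, b⟩
    simp only [M, mem_filter, mem_univ, true_and, id, mem_singleton, Prod.mk.injEq, Fin.ext_iff]
    omega
  have h1 : 1 ≤ ∏ e ∈ M, w e := by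
    refine Finset.prod_induction _ (fun x : ℝ => 1 ≤ x) (fun a b ha hb => one_le_mul_of_one_le_of_one_le ha hb)
      le_rfl fun e he => h.ge e ?_
    have := (mem_filter.1 he).2
    rw [Fin.lt_def]
    omega
  unfold NN
  exact h1.trans (single_le_sum (f := fun M : Finset (Fin n × Fin n) => ∏ e ∈ M, w e)
    (fun M _ => prod_nonneg fun e _ => h.nonneg e) (mem_filter.2 ⟨mem_univ _, hM⟩))

theorem Om_cons (h : KW m w) (hθ : 0 < θ) (S : Finset (Fin n)) :
    Om θ w (S :: Z) = Om θ w Z * (1 + (θ - 1) * cut id (xx m θ w Z) S / m) := by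
  have hm := h.mpos
  have hO := Om_pos h hθ Z
  have h1 : Om θ w (S :: Z) = Om θ w Z + (θ - 1) * cut id (om θ w Z) S := by
    unfold Om cut
    rw [mul_sum, ← sum_add_distrib]
    refine sum_congr rfl fun e _ => ?_
    rw [om_cons]
    simp only [id]
    split_ifs <;> ring
  rw [h1, cut_xx]
  field_simp

theorem log_lb {η : ℝ} (hη : 0 < η) : η - η ^ 2 ≤ 1 - (1 + η)⁻¹ ∧ 1 - (1 + η)⁻¹ ≤ Real.log (1 + η) := by
  refine ⟨?_, Real.one_sub_inv_le_log_of_pos (by linarith)⟩
  have h1 : (1 + η)⁻¹ ≤ 1 - η + η ^ 2 := by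
    rw [inv_le_iff_one_le_mul₀ (by linarith)]
    nlinarith [pow_pos hη 3]
  linarith

theorem add_step (h : KW m w) (hσ : 0 < σ) (hσ1 : σ ≤ 1 / 2) {S : Finset (Fin n)}
    (hS : cut id (xx m (1 + σ / 2) w Z) S < 1 - 2 * σ) : Psi m σ w (S :: Z) ≤ Psi m σ w Z - σ ^ 2 / 4 := by
  have hm := h.mpos
  have hθ : (0 : ℝ) < 1 + σ / 2 := by linarith
  have hO := Om_pos h hθ Z
  have hc : 0 ≤ cut id (xx m (1 + σ / 2) w Z) S := cut_nonneg (xx_spec h hθ Z).1 S
  obtain ⟨h1, h2⟩ := log_lb (η := σ / 2) (by linarith)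
  unfold Psi
  rw [Om_cons h hθ S]
  set c := cut id (xx m (1 + σ / 2) w Z) S with hcd
  have hp : 0 < 1 + (1 + σ / 2 - 1) * c / m := by
    have : 0 ≤ (1 + σ / 2 - 1) * c / m := div_nonneg (mul_nonneg (by linarith) hc) hm.le
    linarith
  have h3 : Real.log (Om (1 + σ / 2) w Z * (1 + (1 + σ / 2 - 1) * c / m) / m) =
      Real.log (Om (1 + σ / 2) w Z / m) + Real.log (1 + (1 + σ / 2 - 1) * c / m) := by
    rw [← Real.log_mul (div_pos hO hm).ne' hp.ne']
    congr 1
    ring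
  have h4 : m * Real.log (1 + (1 + σ / 2 - 1) * c / m) ≤ σ / 2 * c := by
    have h5 := Real.log_le_sub_one_of_pos hp
    calc m * Real.log (1 + (1 + σ / 2 - 1) * c / m) ≤ m * (1 + (1 + σ / 2 - 1) * c / m - 1) :=
          mul_le_mul_of_nonneg_left h5 hm.le
      _ = σ / 2 * c := by field_simp; ring
  rw [h3, List.length_cons]
  push_cast
  have h6 : (1 - σ) * (σ / 2 - (σ / 2) ^ 2) ≤ (1 - σ) * Real.log (1 + σ / 2) :=
    mul_le_mul_of_nonneg_left (h1.trans h2) (by linarith)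
  have h7 : σ / 2 * c ≤ σ / 2 * (1 - 2 * σ) := mul_le_mul_of_nonneg_left hS.le (by linarith)
  nlinarith [pow_pos hσ 3]

theorem del_step (h : KW m w) (hσ : 0 < σ) (hσ1 : σ ≤ 1 / 2) {S : Finset (Fin n)}
    (hS : 1 < cut id (xx m (1 + σ / 2) w (S :: Z)) S) : Psi m σ w Z ≤ Psi m σ w (S :: Z) - σ ^ 2 / 4 := by
  have hm := h.mpos
  have hθ : (0 : ℝ) < 1 + σ / 2 := by linarith
  have hO := Om_pos h hθ Z
  have hO' := Om_pos h hθ (S :: Z)
  obtain ⟨h1, -⟩ := log_lb (η := σ / 2) (by linarith)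
  have h2 : Real.log (1 + σ / 2) ≤ σ / 2 := by linarith [Real.log_le_sub_one_of_pos hθ]
  have hE : Om (1 + σ / 2) w Z = Om (1 + σ / 2) w (S :: Z) *
      (1 - (1 - (1 + σ / 2)⁻¹) * cut id (xx m (1 + σ / 2) w (S :: Z)) S / m) := by
    have h3 : Om (1 + σ / 2) w Z = Om (1 + σ / 2) w (S :: Z) -
        (1 - (1 + σ / 2)⁻¹) * cut id (om (1 + σ / 2) w (S :: Z)) S := by
      unfold Om cut
      rw [mul_sum, ← sum_sub_distrib]
      refine sum_congr rfl fun e _ => ?_
      rw [om_cons]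
      simp only [id]
      split_ifs
      · ring
      · field_simp
        ring
    rw [h3, cut_xx]
    generalize Om (1 + σ / 2) w (S :: Z) = A at hO' ⊢
    generalize cut id (om (1 + σ / 2) w (S :: Z)) S = B
    generalize 1 - (1 + σ / 2)⁻¹ = C
    field_simp
  set c := cut id (xx m (1 + σ / 2) w (S :: Z)) S with hcd
  set κ := 1 - (1 + σ / 2)⁻¹ with hκ
  have hp : 0 < 1 - κ * c / m := by
    rw [hE] at hO
    exact (mul_pos_iff_of_pos_left hO').1 hO
  unfold Psi
  rw [hE]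
  have h3 : Real.log (Om (1 + σ / 2) w (S :: Z) * (1 - κ * c / m) / m) =
      Real.log (Om (1 + σ / 2) w (S :: Z) / m) + Real.log (1 - κ * c / m) := by
    rw [← Real.log_mul (div_pos hO' hm).ne' hp.ne']
    congr 1
    ring
  have h4 : m * Real.log (1 - κ * c / m) ≤ -(κ * c) := by
    have h5 := Real.log_le_sub_one_of_pos hp
    calc m * Real.log (1 - κ * c / m) ≤ m * (1 - κ * c / m - 1) := mul_le_mul_of_nonneg_left h5 hm.le
      _ = -(κ * c) := by field_simp; ring
  rw [h3, List.length_cons]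
  push_cast
  have h6 : (1 - σ) * Real.log (1 + σ / 2) ≤ (1 - σ) * (σ / 2) := mul_le_mul_of_nonneg_left h2 (by linarith)
  have hκ0 : 0 ≤ κ := le_trans (by nlinarith) h1
  have h7 : κ * 1 ≤ κ * c := mul_le_mul_of_nonneg_left hS.le hκ0
  nlinarith

theorem log_DD (h : KW m w) (hθ : 0 < θ) :
    Real.log (DD m θ w Z) = m * Real.log (Om θ w Z / m) - Z.length * Real.log θ := by
  unfold DD
  rw [Real.log_div (pow_pos (div_pos (Om_pos h hθ Z) h.mpos) _).ne' (pow_pos hθ _).ne', Real.log_pow, Real.log_pow]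

theorem DD_pos (h : KW m w) (hθ : 0 < θ) : 0 < DD m θ w Z :=
  div_pos (pow_pos (div_pos (Om_pos h hθ Z) h.mpos) _) (pow_pos hθ _)

theorem log_DD_le (h : KW m w) (hσ : 0 < σ) : Real.log (DD m (1 + σ / 2) w Z) ≤ Psi m σ w Z := by
  rw [log_DD h (by linarith)]
  unfold Psi
  have h1 : 0 ≤ Real.log (1 + σ / 2) := Real.log_nonneg (by linarith)
  have h2 : 0 ≤ σ * (Z.length * Real.log (1 + σ / 2)) := by positivity
  nlinarith

theorem Psi_ge (h : KW m w) (hσ : 0 < σ) (hZ : ∀ S ∈ Z, Odd S.card) : -2 * m ≤ Psi m σ w Z := by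
  refine le_trans ?_ (log_DD_le h hσ)
  have h1 := (one_le_NN h).trans (upper (θ := 1 + σ / 2) h (by linarith) hZ)
  have h2 := Real.log_nonneg h1
  rw [Real.log_mul (by positivity) (DD_pos h (by linarith)).ne', Real.log_pow] at h2
  have h3 : Real.log 3 ≤ 2 := by linarith [Real.log_le_sub_one_of_pos (show (0 : ℝ) < 3 by norm_num)]
  nlinarith [h.mpos]

theorem sum_count (x : Fin n × Fin n → ℝ) (Z : List (Finset (Fin n))) :
    ∑ e, x e * (Z.countP fun S => decide (¬ (e.1 ∈ S ↔ e.2 ∈ S)) : ℕ) =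
      Z.length - (Z.map fun S => 1 - cut id x S).sum := by
  induction Z with
  | nil => simp
  | cons S Z ih =>
    simp only [List.map_cons, List.sum_cons, List.length_cons, List.countP_cons]
    push_cast
    simp only [mul_add, sum_add_distrib]
    rw [ih]
    have h1 : ∑ e : Fin n × Fin n, x e * (if decide (¬ (e.1 ∈ S ↔ e.2 ∈ S)) = true then 1 else 0) = cut id x S := by
      unfold cut
      refine sum_congr rfl fun e _ => ?_
      by_cases he : (e.1 ∈ S ↔ e.2 ∈ S)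
      · simp [he]
      · simp [he]
    rw [h1]
    ring

theorem FF_eq (h : KW m w) (hθ : 0 < θ) :
    FF w (xx m θ w Z) = Real.log (DD m θ w Z) + Real.log θ * (Z.map fun S => 1 - cut id (xx m θ w Z) S).sum := by
  have hm := h.mpos
  have hO := Om_pos h hθ Z
  obtain ⟨-, hu, hs⟩ := xx_spec h hθ Z
  have h1 : ∀ e, xx m θ w Z e * Real.log (w e) + Real.negMulLog (xx m θ w Z e) =
      xx m θ w Z e * Real.log (Om θ w Z / m) -
        Real.log θ * (xx m θ w Z e * (Z.countP fun S => decide (¬ (e.1 ∈ S ↔ e.2 ∈ S)) : ℕ)) := by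
    intro e
    by_cases hx : xx m θ w Z e = 0
    · simp [hx]
    · have hw : 0 < w e := by linarith [h.ge e (hu e hx)]
      have h2 : Real.log (xx m θ w Z e) = Real.log (w e) +
          (Z.countP fun S => decide (¬ (e.1 ∈ S ↔ e.2 ∈ S)) : ℕ) * Real.log θ - Real.log (Om θ w Z / m) := by
        rw [← Real.log_pow, ← Real.log_mul hw.ne' (pow_pos hθ _).ne',
          ← Real.log_div (mul_pos hw (pow_pos hθ _)).ne' (div_pos hO hm).ne']
        congr 1
        unfold xx om
        field_simp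
      rw [Real.negMulLog, h2]
      ring
  unfold FF
  rw [← sum_add_distrib, sum_congr rfl fun e _ => h1 e, sum_sub_distrib, ← sum_mul, ← mul_sum, hs, sum_count,
    log_DD h hθ]
  ring

theorem stop_bound (h : KW m w) (hθ : 1 ≤ θ) {ε τ : ℝ} (hε : 0 ≤ ε) (hτ : 0 < τ) (hτ1 : τ ≤ 1) (hετ : 18 * n * ε ≤ τ)
    (h1 : ∀ S ∈ Z, cut id (xx m θ w Z) S ≤ 1) (h2 : ∀ S : Finset (Fin n), Odd S.card → 1 - ε ≤ cut id (xx m θ w Z) S)
    (h3 : τ * Real.log (DD m θ w Z) ≤ m) : DD m θ w Z ≤ 27 ^ m * NN w := by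
  have hθ0 : 0 < θ := by linarith
  have hm := h.mpos
  obtain ⟨h0, hu, hs⟩ := xx_spec h hθ0 Z
  obtain ⟨y, hy, hyu, hf⟩ := repair h.card h.pos h0 hu hs hε hτ hτ1 (by assumption) h2
  have hl := lower h.card h.pos (w := w) h.nonneg (fun e he => ?_) hf
  swap
  · have : e.1 < e.2 := by
      by_contra hn
      have h4 : xx m θ w Z e = 0 := by
        by_contra h5
        exact hn (hu e h5)
      have h5 : y e = 0 := by
        by_contra h6
        exact hn (hyu e h6)
      exact he (by simp [h4, h5])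
    linarith [h.ge e this]
  have h4 : (1 - τ) * FF w (xx m θ w Z) ≤ FF w (fun e => (1 - τ) * xx m θ w Z e + τ * y e) := by
    unfold FF
    rw [mul_add, mul_sum, mul_sum]
    refine add_le_add (sum_le_sum fun e _ => ?_) (sum_le_sum fun e _ => ?_)
    · have := mul_nonneg (mul_nonneg hτ.le (hy e).1) (h.log_nonneg e)
      nlinarith
    · have h5 := Real.concaveOn_negMulLog.2 (Set.mem_Ici.2 (h0 e)) (Set.mem_Ici.2 (hy e).1)
        (show 0 ≤ 1 - τ by linarith) hτ.le (by ring)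
      simp only [smul_eq_mul] at h5
      have h6 := mul_nonneg hτ.le (Real.negMulLog_nonneg (hy e).1 (hy e).2)
      linarith
  have h5 : Real.log (DD m θ w Z) ≤ FF w (xx m θ w Z) := by
    rw [FF_eq h hθ0]
    have h6 : 0 ≤ (Z.map fun S => 1 - cut id (xx m θ w Z) S).sum := by
      refine List.sum_nonneg fun t ht => ?_
      obtain ⟨S, hS, rfl⟩ := List.mem_map.1 ht
      linarith [h1 S hS]
    have := mul_nonneg (Real.log_nonneg hθ) h6
    linarith
  have hN : 0 < NN w := by linarith [one_le_NN h]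
  have h6 : Real.log (DD m θ w Z) ≤ Real.log (27 ^ m * NN w) := by
    rw [Real.log_mul (by positivity) hN.ne', Real.log_pow]
    have h7 : 3 ≤ Real.log 27 := by
      rw [Real.le_log_iff_exp_le (by norm_num)]
      have h8 : Real.exp 3 = Real.exp 1 ^ 3 := by rw [Real.exp_one_pow]; norm_num
      rw [h8]
      calc Real.exp 1 ^ 3 ≤ 3 ^ 3 := pow_le_pow_left₀ (Real.exp_pos _).le (by linarith [Real.exp_one_lt_d9]) 3
        _ = 27 := by norm_num
    have h8 := mul_le_mul_of_nonneg_left h5 (show 0 ≤ 1 - τ by linarith)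
    nlinarith
  exact (Real.log_le_log_iff (DD_pos h hθ0) (by positivity)).1 h6

end Crest.Agent.R304
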