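import Crest.Agent.R304.Det
import Crest.Agent.R304.MW
import Crest.Prelude.Def_MultiplicityCount

/-!
# R304: analysis of the deterministic algorithm

`σ = 1/s^5`, `θ = 1 + σ/2`, `K = s^7`, `L = 3 s^2`.

PLAN.  Casts: `Finset.sum_range`, `Fintype.sum_prod_type`, `List.countP_map`.  `oracle`: let `c = capA n (caps ..)`, symmetric, with
`c u v ≤ K (x (u,v) + x (v,u)) < c u v + 1`, and `cut id x S = ∑_{u ∈ S} ∑_{v ∉ S} (x (u,v) + x (v,u))`; so `cutN c S ≤ K cut x S ≤ cutN c S + n^2`.  If an odd `S` had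
`cut x S < 1 - 3σ`, then `gr` and `mcut_spec` give an odd candidate `U` with `K cut x U ≤ cutN c U + n^2 ≤ cutN c S + s^2 < K (1 - 2σ)`.
`mw_step`: cases; `Z` is a permutation of `Z[i] :: Z.eraseIdx i` (`List.perm_cons_erase`/`List.getElem_cons_eraseIdx_perm`), `om_perm`, `del_step`, `add_step`.
`Psi_nil`: `Om ≤ n^2 2^(s + 3s^2)`.  `mw_stop`: by induction on `i`, after `i` steps all sets are odd, `Psi ≤ Psi []`, and either `Stop` holds or
`Psi ≤ Psi [] - i σ^2/4`; `Psi_ge` excludes the latter for `i = s^14`.  `qD_bounds`: `upper`, `stop_bound` with `ε = 3σ`, `τ = 1/(4 s^2)`, `log_DD_le`.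
`NN_split`: only sets `M ⊆ ltPairs n` with `m` elements contribute (`cut_ind`, `sum_deg`, or count directly); if all multiplicities on `M` are positive the
weight is `2^(L m) ∏ w`, otherwise at most `2^((s+L)(m-1))`, and there are at most `(n^2)^m = n^n ≤ 2^(s^2)` such sets.
`mult_zero`, `mult_odd`: `ltPairs 0 = ∅`; double counting.  `detA_spec`: if `q < 1/9^n` then `N ≤ 9^n q < 1`; otherwise `N ≥ 1`, `q/2 ≤ (N+1)/2 ≤ N`, `q ≤ 4A`.
-/

set_option autoImplicit false
open Finset Crest.Agent.PTime Crest.Agent.R309 Crest.Matchings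

namespace Crest.Agent.R304

variable {n m s : ℕ} {T : List Tr} {Z : List (List ℕ)}

def wA (n s : ℕ) (T : List Tr) (e : Fin n × Fin n) : ℝ := wt2 s T e.1 e.2
def ZA (n : ℕ) (Z : List (List ℕ)) : List (Finset (Fin n)) := Z.map (toF n)
noncomputable def sgr (s : ℕ) : ℝ := 1 / (s : ℝ) ^ 5
/-- the current point -/
noncomputable def xA (n s : ℕ) (T : List Tr) (Z : List (List ℕ)) : Fin n × Fin n → ℝ :=
  xx (n / 2) (1 + sgr s / 2) (wA n s T) (ZA n Z)
noncomputable def PsiA (n s : ℕ) (T : List Tr) (Z : List (List ℕ)) : ℝ := Psi (n / 2) (sgr s) (wA n s T) (ZA n Z)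

structure OkD (n m s : ℕ) (T : List Tr) : Prop where
  card : n = 2 * m
  pos : 1 ≤ m
  le : n ≤ s
  big : 100 ≤ s
  lt : ∀ i j : Fin n, i < j → wL T i j < 2 ^ s

/-- the two stopping conditions -/
def Stop (n s : ℕ) (T : List Tr) (Z : List (List ℕ)) : Prop :=
  (∀ S ∈ ZA n Z, cut id (xA n s T Z) S ≤ 1) ∧ ∀ S : Finset (Fin n), Odd S.card → 1 - 3 * sgr s ≤ cut id (xA n s T Z) S

theorem OkD.kw (h : OkD n m s T) : KW (n / 2) (wA n s T) := by
  have h1 := h.card
  have h2 := h.pos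
  refine ⟨by omega, by omega, fun e he => ?_, fun e he => ?_⟩
  · have he' : e.1.val < e.2.val := he
    unfold wA wt2
    rw [if_pos he']
    have : 1 ≤ (if wL T e.1 e.2 = 0 then 1 else wL T e.1 e.2 * 2 ^ (3 * s ^ 2)) := by
      split_ifs with h3
      · exact le_rfl
      · exact Nat.mul_pos (Nat.pos_of_ne_zero h3) (by positivity)
    exact_mod_cast this
  · have he' : ¬ e.1.val < e.2.val := he
    unfold wA wt2
    rw [if_neg he', Nat.cast_zero]

theorem sgq_cast : (sgq s : ℝ) = sgr s := by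
  unfold sgq sgr
  push_cast
  rfl

theorem thq_cast : (thq s : ℝ) = 1 + sgr s / 2 := by
  unfold thq
  push_cast
  rw [sgq_cast]

theorem mem_toF {S : List ℕ} {v : Fin n} : v ∈ toF n S ↔ v.val ∈ S := by
  simp [toF]

theorem OkD.sgr_pos (h : OkD n m s T) : 0 < sgr s := by
  have : (0 : ℝ) < s := by exact_mod_cast (by have := h.big; omega : 0 < s)
  unfold sgr
  positivity

theorem OkD.sgr_le (h : OkD n m s T) : sgr s ≤ 1 / 2 := by
  have h1 : (100 : ℝ) ≤ s := by exact_mod_cast h.big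
  unfold sgr
  refine one_div_le_one_div_of_le (by norm_num) ?_
  calc (2 : ℝ) ≤ 100 ^ 5 := by norm_num
    _ ≤ _ := pow_le_pow_left₀ (by norm_num) h1 5

theorem OkD.half (h : OkD n m s T) : n / 2 = m := by
  have := h.card
  omega

theorem omq_cast (i j : Fin n) : (omq s T Z i j : ℝ) = om (1 + sgr s / 2) (wA n s T) (ZA n Z) (i, j) := by
  unfold omq om wA ZA
  push_cast
  rw [thq_cast, List.countP_map]
  congr 2
  refine List.countP_congr fun S _ => ?_
  simp [cutB, mem_toF]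

theorem Omq_cast : (Omq n s T Z : ℝ) = Om (1 + sgr s / 2) (wA n s T) (ZA n Z) := by
  unfold Omq Om
  push_cast
  rw [Fintype.sum_prod_type, sum_range]
  refine sum_congr rfl fun i _ => ?_
  rw [sum_range]
  exact sum_congr rfl fun j _ => omq_cast i j

theorem xq_cast (i j : Fin n) : (xq n s T Z i j : ℝ) = xA n s T Z (i, j) := by
  unfold xq xA xx
  rw [Rat.cast_div, Rat.cast_mul, omq_cast, Omq_cast, Rat.cast_natCast]

theorem xcut_cast (S : List ℕ) : (xcut n s T Z S : ℝ) = cut id (xA n s T Z) (toF n S) := by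
  unfold xcut cut
  push_cast
  rw [Fintype.sum_prod_type, sum_range]
  refine sum_congr rfl fun i _ => ?_
  rw [sum_range]
  refine sum_congr rfl fun j _ => ?_
  simp only [id, mem_toF, cutB, decide_eq_true_eq]
  by_cases hc : (i.val ∈ S ↔ j.val ∈ S)
  · rw [if_neg (not_not.2 hc), if_pos hc, Rat.cast_zero]
  · rw [if_pos hc, if_neg hc, xq_cast]

theorem oddL_iff (S : List ℕ) : oddL n S = true ↔ Odd (toF n S).card := by
  have h1 : (toF n S).card = (List.range n).countP fun v => decide (v ∈ S) := by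
    unfold toF
    rw [card_filter, Fin.sum_univ_eq_sum_range (fun v => if v ∈ S then 1 else 0) n]
    induction n with
    | zero => simp
    | succ n ih =>
      rw [sum_range_succ, ih, List.range_succ, List.countP_append]
      by_cases hn : n ∈ S <;> simp [hn]
  rw [h1, Nat.odd_iff]
  simp [oddL]

theorem cut_eq (x : Fin n × Fin n → ℝ) (S : Finset (Fin n)) :
    cut id x S = ∑ u ∈ S, ∑ v ∈ Sᶜ, (x (u, v) + x (v, u)) := by
  have h1 : ∀ (A B : Finset (Fin n)) (g : Fin n → Fin n → ℝ), ∑ u ∈ A, ∑ v ∈ B, g u v =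
      ∑ u, ∑ v, if u ∈ A ∧ v ∈ B then g u v else 0 := by
    intro A B g
    simp only [ite_and, sum_ite_irrel, sum_const_zero, sum_ite_mem, univ_inter]
  simp only [sum_add_distrib]
  rw [sum_comm (s := S) (t := Sᶜ) (f := fun u v => x (v, u)), h1 S, h1 Sᶜ, ← sum_add_distrib]
  unfold cut
  rw [Fintype.sum_prod_type]
  refine sum_congr rfl fun u _ => ?_
  rw [← sum_add_distrib]
  refine sum_congr rfl fun v _ => ?_
  by_cases hu : u ∈ S <;> by_cases hv : v ∈ S <;> simp [hu, hv]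

theorem capA_caps (u v : Fin n) :
    capA n (caps n s T Z) u v = ⌊(s : ℚ) ^ 7 * (xq n s T Z u v + xq n s T Z v u)⌋.toNat := by
  have hu := u.2
  have hv := v.2
  have h1 : u.val * n + v.val < n * n := by nlinarith
  have h2 : (u.val * n + v.val) / n = u.val := by
    rw [Nat.add_comm, Nat.add_mul_div_right _ _ (by omega), Nat.div_eq_of_lt hv, Nat.zero_add]
  have h3 : (u.val * n + v.val) % n = v.val := by
    rw [Nat.add_comm, Nat.add_mul_mod_self_right, Nat.mod_eq_of_lt hv]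
  unfold capA gn caps
  rw [List.getD_eq_getElem _ _ (by simpa using h1)]
  simp only [List.getElem_map, List.getElem_range, h2, h3]

theorem capA_bounds (h : OkD n m s T) (u v : Fin n) :
    (capA n (caps n s T Z) u v : ℝ) ≤ (s : ℝ) ^ 7 * (xA n s T Z (u, v) + xA n s T Z (v, u)) ∧
      (s : ℝ) ^ 7 * (xA n s T Z (u, v) + xA n s T Z (v, u)) ≤ capA n (caps n s T Z) u v + 1 := by
  have hx := (xx_spec h.kw (θ := 1 + sgr s / 2) (by linarith [h.sgr_pos]) (ZA n Z)).1
  have h1 : (((s : ℚ) ^ 7 * (xq n s T Z u v + xq n s T Z v u) : ℚ) : ℝ) =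
      (s : ℝ) ^ 7 * (xA n s T Z (u, v) + xA n s T Z (v, u)) := by
    push_cast
    rw [xq_cast, xq_cast]
  have h2 : (0 : ℚ) ≤ (s : ℚ) ^ 7 * (xq n s T Z u v + xq n s T Z v u) := by
    have : (0 : ℝ) ≤ (s : ℝ) ^ 7 * (xA n s T Z (u, v) + xA n s T Z (v, u)) :=
      mul_nonneg (by positivity) (add_nonneg (hx _) (hx _))
    rw [← h1] at this
    exact_mod_cast this
  rw [capA_caps, ← h1]
  generalize (s : ℚ) ^ 7 * (xq n s T Z u v + xq n s T Z v u) = q at h2
  rw [Int.floor_toNat]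
  constructor
  · exact_mod_cast Nat.floor_le h2
  · exact_mod_cast (Nat.lt_floor_add_one q).le

theorem cutN_bounds (h : OkD n m s T) (S : Finset (Fin n)) :
    (cutN (capA n (caps n s T Z)) S : ℝ) ≤ (s : ℝ) ^ 7 * cut id (xA n s T Z) S ∧
      (s : ℝ) ^ 7 * cut id (xA n s T Z) S ≤ cutN (capA n (caps n s T Z)) S + (s : ℝ) ^ 2 := by
  rw [cut_eq]
  unfold cutN
  push_cast
  simp only [mul_sum]
  refine ⟨sum_le_sum fun u _ => sum_le_sum fun v _ => (capA_bounds h u v).1, ?_⟩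
  refine (sum_le_sum fun u _ => sum_le_sum fun v _ => (capA_bounds h u v).2).trans ?_
  simp only [sum_add_distrib, sum_const, nsmul_eq_mul, mul_one]
  have h1 : (S.card : ℝ) ≤ s := by
    exact_mod_cast ((card_le_univ S).trans (by simp)).trans h.le
  have h2 : (Sᶜ.card : ℝ) ≤ s := by
    exact_mod_cast ((card_le_univ Sᶜ).trans (by simp)).trans h.le
  have h3 := mul_le_mul h1 h2 (Nat.cast_nonneg _) (Nat.cast_nonneg _)
  linarith [sq (s : ℝ)]

theorem oracle (h : OkD n m s T) (hc : ∀ S ∈ cands n s T Z, oddL n S = true → 1 - 2 * sgq s ≤ xcut n s T Z S)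
    (S : Finset (Fin n)) (hS : Odd S.card) : 1 - 3 * sgr s ≤ cut id (xA n s T Z) S := by
  by_contra hlt
  rw [not_le] at hlt
  have hs : (0 : ℝ) < s := by exact_mod_cast (by have := h.big; omega : 0 < s)
  have hσ := h.sgr_pos
  have hK : (s : ℝ) ^ 7 * sgr s = (s : ℝ) ^ 2 := by
    unfold sgr
    field_simp
  have hsym : ∀ u v, capA n (caps n s T Z) u v = capA n (caps n s T Z) v u := fun u v => by
    rw [capA_caps, capA_caps, add_comm]
  obtain ⟨a, b, ⟨U, hU1, hU2, hU3⟩, hab⟩ := gr hsym (by rw [Fintype.card_fin, h.card]; exact even_two_mul m) hS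
  have h1 := (cutN_bounds (Z := Z) h S).1
  have h2 : (s : ℝ) ^ 7 * cut id (xA n s T Z) S < (s : ℝ) ^ 7 * (1 - 3 * sgr s) :=
    mul_lt_mul_of_pos_left hlt (by positivity)
  have h3 : cutN (capA n (caps n s T Z)) S < s ^ 7 := by
    have : (cutN (capA n (caps n s T Z)) S : ℝ) < (s : ℝ) ^ 7 := by nlinarith [sq_nonneg (s : ℝ)]
    exact_mod_cast this
  obtain ⟨h4, h5⟩ := hab _ (mcut_spec (caps n s T Z) (s ^ 7) a b ⟨U, hU1, hU2, lt_of_le_of_lt hU3 h3⟩)
  have h6 := hc (mcut n (caps n s T Z) (s ^ 7) a b) (by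
    unfold cands
    simp only [List.mem_flatMap, List.mem_map, List.mem_range]
    exact ⟨a, a.2, b, b.2, rfl⟩) ((oddL_iff _).2 h4)
  have h7 : 1 - 2 * sgr s ≤ cut id (xA n s T Z) (toF n (mcut n (caps n s T Z) (s ^ 7) a b)) := by
    rw [← xcut_cast, ← sgq_cast]
    exact_mod_cast h6
  have h8 := (cutN_bounds (Z := Z) h (toF n (mcut n (caps n s T Z) (s ^ 7) a b))).2
  have h9 : (cutN (capA n (caps n s T Z)) (toF n (mcut n (caps n s T Z) (s ^ 7) a b)) : ℝ) ≤
      cutN (capA n (caps n s T Z)) S := by exact_mod_cast h5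
  have h10 := mul_le_mul_of_nonneg_left h7 (show (0 : ℝ) ≤ (s : ℝ) ^ 7 by positivity)
  nlinarith

theorem xx_perm {θ : ℝ} {w : Fin n × Fin n → ℝ} {Y Y' : List (Finset (Fin n))} (h : Y.Perm Y') :
    xx m θ w Y = xx m θ w Y' := by
  funext e
  unfold xx Om
  rw [om_perm h]

theorem Psi_perm {σ : ℝ} {w : Fin n × Fin n → ℝ} {Y Y' : List (Finset (Fin n))} (h : Y.Perm Y') :
    Psi m σ w Y = Psi m σ w Y' := by
  unfold Psi Om
  rw [om_perm h, h.length_eq]

theorem mw_step (h : OkD n m s T) (hZ : ∀ S ∈ ZA n Z, Odd S.card) :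
    (∀ S ∈ ZA n (mwS n s T Z), Odd S.card) ∧
      ((mwS n s T Z = Z ∧ Stop n s T Z) ∨ PsiA n s T (mwS n s T Z) ≤ PsiA n s T Z - sgr s ^ 2 / 4) := by
  unfold mwS
  split_ifs with hi
  · have h1 : 1 < xcut n s T Z (Z[Z.findIdx fun S => decide (1 < xcut n s T Z S)]) := by
      simpa using List.findIdx_getElem (w := hi)
    generalize (Z.findIdx fun S => decide (1 < xcut n s T Z S)) = i at hi h1
    have hp : (ZA n Z).Perm (toF n Z[i] :: ZA n (Z.eraseIdx i)) :=
      ((List.getElem_cons_eraseIdx_perm hi).map (toF n)).symm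
    refine ⟨fun S hS => hZ S (hp.symm.subset (List.mem_cons_of_mem _ hS)), Or.inr ?_⟩
    unfold PsiA
    rw [Psi_perm hp]
    refine del_step h.kw h.sgr_pos h.sgr_le ?_
    rw [← xx_perm hp]
    change 1 < cut id (xA n s T Z) _
    rw [← xcut_cast]
    exact_mod_cast h1
  · have h1 : ∀ S ∈ ZA n Z, cut id (xA n s T Z) S ≤ 1 := by
      intro S hS
      obtain ⟨S, hS', rfl⟩ := List.mem_map.1 hS
      have h2 : ¬ 1 < xcut n s T Z S := fun h3 =>
        hi (List.findIdx_lt_length_of_exists ⟨S, hS', by simpa using h3⟩)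
      rw [← xcut_cast]
      exact_mod_cast not_lt.1 h2
    rcases hf : (cands n s T Z).find? fun S => oddL n S && decide (xcut n s T Z S < 1 - 2 * sgq s) with _ | S
    · refine ⟨hZ, Or.inl ⟨rfl, h1, oracle h fun S hS ho => ?_⟩⟩
      have h2 := List.find?_eq_none.1 hf S hS
      simpa [ho] using h2
    · have h2 := List.find?_some hf
      simp only [Bool.and_eq_true, decide_eq_true_eq] at h2
      simp only [Option.elim_some]
      refine ⟨fun U hU => ?_, Or.inr ?_⟩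
      · rcases List.mem_cons.1 (show U ∈ toF n S :: ZA n Z from hU) with rfl | hU
        · exact (oddL_iff S).1 h2.1
        · exact hZ U hU
      · refine add_step (S := toF n S) h.kw h.sgr_pos h.sgr_le ?_
        change cut id (xA n s T Z) _ < _
        rw [← xcut_cast, ← sgq_cast]
        exact_mod_cast h2.2

theorem OkD.wt2_le (h : OkD n m s T) (i j : Fin n) : wt2 s T i j ≤ 2 ^ (s + 3 * s ^ 2) := by
  unfold wt2
  split_ifs with h1 h2
  · exact Nat.one_le_two_pow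
  · rw [pow_add]
    exact Nat.mul_le_mul_right _ (h.lt i j h1).le
  · exact Nat.zero_le _

theorem OkD.le_pow (h : OkD n m s T) : n ≤ 2 ^ s := h.le.trans Nat.lt_two_pow_self.le

theorem Psi_nil (h : OkD n m s T) : PsiA n s T [] ≤ m * (4 * s ^ 2) := by
  have hk := h.kw
  have hO := Om_pos hk (θ := 1 + sgr s / 2) (by linarith [h.sgr_pos]) []
  have h1 : Om (1 + sgr s / 2) (wA n s T) [] ≤ 2 ^ (4 * s ^ 2) := by
    have h2 : ∀ e, om (1 + sgr s / 2) (wA n s T) [] e ≤ 2 ^ (s + 3 * s ^ 2) := fun e => by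
      simp only [om, List.countP_nil, pow_zero, mul_one, wA]
      exact_mod_cast h.wt2_le e.1 e.2
    refine (sum_le_sum fun e _ => h2 e).trans ?_
    simp only [sum_const, card_univ, Fintype.card_prod, Fintype.card_fin, nsmul_eq_mul]
    have h3 : n * n * 2 ^ (s + 3 * s ^ 2) ≤ 2 ^ (4 * s ^ 2) := by
      calc n * n * 2 ^ (s + 3 * s ^ 2) ≤ 2 ^ s * 2 ^ s * 2 ^ (s + 3 * s ^ 2) :=
            Nat.mul_le_mul_right _ (Nat.mul_le_mul h.le_pow h.le_pow)
        _ = 2 ^ (s + s + (s + 3 * s ^ 2)) := by rw [← pow_add, ← pow_add]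
        _ ≤ _ := Nat.pow_le_pow_right (by norm_num) (by nlinarith [h.big])
    exact_mod_cast h3
  unfold PsiA Psi ZA
  rw [h.half] at hk ⊢
  simp only [List.map_nil, List.length_nil, Nat.cast_zero, mul_zero, zero_mul, sub_zero]
  have hm : (1 : ℝ) ≤ m := by exact_mod_cast h.pos
  refine mul_le_mul_of_nonneg_left ?_ (by linarith)
  have h2 : Om (1 + sgr s / 2) (wA n s T) [] / m ≤ 2 ^ (4 * s ^ 2) := (div_le_self hO.le hm).trans h1
  refine (Real.log_le_log (div_pos hO (by linarith)) h2).trans ?_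
  rw [Real.log_pow]
  push_cast
  have h3 : Real.log 2 ≤ 1 := by linarith [Real.log_le_sub_one_of_pos (show (0 : ℝ) < 2 by norm_num)]
  exact mul_le_of_le_one_right (by positivity) h3

theorem mw_stop (h : OkD n m s T) : (∀ S ∈ ZA n (mwZ n s T), Odd S.card) ∧ Stop n s T (mwZ n s T) ∧
    PsiA n s T (mwZ n s T) ≤ m * (4 * s ^ 2) := by
  have hσ := h.sgr_pos
  have key : ∀ i : ℕ, (∀ S ∈ ZA n ((mwS n s T)^[i] []), Odd S.card) ∧
      PsiA n s T ((mwS n s T)^[i] []) ≤ PsiA n s T [] ∧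
      ((mwS n s T ((mwS n s T)^[i] []) = (mwS n s T)^[i] [] ∧ Stop n s T ((mwS n s T)^[i] [])) ∨
        PsiA n s T ((mwS n s T)^[i] []) ≤ PsiA n s T [] - i * (sgr s ^ 2 / 4)) := by
    intro i
    induction i with
    | zero => simp [ZA]
    | succ i ih =>
      rw [Function.iterate_succ_apply']
      generalize (mwS n s T)^[i] [] = Y at ih
      obtain ⟨h1, h2, h3⟩ := ih
      obtain ⟨h4, h5⟩ := mw_step h h1
      have hfix : mwS n s T Y = Y ∧ Stop n s T Y → (∀ S ∈ ZA n (mwS n s T Y), Odd S.card) ∧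
          PsiA n s T (mwS n s T Y) ≤ PsiA n s T [] ∧
          ((mwS n s T (mwS n s T Y) = mwS n s T Y ∧ Stop n s T (mwS n s T Y)) ∨
            PsiA n s T (mwS n s T Y) ≤ PsiA n s T [] - ((i + 1 : ℕ) : ℝ) * (sgr s ^ 2 / 4)) := fun h6 => by
        rw [h6.1]
        exact ⟨h1, h2, Or.inl h6⟩
      rcases h3 with h3 | h3
      · exact hfix h3
      · rcases h5 with h5 | h5
        · exact hfix h5
        · refine ⟨h4, by nlinarith [sq_nonneg (sgr s)], Or.inr ?_⟩
          push_cast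
          linarith
  obtain ⟨h1, h2, h3⟩ := key (s ^ 14)
  have h4 := Psi_nil h
  refine ⟨h1, ?_, h2.trans h4⟩
  rcases h3 with h3 | h3
  · exact h3.2
  · exfalso
    have h5 : -2 * ((n / 2 : ℕ) : ℝ) ≤ PsiA n s T ((mwS n s T)^[s ^ 14] []) := Psi_ge h.kw hσ h1
    rw [h.half] at h5
    have hs : (100 : ℝ) ≤ s := by exact_mod_cast h.big
    have h6 : ((s ^ 14 : ℕ) : ℝ) * (sgr s ^ 2 / 4) = (s : ℝ) ^ 4 / 4 := by
      unfold sgr
      push_cast
      field_simp
    have h7 : (m : ℝ) ≤ s := by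
      have := h.card
      have := h.le
      exact_mod_cast (by omega : m ≤ s)
    rw [h6] at h3
    have h8 : (m : ℝ) * (4 * s ^ 2) ≤ s * (4 * s ^ 2) := mul_le_mul_of_nonneg_right h7 (by positivity)
    have h9 : 100 * (s : ℝ) ^ 3 ≤ s ^ 4 := by nlinarith [pow_pos (show (0 : ℝ) < s by linarith) 3]
    have h10 : (s : ℝ) ≤ s ^ 3 := by nlinarith [sq_nonneg (s : ℝ)]
    nlinarith

theorem qD_bounds (h : OkD n m s T) : (qD n s T (mwZ n s T) : ℝ) * 2 ^ (3 * s ^ 2 * m) ≤ NN (wA n s T) ∧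
    NN (wA n s T) ≤ 9 ^ n * ((qD n s T (mwZ n s T) : ℝ) * 2 ^ (3 * s ^ 2 * m)) := by
  obtain ⟨h1, ⟨h2, h3⟩, h4⟩ := mw_stop h
  have hσ := h.sgr_pos
  have hk := h.kw
  have hs : (100 : ℝ) ≤ s := by exact_mod_cast h.big
  have hq : (qD n s T (mwZ n s T) : ℝ) * 2 ^ (3 * s ^ 2 * m) =
      DD m (1 + sgr s / 2) (wA n s T) (ZA n (mwZ n s T)) / 27 ^ m := by
    unfold qD DD
    rw [h.half]
    push_cast
    rw [Omq_cast, thq_cast, show (ZA n (mwZ n s T)).length = (mwZ n s T).length by simp [ZA]]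
    field_simp
  unfold xA at h2 h3
  unfold PsiA at h4
  rw [h.half] at hk h2 h3 h4
  rw [hq]
  constructor
  · rw [div_le_iff₀ (by positivity), mul_comm]
    refine stop_bound hk (by linarith) (ε := 3 * sgr s) (τ := 1 / (4 * (s : ℝ) ^ 2)) (by linarith) (by positivity)
      ?_ ?_ h2 h3 ?_
    · rw [div_le_one (by positivity)]
      nlinarith
    · have h5 : (n : ℝ) ≤ s := by exact_mod_cast h.le
      have h6 : 18 * (n : ℝ) * (3 * sgr s) = 54 * n / (s : ℝ) ^ 5 := by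
        unfold sgr
        ring
      rw [h6, div_le_div_iff₀ (by positivity) (by positivity)]
      have h7 : (0 : ℝ) < (s : ℝ) ^ 2 := by positivity
      have h8 : (0 : ℝ) < (s : ℝ) ^ 3 := by positivity
      have h9 : 216 ≤ (s : ℝ) ^ 2 := by nlinarith
      calc 54 * (n : ℝ) * (4 * (s : ℝ) ^ 2) ≤ 54 * s * (4 * (s : ℝ) ^ 2) := by gcongr
        _ = 216 * (s : ℝ) ^ 3 := by ring
        _ ≤ (s : ℝ) ^ 2 * (s : ℝ) ^ 3 := mul_le_mul_of_nonneg_right h9 h8.le
        _ = _ := by ring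
    · have h5 := (log_DD_le (Z := ZA n (mwZ n s T)) hk hσ).trans h4
      rw [one_div, inv_mul_le_iff₀ (by positivity)]
      linarith
  · refine (upper (θ := 1 + sgr s / 2) hk (by linarith) h1).trans (le_of_eq ?_)
    rw [show (9 : ℝ) ^ n = 3 ^ m * 27 ^ m by rw [h.card, pow_mul, ← mul_pow]; norm_num]
    field_simp

/-- the index set of `multNumPerfectMatchings` -/
def pmSet (n : ℕ) : Finset (Finset (Fin n × Fin n)) :=
  (ltPairs n).powerset.filter fun M => ∀ v : Fin n, (M.filter fun q => q.1 = v ∨ q.2 = v).card = 1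

theorem mem_pmSet {M : Finset (Fin n × Fin n)} : M ∈ pmSet n ↔ (∀ e ∈ M, e.1 < e.2) ∧ PMon id univ M := by
  unfold pmSet PMon ltPairs
  simp only [mem_filter, mem_powerset, subset_iff, mem_univ, true_and, id, forall_const]

theorem NN_eq (h : OkD n m s T) : NN (wA n s T) = (∑ M ∈ pmSet n, ∏ e ∈ M, wt2 s T e.1 e.2 : ℕ) := by
  classical
  unfold NN
  push_cast
  refine (sum_subset (fun M hM => mem_filter.2 ⟨mem_univ _, (mem_pmSet.1 hM).2⟩) fun M hM hM' => ?_).symm
  by_contra hn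
  refine hM' (mem_pmSet.2 ⟨fun e he => ?_, (mem_filter.1 hM).2⟩)
  by_contra h1
  exact hn (prod_eq_zero he (h.kw.zero e h1))

theorem NN_split (h : OkD n m s T) {w : Fin n → Fin n → ℕ} (hw : ∀ i j : Fin n, i < j → wL T i j = w i j) :
    (multNumPerfectMatchings w : ℝ) * 2 ^ (3 * s ^ 2 * m) ≤ NN (wA n s T) ∧
      NN (wA n s T) < (multNumPerfectMatchings w + 1 / 9 ^ n) * 2 ^ (3 * s ^ 2 * m) := by
  have hcard : ∀ M ∈ pmSet n, M.card = m := fun M hM => by
    have h1 := pm_card (mem_pmSet.1 hM).2 (mem_pmSet.1 hM).1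
    have h2 := h.card
    omega
  have hN : multNumPerfectMatchings w * 2 ^ (3 * s ^ 2 * m) = ∑ M ∈ pmSet n, ∏ e ∈ M, w e.1 e.2 * 2 ^ (3 * s ^ 2) := by
    change (∑ M ∈ pmSet n, ∏ e ∈ M, w e.1 e.2) * _ = _
    rw [sum_mul]
    refine sum_congr rfl fun M hM => ?_
    rw [prod_mul_distrib, prod_const, hcard M hM, ← pow_mul]
  have hwt : ∀ e : Fin n × Fin n, e.1 < e.2 →
      wt2 s T e.1 e.2 = if w e.1 e.2 = 0 then 1 else w e.1 e.2 * 2 ^ (3 * s ^ 2) := fun e he => by
    unfold wt2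
    rw [if_pos (show e.1.val < e.2.val from he), hw _ _ he]
  have h1 : multNumPerfectMatchings w * 2 ^ (3 * s ^ 2 * m) ≤ ∑ M ∈ pmSet n, ∏ e ∈ M, wt2 s T e.1 e.2 := by
    rw [hN]
    refine sum_le_sum fun M hM => prod_le_prod' fun e he => ?_
    rw [hwt e ((mem_pmSet.1 hM).1 e he)]
    split_ifs with h2
    · simp [h2]
    · exact le_rfl
  have h2 : ∑ M ∈ pmSet n, ∏ e ∈ M, wt2 s T e.1 e.2 ≤
      multNumPerfectMatchings w * 2 ^ (3 * s ^ 2 * m) + (pmSet n).card * 2 ^ ((s + 3 * s ^ 2) * (m - 1)) := by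
    rw [hN, card_eq_sum_ones, sum_mul, ← sum_add_distrib]
    refine sum_le_sum fun M hM => ?_
    by_cases h3 : ∃ e ∈ M, w e.1 e.2 = 0
    · obtain ⟨e, he, h4⟩ := h3
      refine le_trans ?_ (Nat.le_add_left _ _)
      rw [← mul_prod_erase M _ he, hwt e ((mem_pmSet.1 hM).1 e he), if_pos h4]
      refine Nat.mul_le_mul_left _ ((prod_le_pow_card _ _ _ fun e _ => h.wt2_le e.1 e.2).trans (le_of_eq ?_))
      rw [card_erase_of_mem he, hcard M hM, ← pow_mul]
    · refine le_trans (le_of_eq (prod_congr rfl fun e he => ?_)) (Nat.le_add_right _ _)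
      rw [hwt e ((mem_pmSet.1 hM).1 e he), if_neg fun h4 => h3 ⟨e, he, h4⟩]
  have h3 : (pmSet n).card ≤ 2 ^ (s * s) := by
    have h4 : pmSet n ⊆ powersetCard m univ := fun M hM => mem_powersetCard.2 ⟨subset_univ _, hcard M hM⟩
    refine (card_le_card h4).trans ?_
    rw [card_powersetCard, card_univ, Fintype.card_prod, Fintype.card_fin]
    refine (Nat.choose_le_pow _ _).trans ?_
    calc (n * n) ^ m = n ^ n := by rw [← sq, ← pow_mul, ← h.card]
      _ ≤ (2 ^ s) ^ n := Nat.pow_le_pow_left h.le_pow _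
      _ ≤ (2 ^ s) ^ s := Nat.pow_le_pow_right (by positivity) h.le
      _ = _ := by rw [← pow_mul]
  have h4 : 9 ^ n * ((pmSet n).card * 2 ^ ((s + 3 * s ^ 2) * (m - 1))) < 2 ^ (3 * s ^ 2 * m) := by
    obtain ⟨k, rfl⟩ : ∃ k, m = k + 1 := ⟨m - 1, by have := h.pos; omega⟩
    have h5 : k ≤ s := by
      have := h.card
      have := h.le
      omega
    have h6 : 9 ^ n ≤ 2 ^ (4 * s) := by
      calc 9 ^ n ≤ 16 ^ n := Nat.pow_le_pow_left (by norm_num) _
        _ ≤ 16 ^ s := Nat.pow_le_pow_right (by norm_num) h.le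
        _ = _ := by rw [pow_mul]; norm_num
    calc 9 ^ n * ((pmSet n).card * 2 ^ ((s + 3 * s ^ 2) * (k + 1 - 1)))
        ≤ 2 ^ (4 * s) * (2 ^ (s * s) * 2 ^ ((s + 3 * s ^ 2) * k)) :=
          Nat.mul_le_mul h6 (Nat.mul_le_mul_right _ h3)
      _ = 2 ^ (4 * s + (s * s + (s + 3 * s ^ 2) * k)) := by rw [← pow_add, ← pow_add]
      _ < _ := Nat.pow_lt_pow_right (by norm_num) (by nlinarith [h.big, Nat.mul_le_mul_left s h5])
  rw [NN_eq h]
  refine ⟨by exact_mod_cast h1, ?_⟩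
  have h5 : (((pmSet n).card * 2 ^ ((s + 3 * s ^ 2) * (m - 1)) : ℕ) : ℝ) < 1 / 9 ^ n * 2 ^ (3 * s ^ 2 * m) := by
    rw [one_div, lt_inv_mul_iff₀ (by positivity)]
    exact_mod_cast h4
  have h6 : ((∑ M ∈ pmSet n, ∏ e ∈ M, wt2 s T e.1 e.2 : ℕ) : ℝ) ≤
      (multNumPerfectMatchings w : ℝ) * 2 ^ (3 * s ^ 2 * m) +
        (((pmSet n).card * 2 ^ ((s + 3 * s ^ 2) * (m - 1)) : ℕ) : ℝ) := by
    exact_mod_cast h2
  rw [add_mul]
  linarith

theorem mult_zero (w : Fin 0 → Fin 0 → ℕ) : multNumPerfectMatchings w = 1 := by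
  unfold multNumPerfectMatchings
  have : ltPairs 0 = ∅ := Subsingleton.elim _ _
  simp [this]

theorem mult_odd (w : Fin n → Fin n → ℕ) (h : n % 2 = 1) : multNumPerfectMatchings w = 0 := by
  change ∑ M ∈ pmSet n, ∏ e ∈ M, w e.1 e.2 = 0
  refine sum_eq_zero fun M hM => ?_
  have h1 := pm_card (mem_pmSet.1 hM).2 (mem_pmSet.1 hM).1
  omega

theorem detA_spec (hn : n ≤ s) (hs : 100 ≤ s) {w : Fin n → Fin n → ℕ} (hw : ∀ i j : Fin n, i < j → wL T i j = w i j)
    (hlt : ∀ i j : Fin n, i < j → w i j < 2 ^ s) :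
    multNumPerfectMatchings w ≤ 512 ^ n * detA n s T ∧ detA n s T ≤ multNumPerfectMatchings w := by
  unfold detA
  by_cases h0 : n = 0
  · subst h0
    simp [mult_zero]
  rw [if_neg h0]
  by_cases h1 : n % 2 = 1
  · simp [h1, mult_odd w h1]
  rw [if_neg h1]
  have h : OkD n (n / 2) s T := ⟨by omega, by omega, hn, hs, fun i j hij => by rw [hw i j hij]; exact hlt i j hij⟩
  obtain ⟨h2, h3⟩ := qD_bounds h
  obtain ⟨h4, h5⟩ := NN_split h hw
  have hP : (0 : ℝ) < 2 ^ (3 * s ^ 2 * (n / 2)) := by positivity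
  have h6 : (qD n s T (mwZ n s T) : ℝ) < multNumPerfectMatchings w + 1 / 9 ^ n :=
    lt_of_mul_lt_mul_right (h2.trans_lt h5) hP.le
  have h7 : (multNumPerfectMatchings w : ℝ) ≤ 9 ^ n * qD n s T (mwZ n s T) := by
    refine le_of_mul_le_mul_right (h4.trans (h3.trans (le_of_eq ?_))) hP
    ring
  generalize qD n s T (mwZ n s T) = q at h6 h7
  generalize multNumPerfectMatchings w = N at h6 h7
  have h8 : q < N + 1 / 9 ^ n := by
    have : (q : ℝ) < ((N + 1 / 9 ^ n : ℚ) : ℝ) := by push_cast; exact h6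
    exact_mod_cast this
  have h9 : (N : ℚ) ≤ 9 ^ n * q := by
    have : ((N : ℚ) : ℝ) ≤ ((9 ^ n * q : ℚ) : ℝ) := by push_cast; exact h7
    exact_mod_cast this
  have hp : (0 : ℚ) < 9 ^ n := by positivity
  split_ifs with hq
  · have h10 : (N : ℚ) < 1 := by
      rw [lt_div_iff₀ hp] at hq
      linarith
    have h11 : N < 1 := by exact_mod_cast h10
    omega
  · rw [not_lt] at hq
    have hq0 : 0 ≤ q := le_trans (by positivity) hq
    have h10 : 0 < N := by
      have : (0 : ℚ) < N := by linarith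
      exact_mod_cast this
    have h11 : (1 : ℚ) / 9 ^ n ≤ 1 := by
      rw [div_le_one hp]
      exact one_le_pow₀ (by norm_num)
    rw [Int.floor_toNat]
    have h12 := Nat.floor_le (show 0 ≤ q / 2 by linarith)
    have h13 := Nat.lt_floor_add_one (q / 2)
    generalize ⌊q / 2⌋₊ = A at h12 h13
    constructor
    · have h14 : (A : ℚ) ≤ (max 1 A : ℕ) := by exact_mod_cast le_max_right 1 A
      have h15 : (1 : ℚ) ≤ (max 1 A : ℕ) := by exact_mod_cast le_max_left 1 A
      have h16 : 4 * (9 : ℚ) ^ n ≤ 512 ^ n := by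
        obtain ⟨k, rfl⟩ : ∃ k, n = k + 1 := ⟨n - 1, by omega⟩
        have : (9 : ℚ) ^ k ≤ 512 ^ k := pow_le_pow_left₀ (by norm_num) (by norm_num) k
        have h17 : (0 : ℚ) < 9 ^ k := by positivity
        rw [pow_succ, pow_succ]
        linarith
      have h17 : (N : ℚ) ≤ 512 ^ n * (max 1 A : ℕ) := by
        calc (N : ℚ) ≤ 9 ^ n * q := h9
          _ ≤ 9 ^ n * (4 * (max 1 A : ℕ)) := mul_le_mul_of_nonneg_left (by linarith) hp.le
          _ = 4 * 9 ^ n * (max 1 A : ℕ) := by ring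
          _ ≤ _ := mul_le_mul_of_nonneg_right h16 (by linarith)
      exact_mod_cast h17
    · have h14 : (1 : ℚ) ≤ N := by exact_mod_cast h10
      have h15 : (A : ℚ) ≤ N := by linarith
      exact max_le h10 (by exact_mod_cast h15)

end Crest.Agent.R304
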