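import Crest.Agent.R304.DetA
import Crest.Agent.R309.Top

/-!
# R304: reading the compact code of a multigraph

PLAN.  `parseNat_natCode`, `parseRep_code` (with `code t = natCode t.1 ++ natCode t.2.1 ++ natCode t.2.2`, `List.map_map`), `length_le_flatten`.
`wL_code`: `posPairs` has no duplicates and contains `(i,j)` iff `i < j` and `0 < w i j` (`List.sum_map_eq_nsmul_single`, or turn the sum into a `Finset` sum).
`w_lt_code`: the code of a positive `w i j` is a part of the input, `Nat.lt_size_self`.  `mult_short`: a matching of nonzero weight is a subset of `posPairs` that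
covers all `n` vertices, so `n ≤ 2 * (posPairs n w).length`, and every triple has a code of length at least `2`.
-/

set_option autoImplicit false
open Finset Crest.Agent.PTime Crest.Agent.R309 Crest.Enc Crest.Matchings

namespace Crest.Agent.R304

def parseTr (w : List Bool) : Tr × List Bool :=
  (((parseNat w).1, (parseNat (parseNat w).2).1, (parseNat (parseNat (parseNat w).2).2).1),
    (parseNat (parseNat (parseNat w).2).2).2)

def trOf (w : List Bool) : List Tr :=
  (parseRep parseTr (min (parseNat (parseNat w).2).1 w.length) (parseNat (parseNat w).2).2).1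

def detF (w : List Bool) : List Bool :=
  natCode (if w.length < (parseNat w).1 then 0 else detA (min (parseNat w).1 w.length) (sOf w) (trOf w))

private theorem parseTr_len (w : List Bool) : (parseTr w).2.length ≤ w.length :=
  (parseNat_len _).trans ((parseNat_len _).trans (parseNat_len _))

private theorem pt_trOf : PT trOf :=
  (PT.parseRep (p := fun _ => parseTr) (n := fun w : List Bool => min (parseNat (parseNat w).2).1 w.length)
    (w := fun w : List Bool => (parseNat (parseNat w).2).2) (by unfold parseTr; fun_prop)
    (fun _ => parseTr_len) (by fun_prop) (PB.min_right (PB.length PT.id)) (by fun_prop)).fst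

theorem pt_detF : PT detF := by
  unfold detF
  refine PT.natCode (PT.ite (by fun_prop) (PT.const 0) ?_)
  exact PT.detA (by fun_prop) (PB.min_right (PB.length PT.id)) (PT.sOf PT.id) (PB.sOf PT.id) pt_trOf

variable {n : ℕ} (w : Fin n → Fin n → ℕ)

theorem n_code : (parseNat (pairMultCode n w)).1 = n := by
  unfold pairMultCode
  rw [List.append_assoc, parseNat_natCode]

private def trCode (t : Tr) : List Bool := natCode t.1 ++ natCode t.2.1 ++ natCode t.2.2

private theorem parseTr_code (t : Tr) (r : List Bool) : parseTr (trCode t ++ r) = (t, r) := by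
  simp only [parseTr, trCode, List.append_assoc, parseNat_natCode]

private theorem code_eq : pairMultCode n w = natCode n ++ (natCode (posPairs n w).length ++
    ((((posPairs n w).map fun q => ((q.1.val, q.2.val, w q.1 q.2) : Tr)).map trCode).flatten ++ [])) := by
  unfold pairMultCode
  rw [List.append_assoc, List.append_nil, List.map_map]
  rfl

private theorem two_len_le (l : List Tr) : 2 * l.length ≤ (l.map trCode).flatten.length := by
  induction l with
  | nil => simp
  | cons x l ih =>
    simp only [List.map_cons, List.flatten_cons, List.length_append, List.length_cons, trCode,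
      tab_len_natCode] at ih ⊢
    omega

private theorem two_pos_le : 2 * (posPairs n w).length ≤ (pairMultCode n w).length := by
  have := two_len_le ((posPairs n w).map fun q => ((q.1.val, q.2.val, w q.1 q.2) : Tr))
  rw [code_eq]
  simp only [List.length_append, List.length_map] at this ⊢
  omega

private theorem mem_posPairs (q : Fin n × Fin n) : q ∈ posPairs n w ↔ q.1 < q.2 ∧ 0 < w q.1 q.2 := by
  obtain ⟨a, b⟩ := q
  simp [posPairs]

private theorem nodup_posPairs : (posPairs n w).Nodup :=
  ((List.nodup_finRange n).product (List.nodup_finRange n)).filter _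

theorem trOf_code : trOf (pairMultCode n w) = (posPairs n w).map fun q => (q.1.val, q.2.val, w q.1 q.2) := by
  have h := two_pos_le w
  unfold trOf
  rw [min_eq_left (by rw [code_eq, parseNat_natCode, parseNat_natCode, ← code_eq]; omega), code_eq,
    parseNat_natCode, parseNat_natCode]
  have := parseRep_code parseTr trCode
    ((posPairs n w).map fun q => ((q.1.val, q.2.val, w q.1 q.2) : Tr)) (fun x _ r => parseTr_code x r) []
  rw [List.length_map] at this
  rw [this]

theorem wL_code (i j : Fin n) (h : i < j) : wL (trOf (pairMultCode n w)) i j = w i j := by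
  classical
  rw [trOf_code, wL, List.map_map, ← List.sum_toFinset _ (nodup_posPairs w)]
  rw [Finset.sum_eq_single (i, j)]
  · simp
  · intro q _ hq
    simp only [Function.comp_apply]
    rw [if_neg]
    rintro ⟨h1, h2⟩
    exact hq (Prod.ext (Fin.ext h1) (Fin.ext h2))
  · intro hq
    rw [List.mem_toFinset, mem_posPairs] at hq
    simp only [Function.comp_apply, and_self, if_true]
    simp only [h, true_and, not_lt] at hq
    omega

theorem w_lt_code (i j : Fin n) (h : i < j) : w i j < 2 ^ (pairMultCode n w).length := by
  rcases Nat.eq_zero_or_pos (w i j) with h0 | h0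
  · rw [h0]; positivity
  have hm : (i, j) ∈ posPairs n w := (mem_posPairs w _).2 ⟨h, h0⟩
  have h1 : (trCode (i.val, j.val, w i j)).length ≤ (pairMultCode n w).length := by
    rw [code_eq]
    have := (List.sublist_flatten_of_mem (List.mem_map_of_mem (f := trCode)
      (List.mem_map_of_mem (f := fun q : Fin n × Fin n => ((q.1.val, q.2.val, w q.1 q.2) : Tr)) hm))).length_le
    simp only [List.length_append] at this ⊢
    omega
  simp only [trCode, List.length_append, tab_len_natCode] at h1
  exact (Nat.lt_size_self _).trans_le (Nat.pow_le_pow_right (by norm_num) (by omega))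

theorem mult_short (h : (pairMultCode n w).length < n) : multNumPerfectMatchings w = 0 := by
  classical
  unfold multNumPerfectMatchings
  refine Finset.sum_eq_zero (fun M hM => ?_)
  by_contra hne
  obtain ⟨hM1, hM2⟩ := Finset.mem_filter.1 hM
  rw [Finset.mem_powerset] at hM1
  have h1 : M ⊆ (posPairs n w).toFinset := fun q hq => by
    rw [List.mem_toFinset, mem_posPairs]
    refine ⟨(Finset.mem_filter.1 (hM1 hq)).2, Nat.pos_of_ne_zero (fun h0 => hne ?_)⟩
    exact Finset.prod_eq_zero hq h0
  have h2 : M.card ≤ (posPairs n w).length :=
    (Finset.card_le_card h1).trans (List.toFinset_card_le _)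
  have h3 : (univ : Finset (Fin n)) ⊆ M.image Prod.fst ∪ M.image Prod.snd := fun v _ => by
    obtain ⟨q, hq⟩ := Finset.card_pos.1 (by rw [hM2 v]; norm_num : 0 < (M.filter fun q => q.1 = v ∨ q.2 = v).card)
    obtain ⟨hq1, hq2⟩ := Finset.mem_filter.1 hq
    rcases hq2 with e | e
    · exact Finset.mem_union_left _ (Finset.mem_image.2 ⟨q, hq1, e⟩)
    · exact Finset.mem_union_right _ (Finset.mem_image.2 ⟨q, hq1, e⟩)
  have h4 := (Finset.card_le_card h3).trans (Finset.card_union_le _ _)
  have h5 := Finset.card_image_le (s := M) (f := Prod.fst)
  have h6 := Finset.card_image_le (s := M) (f := Prod.snd)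
  have h7 := two_pos_le w
  rw [Finset.card_univ, Fintype.card_fin] at h4
  omega

end Crest.Agent.R304
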