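import Crest.Agent.R304.Poly

/-!
# R304: contraction of a tight odd set, and gluing

PLAN.  `feas_ctr`: for `T ⊆ insert s (W \ S)` let `T' = T` if `s ∉ T`, `T' = T.erase s ∪ S` otherwise; `ctr S s v ∈ T ↔ v ∈ T'`
for `v ∈ W`, so `cut (cE ..) (cx ..) T = cut ends x T'` termwise (edges inside `S` are not cut by `T'`), and `|T'| ≡ |T|`.
`glue`: let `D` be the set of edges with `x e ≠ 0` and exactly one end in `S`; `∑_{e ∈ D} x e = 1`.  A matching `M₁` with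
`p₁ M₁ ≠ 0` has no edge inside `S`, all its edges have `x e ≠ 0` (`Law.ne_zero`), and exactly one of them lies in `D`
(the edge at `s`); the same for `M₂`.  Put
`p M = ∑ M₁, ∑ M₂, if M₁ ∪ M₂ = M then c M₁ M₂ else 0`, `c M₁ M₂ = ∑ e ∈ D, chi M₁ e * chi M₂ e * p₁ M₁ * p₂ M₂ / x e`.
Total mass `∑_{e ∈ D} x e * x e / x e = 1`.  If `c M₁ M₂ ≠ 0` the two matchings share their edge of `D`; the edges of
`M₁ ∪ M₂` at `w ∈ W \ S` are those of `M₁` at `w`, symmetrically for `w ∈ S`.  Marginal of an edge `f` not inside `S`: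
for `c M₁ M₂ ≠ 0`, `f ∈ M₁ ∪ M₂ ↔ f ∈ M₁`, and `∑_{M₂} c M₁ M₂ = p₁ M₁ ∑_{e ∈ D} chi M₁ e = p₁ M₁`.  Symmetric otherwise.
-/

set_option autoImplicit false
open Finset

namespace Crest.Agent.R304

variable {V E : Type} [Fintype V] [DecidableEq V] [Fintype E] [DecidableEq E]

/-- contract `S` to `s` -/
def ctr (S : Finset V) (s v : V) : V := if v ∈ S then s else v

def cE (ends : E → V × V) (S : Finset V) (s : V) (e : E) : V × V := (ctr S s (ends e).1, ctr S s (ends e).2)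

def cx (ends : E → V × V) (S : Finset V) (x : E → ℝ) (e : E) : ℝ :=
  if (ends e).1 ∈ S ∧ (ends e).2 ∈ S then 0 else x e

variable {ends : E → V × V} {W : Finset V} {x : E → ℝ}

namespace Glue

omit [Fintype V] [DecidableEq E] in
theorem cut_ctr (h : Supp ends W x) (S : Finset V) (s : V) (T : Finset V) :
    cut (cE ends S s) (cx ends S x) T = cut ends x (W.filter fun v => ctr S s v ∈ T) := by
  unfold cut
  refine sum_congr rfl fun e _ => ?_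
  by_cases hx : x e = 0
  · simp [cx, hx]
  obtain ⟨h1, h2, -⟩ := h e hx
  simp only [cE, mem_filter, h1, h2, true_and]
  split_ifs with h3
  · rfl
  · unfold cx
    rw [if_neg]
    rintro ⟨h4, h5⟩
    simp [ctr, h4, h5] at h3

omit [Fintype V] in
theorem ctr_eq_self {S : Finset V} {s : V} (hs : s ∈ S) (v : V) : ctr S s v = s ↔ v ∈ S := by
  unfold ctr
  split_ifs with h
  · simp [h]
  · simp only [h, iff_false]
    rintro rfl
    exact h hs

omit [Fintype V] in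
theorem ctr_eq_out {S : Finset V} {s : V} (hs : s ∈ S) {w : V} (hw : w ∉ S) (v : V) :
    ctr S s v = w ↔ v = w := by
  unfold ctr
  split_ifs with h
  · constructor
    · rintro rfl; exact absurd hs hw
    · rintro rfl; exact absurd h hw
  · rfl

/-- what a law of the contracted graph means in the original graph -/
structure Half (ends : E → V × V) (W S : Finset V) (x : E → ℝ) (D : Finset E) (p : Finset E → ℝ) :
    Prop where
  nonneg : ∀ M, 0 ≤ p M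
  total : ∑ M, p M = 1
  hx : ∀ M, p M ≠ 0 → ∀ e ∈ M, x e ≠ 0 ∧ ¬ ((ends e).1 ∈ S ∧ (ends e).2 ∈ S)
  one : ∀ M, p M ≠ 0 → (M.filter (· ∈ D)).card = 1
  pm : ∀ M, p M ≠ 0 → ∀ w ∈ W, w ∉ S → (M.filter fun e => (ends e).1 = w ∨ (ends e).2 = w).card = 1
  marg : ∀ e, ¬ ((ends e).1 ∈ S ∧ (ends e).2 ∈ S) → mrg p e = x e

theorem half {S : Finset V} {s : V} (hs : s ∈ S) {p : Finset E → ℝ} {D : Finset E}
    (hD : ∀ e, e ∈ D ↔ x e ≠ 0 ∧ ¬ ((ends e).1 ∈ S ↔ (ends e).2 ∈ S))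
    (h : Law (cE ends S s) (insert s (W \ S)) p (cx ends S x)) : Half ends W S x D p := by
  have hx : ∀ M, p M ≠ 0 → ∀ e ∈ M, x e ≠ 0 ∧ ¬ ((ends e).1 ∈ S ∧ (ends e).2 ∈ S) := by
    intro M hM e he
    have := h.ne_zero hM he
    unfold cx at this
    split_ifs at this with h1
    · exact absurd rfl this
    · exact ⟨this, h1⟩
  refine ⟨h.nonneg, h.total, hx, fun M hM => ?_, fun M hM w hw hwS => ?_, fun e he => ?_⟩
  · rw [← h.pm M hM s (mem_insert_self _ _)]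
    congr 1
    refine filter_congr fun e he => ?_
    obtain ⟨h1, h2⟩ := hx M hM e he
    simp only [hD, cE, ctr_eq_self hs]
    tauto
  · rw [← h.pm M hM w (mem_insert_of_mem (mem_sdiff.2 ⟨hw, hwS⟩))]
    congr 1
    refine filter_congr fun e _ => ?_
    simp only [cE, ctr_eq_out hs hwS]
  · rw [h.marg, cx, if_neg he]

/-- the coupling -/
noncomputable def cp (x : E → ℝ) (D : Finset E) (p₁ p₂ : Finset E → ℝ) (M₁ M₂ : Finset E) : ℝ :=
  ∑ e ∈ D, chi M₁ e * chi M₂ e * p₁ M₁ * p₂ M₂ / x e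

omit [Fintype E] in
theorem cp_comm (D : Finset E) (p₁ p₂ : Finset E → ℝ) (M₁ M₂ : Finset E) :
    cp x D p₁ p₂ M₁ M₂ = cp x D p₂ p₁ M₂ M₁ :=
  sum_congr rfl fun _ _ => by ring

omit [Fintype E] in
theorem cp_ne {D : Finset E} {p₁ p₂ : Finset E → ℝ} {M₁ M₂ : Finset E} (h : cp x D p₁ p₂ M₁ M₂ ≠ 0) :
    p₁ M₁ ≠ 0 ∧ p₂ M₂ ≠ 0 ∧ ∃ e ∈ D, e ∈ M₁ ∧ e ∈ M₂ := by
  obtain ⟨e, he, h⟩ := exists_ne_zero_of_sum_ne_zero h
  refine ⟨fun h0 => h (by simp [h0]), fun h0 => h (by simp [h0]), e, he, ?_, ?_⟩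
  · by_contra h0
    exact h (by simp [chi, h0])
  · by_contra h0
    exact h (by simp [chi, h0])

theorem cp_row {S S' : Finset V} {D : Finset E} {p₁ p₂ : Finset E → ℝ} (h₁ : Half ends W S x D p₁)
    (h₂ : Half ends W S' x D p₂) (hD : ∀ e ∈ D, x e ≠ 0 ∧ ¬ ((ends e).1 ∈ S' ∧ (ends e).2 ∈ S'))
    (M₁ : Finset E) : ∑ M₂, cp x D p₁ p₂ M₁ M₂ = p₁ M₁ := by
  unfold cp
  rw [sum_comm]
  have : ∀ e ∈ D, ∑ M₂, chi M₁ e * chi M₂ e * p₁ M₁ * p₂ M₂ / x e = p₁ M₁ * chi M₁ e := by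
    intro e he
    have h3 := h₂.marg e (hD e he).2
    rw [mrg_eq] at h3
    have h4 : ∑ M₂, chi M₁ e * chi M₂ e * p₁ M₁ * p₂ M₂ / x e =
        p₁ M₁ * chi M₁ e / x e * ∑ M₂, p₂ M₂ * chi M₂ e := by
      rw [mul_sum]
      exact sum_congr rfl fun _ _ => by ring
    rw [h4, h3, div_mul_cancel₀ _ (hD e he).1]
  rw [sum_congr rfl this, ← mul_sum]
  by_cases h0 : p₁ M₁ = 0
  · simp [h0]
  · have h5 : ∑ e ∈ D, chi M₁ e = ((M₁.filter (· ∈ D)).card : ℝ) := by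
      unfold chi
      rw [sum_boole]
      congr 2
      ext e
      simp only [mem_filter]
      tauto
    rw [h5, h₁.one M₁ h0]
    simp

theorem cp_mem {S S' : Finset V} {D : Finset E} {p₁ p₂ : Finset E → ℝ}
    (h₂ : Half ends W S' x D p₂)
    (hD : ∀ e, x e ≠ 0 → ¬ ((ends e).1 ∈ S ∧ (ends e).2 ∈ S) → ¬ ((ends e).1 ∈ S' ∧ (ends e).2 ∈ S') →
      e ∈ D) {M₁ M₂ : Finset E} (h : cp x D p₁ p₂ M₁ M₂ ≠ 0) {f : E}
    (hf : ¬ ((ends f).1 ∈ S ∧ (ends f).2 ∈ S)) : f ∈ M₁ ∪ M₂ ↔ f ∈ M₁ := by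
  obtain ⟨-, h2, e, he, he1, he2⟩ := cp_ne h
  rw [mem_union]
  refine ⟨fun h' => h'.elim id fun hf2 => ?_, Or.inl⟩
  obtain ⟨h3, h4⟩ := h₂.hx M₂ h2 f hf2
  have := card_le_one.1 (h₂.one M₂ h2).le f (mem_filter.2 ⟨hf2, hD f h3 hf h4⟩) e
    (mem_filter.2 ⟨he2, he⟩)
  rw [this]
  exact he1

theorem cp_marg {S S' : Finset V} {D : Finset E} {p₁ p₂ : Finset E → ℝ} (h₁ : Half ends W S x D p₁)
    (h₂ : Half ends W S' x D p₂) (hD' : ∀ e ∈ D, x e ≠ 0 ∧ ¬ ((ends e).1 ∈ S' ∧ (ends e).2 ∈ S'))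
    (hD : ∀ e, x e ≠ 0 → ¬ ((ends e).1 ∈ S ∧ (ends e).2 ∈ S) → ¬ ((ends e).1 ∈ S' ∧ (ends e).2 ∈ S') →
      e ∈ D) {f : E} (hf : ¬ ((ends f).1 ∈ S ∧ (ends f).2 ∈ S)) :
    ∑ M₁, ∑ M₂, cp x D p₁ p₂ M₁ M₂ * chi (M₁ ∪ M₂) f = x f := by
  rw [← h₁.marg f hf, mrg_eq]
  refine sum_congr rfl fun M₁ _ => ?_
  rw [← cp_row h₁ h₂ hD' M₁, sum_mul]
  refine sum_congr rfl fun M₂ _ => ?_
  by_cases h0 : cp x D p₁ p₂ M₁ M₂ = 0
  · simp [h0]
  · simp only [chi, cp_mem h₂ hD h0 hf]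

theorem cp_pm {S S' : Finset V} {D : Finset E} {p₁ p₂ : Finset E → ℝ} (h₁ : Half ends W S x D p₁)
    (h₂ : Half ends W S' x D p₂)
    (hD : ∀ e, x e ≠ 0 → ¬ ((ends e).1 ∈ S ∧ (ends e).2 ∈ S) → ¬ ((ends e).1 ∈ S' ∧ (ends e).2 ∈ S') →
      e ∈ D) {M₁ M₂ : Finset E} (h : cp x D p₁ p₂ M₁ M₂ ≠ 0) {w : V} (hw : w ∈ W) (hwS : w ∉ S) :
    ((M₁ ∪ M₂).filter fun e => (ends e).1 = w ∨ (ends e).2 = w).card = 1 := by
  rw [← h₁.pm M₁ (cp_ne h).1 w hw hwS]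
  congr 1
  ext f
  simp only [mem_filter]
  refine and_congr_left fun hf => cp_mem h₂ hD h ?_
  rintro ⟨h1, h2⟩
  rcases hf with rfl | rfl
  exacts [hwS h1, hwS h2]

end Glue

open Glue

theorem feas_ctr (h : Feas ends W x) {S : Finset V} (hS : S ⊆ W) (ho : Odd S.card) (ht : cut ends x S = 1)
    {s : V} (hs : s ∈ S) : Feas (cE ends S s) (insert s (W \ S)) (cx ends S x) := by
  have hmem : ∀ v ∈ W, ctr S s v ∈ insert s (W \ S) := by
    intro v hv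
    unfold ctr
    split_ifs with h1
    · exact mem_insert_self _ _
    · exact mem_insert_of_mem (mem_sdiff.2 ⟨hv, h1⟩)
  refine ⟨fun e => ?_, fun e he => ?_, fun v hv => ?_, fun T hT hTo => ?_⟩
  · unfold cx
    split_ifs
    exacts [le_rfl, h.nonneg e]
  · unfold cx at he
    split_ifs at he with h1
    · exact absurd rfl he
    obtain ⟨h2, h3, h4⟩ := h.supp e he
    refine ⟨hmem _ h2, hmem _ h3, ?_⟩
    simp only [cE]
    by_cases h5 : (ends e).2 ∈ S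
    · rw [(ctr_eq_self hs _).2 h5, Ne, ctr_eq_self hs]
      exact fun h6 => h1 ⟨h6, h5⟩
    · rw [show ctr S s (ends e).2 = (ends e).2 from if_neg h5, Ne, ctr_eq_out hs h5]
      exact h4
  · rw [cut_ctr h.supp]
    rcases mem_insert.1 hv with rfl | hv
    · rw [← ht]
      congr 1
      ext w
      simp only [mem_filter, mem_singleton, ctr_eq_self hs]
      exact ⟨fun h1 => h1.2, fun h1 => ⟨hS h1, h1⟩⟩
    · obtain ⟨h1, h2⟩ := mem_sdiff.1 hv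
      rw [← h.deg v h1]
      congr 1
      ext w
      simp only [mem_filter, mem_singleton, ctr_eq_out hs h2]
      exact ⟨fun h3 => h3.2, fun h3 => ⟨h3 ▸ h1, h3⟩⟩
  · rw [cut_ctr h.supp]
    refine h.odd _ (filter_subset _ _) ?_
    have hT' : ∀ v ∈ T, v ≠ s → v ∈ W ∧ v ∉ S := fun v hv hvs =>
      mem_sdiff.1 ((mem_insert.1 (hT hv)).resolve_left hvs)
    by_cases hsT : s ∈ T
    · have e1 : (W.filter fun v => ctr S s v ∈ T) = T.erase s ∪ S := by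
        ext v
        simp only [mem_filter, mem_union, mem_erase]
        by_cases hv : v ∈ S
        · simp [ctr, hv, hsT, hS hv]
        · have hvs : v ≠ s := fun h1 => hv (h1 ▸ hs)
          simp only [ctr, hv, if_false, or_false]
          exact ⟨fun h1 => ⟨hvs, h1.2⟩, fun h1 => ⟨(hT' v h1.2 hvs).1, h1.2⟩⟩
      rw [e1, card_union_of_disjoint (disjoint_left.2 fun v hv =>
        (hT' v (mem_erase.1 hv).2 (mem_erase.1 hv).1).2), card_erase_of_mem hsT]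
      obtain ⟨a, ha⟩ := hTo
      obtain ⟨b, hb⟩ := ho
      exact ⟨a + b, by omega⟩
    · have e1 : (W.filter fun v => ctr S s v ∈ T) = T := by
        ext v
        simp only [mem_filter]
        by_cases hv : v ∈ S
        · simp only [ctr, hv, if_true, hsT, and_false, false_iff]
          exact fun h1 => (hT' v h1 fun h2 => hsT (h2 ▸ h1)).2 hv
        · simp only [ctr, hv, if_false]
          exact ⟨fun h1 => h1.2, fun h1 => ⟨(hT' v h1 fun h2 => hsT (h2 ▸ h1)).1, h1⟩⟩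
      rw [e1]
      exact hTo

theorem glue (h : Feas ends W x) {S : Finset V} (hS : S ⊆ W) (ht : cut ends x S = 1) {s t : V} (hs : s ∈ S)
    (ht' : t ∈ W \ S) {p₁ p₂ : Finset E → ℝ} (h₁ : Law (cE ends S s) (insert s (W \ S)) p₁ (cx ends S x))
    (h₂ : Law (cE ends (W \ S) t) (insert t S) p₂ (cx ends (W \ S) x)) : ∃ p, Law ends W p x := by
  classical
  set D : Finset E := univ.filter fun e => x e ≠ 0 ∧ ¬ ((ends e).1 ∈ S ↔ (ends e).2 ∈ S) with hDdef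
  have hD1 : ∀ e, e ∈ D ↔ x e ≠ 0 ∧ ¬ ((ends e).1 ∈ S ↔ (ends e).2 ∈ S) := fun e => by
    simp [hDdef]
  have hD2 : ∀ e, e ∈ D ↔ x e ≠ 0 ∧ ¬ ((ends e).1 ∈ W \ S ↔ (ends e).2 ∈ W \ S) := fun e => by
    rw [hD1]
    refine and_congr_right fun hx => ?_
    obtain ⟨h1, h2, -⟩ := h.supp e hx
    simp only [mem_sdiff, h1, h2, true_and]
    tauto
  have H₁ : Half ends W S x D p₁ := half hs hD1 h₁
  have H₂ : Half ends W (W \ S) x D p₂ := half ht' hD2 (by rwa [Finset.sdiff_sdiff_eq_self hS])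
  have hA : ∀ e ∈ D, x e ≠ 0 ∧ ¬ ((ends e).1 ∈ S ∧ (ends e).2 ∈ S) := fun e he => by
    have := (hD1 e).1 he
    tauto
  have hB : ∀ e ∈ D, x e ≠ 0 ∧ ¬ ((ends e).1 ∈ W \ S ∧ (ends e).2 ∈ W \ S) := fun e he => by
    have := (hD2 e).1 he
    tauto
  have hC : ∀ e, x e ≠ 0 → ¬ ((ends e).1 ∈ S ∧ (ends e).2 ∈ S) →
      ¬ ((ends e).1 ∈ W \ S ∧ (ends e).2 ∈ W \ S) → e ∈ D := fun e hx h3 h4 => by
    obtain ⟨h1, h2, -⟩ := h.supp e hx
    simp only [mem_sdiff, h1, h2, true_and] at h4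
    rw [hD1]
    tauto
  have hcp : ∀ M₁ M₂, 0 ≤ cp x D p₁ p₂ M₁ M₂ := fun M₁ M₂ =>
    sum_nonneg fun e _ => div_nonneg (mul_nonneg (mul_nonneg (mul_nonneg
      (by unfold chi; split_ifs <;> norm_num) (by unfold chi; split_ifs <;> norm_num))
      (h₁.nonneg _)) (h₂.nonneg _)) (h.nonneg e)
  have hsum : ∀ g : Finset E → ℝ,
      ∑ M, (∑ M₁, ∑ M₂, if M₁ ∪ M₂ = M then cp x D p₁ p₂ M₁ M₂ else 0) * g M =
        ∑ M₁, ∑ M₂, cp x D p₁ p₂ M₁ M₂ * g (M₁ ∪ M₂) := by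
    intro g
    simp only [sum_mul]
    rw [sum_comm]
    refine sum_congr rfl fun M₁ _ => ?_
    rw [sum_comm]
    refine sum_congr rfl fun M₂ _ => ?_
    simp
  refine ⟨fun M => ∑ M₁, ∑ M₂, if M₁ ∪ M₂ = M then cp x D p₁ p₂ M₁ M₂ else 0, fun M => ?_, ?_,
    fun M hM => ?_, fun f => ?_⟩
  · refine sum_nonneg fun M₁ _ => sum_nonneg fun M₂ _ => ?_
    split_ifs
    exacts [hcp _ _, le_rfl]
  · have := hsum fun _ => 1
    simp only [mul_one] at this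
    rw [this, ← h₁.total]
    exact sum_congr rfl fun M₁ _ => cp_row H₁ H₂ hB M₁
  · obtain ⟨M₁, -, hM1⟩ := exists_ne_zero_of_sum_ne_zero hM
    obtain ⟨M₂, -, hM2⟩ := exists_ne_zero_of_sum_ne_zero hM1
    have h1 : M₁ ∪ M₂ = M := by
      by_contra h1
      exact hM2 (if_neg h1)
    rw [if_pos h1] at hM2
    clear hM hM1
    rename' hM2 => hM
    subst h1
    intro w hw
    by_cases hwS : w ∈ S
    · rw [union_comm]
      rw [cp_comm] at hM
      exact cp_pm H₂ H₁ (fun e a b c => hC e a c b) hM hw fun h1 => (mem_sdiff.1 h1).2 hwS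
    · exact cp_pm H₁ H₂ hC hM hw hwS
  · rw [mrg_eq, hsum fun M => chi M f]
    by_cases hf : (ends f).1 ∈ S ∧ (ends f).2 ∈ S
    · rw [sum_comm, ← cp_marg H₂ H₁ hA (fun e a b c => hC e a c b) (f := f)
        fun h1 => (mem_sdiff.1 h1.1).2 hf.1]
      refine sum_congr rfl fun M₂ _ => sum_congr rfl fun M₁ _ => ?_
      rw [cp_comm, union_comm]
    · exact cp_marg H₁ H₂ hB hC hf

end Crest.Agent.R304
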