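import Crest.Agent.R304.Tutte
import Crest.Agent.R304.Glue

/-!
# R304: the perfect matching polytope theorem

PLAN.  Strong induction on `W.card + #{e | x e ≠ 0}`, generalising `ends W x`.  (A) If some `S ⊆ W` is odd, tight
(`cut = 1`), with `S.card ≠ 1` and `(W \ S).card ≠ 1` (both are odd by `Feas.even`, so `≥ 3`): `feas_ctr` for `S` and for
`W \ S` (`cut_sdiff`, `W \ (W \ S) = S`), the vertex sets are smaller and the supports are not larger; `glue`.
(B) In general take `M` from `exists_pm`, `g = x - chi M`.  If `x e = 1` for all `e ∈ M` then `x = chi M` (degree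
constraints; or: `∑ x = ∑ chi M` by `sum_deg` and `chi M ≤ x`), use `law_single`.  Otherwise let `t ≥ 0` be the minimum of
`x e / (1 - x e)` over `e ∈ M` with `x e < 1` and of `(cut x S - 1) / (- cut g S)` over odd `S ⊆ W` with `cut g S < 0`
(`Finset.exists_min_image` on the two finite families, or on a sum type).  Then `y = x + t • g` is feasible, its support is
contained in that of `x`, and either it lost an edge (induction hypothesis) or it has a tight odd `S` with `cut g S < 0`;
such an `S` is not a singleton nor the complement of one (there `cut g = 1 - 1 = 0`, `cut_ind`, `cut_sdiff`), so (A) applies to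
`y`.  Finally `x = (1/(1+t)) • y + (t/(1+t)) • chi M`, `Law.mix`.
-/

set_option autoImplicit false
open Finset

namespace Crest.Agent.R304

variable {V E : Type} [Fintype V] [DecidableEq V] [Fintype E] [DecidableEq E]

namespace Edm

theorem exists_step {ι : Type} [Fintype ι] (P : ι → Prop) (a b : ι → ℝ) (ha : ∀ i, P i → 0 ≤ a i)
    (hb : ∃ i, P i ∧ b i < 0) :
    ∃ t : ℝ, 0 ≤ t ∧ (∀ i, P i → 0 ≤ a i + t * b i) ∧ ∃ i, P i ∧ b i < 0 ∧ a i + t * b i = 0 := by
  classical
  obtain ⟨i₀, hi₀⟩ := hb
  obtain ⟨i, hi, hmin⟩ := exists_min_image (univ.filter fun i => P i ∧ b i < 0)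
    (fun i => a i / (-b i)) ⟨i₀, by simpa using hi₀⟩
  obtain ⟨hP, hbi⟩ : P i ∧ b i < 0 := by simpa using hi
  have ht : 0 ≤ a i / (-b i) := div_nonneg (ha i hP) (by linarith)
  refine ⟨a i / (-b i), ht, fun j hj => ?_, i, hP, hbi, ?_⟩
  · rcases lt_or_ge (b j) 0 with h | h
    · have := hmin j (by simp [hj, h])
      rw [le_div_iff₀ (by linarith : 0 < -b j)] at this
      linarith
    · exact add_nonneg (ha j hj) (mul_nonneg ht h)
  · have : b i ≠ 0 := hbi.ne
    field_simp
    ring

/-- size of the support -/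
noncomputable def sz (x : E → ℝ) : ℕ := (univ.filter fun e => x e ≠ 0).card

omit [DecidableEq E] in
theorem sz_mono {x y : E → ℝ} (h : ∀ e, y e ≠ 0 → x e ≠ 0) : sz y ≤ sz x :=
  card_le_card fun e he => by
    simp only [mem_filter, mem_univ, true_and] at he ⊢
    exact h e he

omit [DecidableEq E] in
theorem sz_lt {x y : E → ℝ} (h : ∀ e, y e ≠ 0 → x e ≠ 0) {e : E} (hx : x e ≠ 0) (hy : y e = 0) :
    sz y < sz x := by
  refine card_lt_card ⟨fun e he => ?_, fun h' => ?_⟩
  · simp only [mem_filter, mem_univ, true_and] at he ⊢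
    exact h e he
  · have := h' (mem_filter.2 ⟨mem_univ e, hx⟩)
    simp [hy] at this

theorem stepA {N : ℕ} (ih : ∀ (ends : E → V × V) (W : Finset V) (x : E → ℝ), W.card + sz x < N →
    Feas ends W x → ∃ p, Law ends W p x) {ends : E → V × V} {W : Finset V} {x : E → ℝ}
    (h : Feas ends W x) (hN : W.card + sz x ≤ N) {S : Finset V} (hS : S ⊆ W) (ho : Odd S.card)
    (ht : cut ends x S = 1) (h1 : S.card ≠ 1) (h2 : (W \ S).card ≠ 1) : ∃ p, Law ends W p x := by
  have hc := card_sdiff_add_card_eq_card hS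
  have ho' : Odd (W \ S).card := by
    obtain ⟨a, ha⟩ := h.even
    obtain ⟨b, hb⟩ := ho
    exact ⟨a - b - 1, by omega⟩
  obtain ⟨s, hs⟩ : S.Nonempty := card_pos.1 ho.pos
  obtain ⟨t, ht'⟩ : (W \ S).Nonempty := card_pos.1 ho'.pos
  have hcx : ∀ T : Finset V, sz (cx ends T x) ≤ sz x := fun T => sz_mono fun e he h0 =>
    he (by simp [cx, h0])
  have f1 := feas_ctr h hS ho ht hs
  have f2 := feas_ctr h sdiff_subset ho' (by rw [cut_sdiff h.supp, ht]) ht'
  rw [Finset.sdiff_sdiff_eq_self hS] at f2
  have hp := ho.pos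
  have hp' := ho'.pos
  obtain ⟨p₁, hp₁⟩ := ih _ _ _ (by
    have := card_insert_le s (W \ S)
    have := hcx S
    omega) f1
  obtain ⟨p₂, hp₂⟩ := ih _ _ _ (by
    have := card_insert_le t S
    have := hcx (W \ S)
    omega) f2
  exact glue h hS ht hs ht' hp₁ hp₂

theorem stepB {N : ℕ} (ih : ∀ (ends : E → V × V) (W : Finset V) (x : E → ℝ), W.card + sz x < N →
    Feas ends W x → ∃ p, Law ends W p x) {ends : E → V × V} {W : Finset V} {x : E → ℝ}
    (h : Feas ends W x) (hN : W.card + sz x ≤ N) : ∃ p, Law ends W p x := by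
  classical
  obtain ⟨M, hM, hMx⟩ := exists_pm h
  have hchi : ∀ e, chi M e ≠ 0 → e ∈ M := fun e he => by
    by_contra h0
    exact he (by simp [chi, h0])
  have hsM : Supp ends W (chi M) := fun e he => h.supp e (hMx e (hchi e he))
  obtain ⟨hd, hodd⟩ := cut_ind hM hsM
  set g : E → ℝ := x - chi M with hg
  have hg0 : ∀ e, x e = 0 → g e = 0 := fun e he => by
    have : e ∉ M := fun h1 => hMx e h1 he
    simp [hg, chi, he, this]
  have hsg : Supp ends W g := fun e he => h.supp e fun h0 => he (hg0 e h0)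
  have hdg : ∀ v ∈ W, cut ends g {v} = 0 := fun v hv => by
    rw [hg, cut_sub, h.deg v hv, hd v hv, sub_self]
  by_cases hneg : ∃ e, g e < 0
  swap
  · push Not at hneg
    have hs0 : ∑ e, g e = 0 := by
      have := sum_deg hsg
      rw [sum_congr rfl hdg] at this
      simpa using this.symm
    have hall := (sum_eq_zero_iff_of_nonneg fun e _ => hneg e).1 hs0
    have : x = chi M := funext fun e => sub_eq_zero.1 (hall e (mem_univ e))
    exact ⟨_, this ▸ law_single hM⟩
  obtain ⟨t, ht0, hfe, i, hi, hbi, hti⟩ := exists_step (ι := E ⊕ Finset V)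
    (Sum.elim (fun _ => True) fun S => S ⊆ W ∧ Odd S.card)
    (Sum.elim x fun S => cut ends x S - 1) (Sum.elim g fun S => cut ends g S)
    (by
      rintro (e | S) hi
      · exact h.nonneg e
      · exact sub_nonneg.2 (h.odd S hi.1 hi.2))
    (by
      obtain ⟨e, he⟩ := hneg
      exact ⟨Sum.inl e, trivial, he⟩)
  set y : E → ℝ := x + t • g with hy
  have hyx : ∀ e, y e ≠ 0 → x e ≠ 0 := fun e he h0 => he (by simp [hy, h0, hg0 e h0])
  have hcy : ∀ S, cut ends y S = cut ends x S + t * cut ends g S := fun S => by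
    rw [hy, cut_add, cut_smul]
  have hfy : Feas ends W y := by
    refine ⟨fun e => hfe (Sum.inl e) trivial, fun e he => h.supp e (hyx e he), fun v hv => ?_,
      fun S hS ho => ?_⟩
    · rw [hcy, h.deg v hv, hdg v hv, mul_zero, add_zero]
    · have := hfe (Sum.inr S) ⟨hS, ho⟩
      simp only [Sum.elim_inr] at this
      rw [hcy]
      linarith
  obtain ⟨q, hq⟩ : ∃ q, Law ends W q y := by
    rcases i with e | S
    · have hbe : g e < 0 := hbi
      have hxe : x e ≠ 0 := fun h0 => hbe.ne (hg0 e h0)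
      have := sz_lt hyx hxe hti
      exact ih _ _ _ (by omega) hfy
    · simp only [Sum.elim_inr] at hi hbi hti
      have := sz_mono hyx
      refine stepA ih hfy (by omega) hi.1 hi.2 (by rw [hcy]; linarith) (fun h1 => ?_) fun h1 => ?_
      · obtain ⟨v, rfl⟩ := card_eq_one.1 h1
        exact hbi.ne (hdg v (hi.1 (mem_singleton_self v)))
      · obtain ⟨v, hv⟩ := card_eq_one.1 h1
        have hvW : v ∈ W := sdiff_subset (hv ▸ mem_singleton_self v : v ∈ W \ S)
        rw [← cut_sdiff hsg, hv] at hbi
        exact hbi.ne (hdg v hvW)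
  have h1t : 0 < 1 + t := by linarith
  have hmix := hq.mix (law_single hM) (a := 1 / (1 + t)) (b := t / (1 + t)) (by positivity)
    (by positivity) (by field_simp)
  have hx : (1 / (1 + t)) • y + (t / (1 + t)) • chi M = x := by
    funext e
    simp only [hy, hg, Pi.add_apply, Pi.smul_apply, Pi.sub_apply, smul_eq_mul]
    field_simp
    ring
  exact ⟨_, hx ▸ hmix⟩

end Edm

theorem edmonds {ends : E → V × V} {W : Finset V} {x : E → ℝ} (h : Feas ends W x) : ∃ p, Law ends W p x := by
  have key : ∀ (N : ℕ) (ends : E → V × V) (W : Finset V) (x : E → ℝ), W.card + Edm.sz x < N →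
      Feas ends W x → ∃ p, Law ends W p x := by
    intro N
    induction N with
    | zero => intro _ _ _ h; omega
    | succ N ih => intro ends W x hN h; exact Edm.stepB ih h (by omega)
  exact key _ ends W x (Nat.lt_succ_self _) h

end Crest.Agent.R304
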