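import Crest.Agent.R304.Ring

/-!
# R304: pairs of matchings that encode a given pair

PLAN.  `Enc.wt_le`: with `ℓ' u v = ℓ u v / (g u * g v)` one has `wt ℓ X = (∏ v, ℓ' v (X v)) * (∏ v, g v)^2` for every matching
(`X` is a bijection, `Equiv.prod_comp`/`Function.Involutive.toPerm`), `ℓ' u v ≥ 1/K` for `u ≠ v`.  Vertexwise
`ℓ' v (I v) ℓ' v (F v) ≤ (if v ∈ S then K^2 else 1) ℓ' v (X v) ℓ' v (Y v)`: if both of the different values `I v, F v` occur among
`X v, Y v` the two sides agree; a value that does not occur has `ℓ' ≤ 1`.  `enc_card`: choose `S` for every triple, list it as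
`σ : Fin 6 → V` (pad with `a`); the triple is determined by `(a, I a, fun i => (σ i, I (σ i), F (σ i)))` (`dec`; outside the range of
`σ` the different values `I v, F v` both occur among `X v, Y v`, the same for `I', F'`).  `enc_of`: `S` = the six endpoints; for
`v = c t` the values are `c (t+1)` and `c (t-1)` (`Rg.nb`), different since `N ≥ 4`; for `c (t-1)` use the edge `t - 1` and `PM.symm`.
`dv_congr`: the filters agree, and `mix U Y' X` depends only on `X` on `U`.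
`lemQ`: fix `X`, `U = comp X Y b`.  The relation "`Y' = Y` on `comp X Y b`" is an equivalence (`comp_congr`); for related `Y, Y'`:
`mix U X Y' = mix U X Y`, so `er X Y b` is minus the `wt`-average over the class of
`φ X + φ Y' - φ (mix U X Y') - φ (mix U Y' X)`; Cauchy-Schwarz, then swap the sums over `Y` and `Y'`.
-/

set_option autoImplicit false
set_option linter.unusedSectionVars false
open Finset

namespace Crest.Agent.R304

variable {V : Type} [Fintype V] [DecidableEq V]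

/-- a product lower bound for the weights -/
def Gauge (ℓ : V → V → ℝ) (K : ℝ) (g : V → ℝ) : Prop :=
  (∀ v, 0 < g v) ∧ ∀ u v, u ≠ v → g u * g v ≤ K * ℓ u v

structure Enc (ℓ : V → V → ℝ) (K : ℝ) (I F : PM V) (C : Finset V) (X Y : PM V) : Prop where
  out : ∀ v, v ∉ C → X.1 v = I.1 v ∧ Y.1 v = F.1 v
  ne : ∀ v ∈ C, I.1 v ≠ F.1 v
  ex : ∃ (g : V → ℝ) (S : Finset V), Gauge ℓ K g ∧ S.card ≤ 6 ∧
    ∀ v ∈ C, ∀ z, z = I.1 v ∨ z = F.1 v → (z = X.1 v ∨ z = Y.1 v) ∨ (v ∈ S ∧ ℓ v z ≤ g v * g z)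

/-- the average effect of replacing `X` by `Y` on `U` -/
noncomputable def dv (ℓ : V → V → ℝ) (φ : PM V → ℝ) (U : Finset V) (X Y : PM V) : ℝ :=
  (∑ Y' : PM V, if ∀ v ∈ U, Y'.1 v = Y.1 v then wt ℓ Y' * (φ Y' - φ (mix U Y' X)) else 0) /
    ∑ Y' : PM V, if ∀ v ∈ U, Y'.1 v = Y.1 v then wt ℓ Y' else 0

noncomputable def er (ℓ : V → V → ℝ) (φ : PM V → ℝ) (X Y : PM V) (b : V) : ℝ :=
  φ (mix (comp X Y b) X Y) - φ X - dv ℓ φ (comp X Y b) X Y

/-- all admissible errors are at most `ε` -/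
structure Hyp (ℓ : V → V → ℝ) (K : ℝ) (φ : PM V → ℝ) (I F : PM V) (C : Finset V) (ε : ℝ) : Prop where
  loc : ∀ X Y Y' b c, b ≠ c → Enc ℓ K I F C X Y → Enc ℓ K I F C (cj X b c) Y' → |φ X - φ (cj X b c)| ≤ ε
  blk : ∀ X Y b, Enc ℓ K I F C X Y → |er ℓ φ X Y b| ≤ ε

variable {ℓ : V → V → ℝ} {K : ℝ} {I F X Y : PM V} {C : Finset V}

theorem wt_gauge {g : V → ℝ} (hg : ∀ v, 0 < g v) (Z : PM V) :
    wt ℓ Z = (∏ v, ℓ v (Z.1 v) / (g v * g (Z.1 v))) * (∏ v, g v) ^ 2 := by
  have e : ∏ v, g (Z.1 v) = ∏ v, g v :=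
    Equiv.prod_comp (Function.Involutive.toPerm Z.1 Z.inv) g
  rw [sq]
  nth_rewrite 2 [← e]
  rw [← prod_mul_distrib, ← prod_mul_distrib]
  refine prod_congr rfl fun v _ => ?_
  have := hg v
  have := hg (Z.1 v)
  field_simp

theorem Enc.wt_le (hW : Wt ℓ) (hK : 1 ≤ K) (h : Enc ℓ K I F C X Y) :
    wt ℓ I * wt ℓ F ≤ K ^ 12 * (wt ℓ X * wt ℓ Y) := by
  obtain ⟨g, S, ⟨hg, hga⟩, hS, hex⟩ := h.ex
  set r : V → V → ℝ := fun v z => ℓ v z / (g v * g z) with hr
  have rpos : ∀ v z, 0 < r v z := fun v z => div_pos (hW.pos _ _) (mul_pos (hg _) (hg _))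
  have rK : ∀ (Z : PM V) v, 1 ≤ K * r v (Z.1 v) := by
    intro Z v
    simp only [hr]
    rw [← mul_div_assoc, le_div_iff₀ (mul_pos (hg _) (hg _)), one_mul]
    exact hga _ _ (Z.ne v).symm
  have r1 : ∀ v z, ℓ v z ≤ g v * g z → r v z ≤ 1 := fun v z hz =>
    (div_le_one (mul_pos (hg _) (hg _))).2 hz
  have key : ∀ v, r v (I.1 v) * r v (F.1 v) ≤
      (if v ∈ S then K ^ 2 else 1) * (r v (X.1 v) * r v (Y.1 v)) := by
    intro v
    have px := rpos v (X.1 v)
    have py := rpos v (Y.1 v)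
    have pI := rpos v (I.1 v)
    have pF := rpos v (F.1 v)
    have kx := rK X v
    have ky := rK Y v
    have hK2 : K ≤ K ^ 2 := by nlinarith
    have h1 : r v (X.1 v) * r v (Y.1 v) ≤ (if v ∈ S then K ^ 2 else 1) * (r v (X.1 v) * r v (Y.1 v)) := by
      refine le_mul_of_one_le_left (by positivity) ?_
      split_ifs
      · linarith
      · exact le_rfl
    have hx : r v (X.1 v) ≤ K ^ 2 * (r v (X.1 v) * r v (Y.1 v)) := by
      have := mul_le_mul_of_nonneg_left ky px.le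
      have := mul_le_mul_of_nonneg_right hK2 (mul_pos px py).le
      nlinarith
    have hy : r v (Y.1 v) ≤ K ^ 2 * (r v (X.1 v) * r v (Y.1 v)) := by
      have := mul_le_mul_of_nonneg_left kx py.le
      have := mul_le_mul_of_nonneg_right hK2 (mul_pos px py).le
      nlinarith
    by_cases hv : v ∈ C
    · have hne := h.ne v hv
      rcases hex v hv _ (Or.inl rfl) with a | ⟨hvS, a⟩ <;> rcases hex v hv _ (Or.inr rfl) with b | ⟨hvS', b⟩
      · rcases a with a | a <;> rcases b with b | b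
        · exact absurd (a.trans b.symm) hne
        · rw [a, b]; exact h1
        · rw [a, b, mul_comm]; exact h1
        · exact absurd (a.trans b.symm) hne
      · rw [if_pos hvS']
        refine (mul_le_of_le_one_right pI.le (r1 _ _ b)).trans ?_
        rcases a with a | a <;> rw [a]
        · exact hx
        · exact hy
      · rw [if_pos hvS]
        refine (mul_le_of_le_one_left pF.le (r1 _ _ a)).trans ?_
        rcases b with b | b <;> rw [b]
        · exact hx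
        · exact hy
      · rw [if_pos hvS]
        have e1 : r v (I.1 v) * r v (F.1 v) ≤ 1 := mul_le_one₀ (r1 _ _ a) pF.le (r1 _ _ b)
        have e2 := mul_le_mul kx ky zero_le_one (by positivity)
        nlinarith
    · rw [← (h.out v hv).1, ← (h.out v hv).2]; exact h1
  have hp := prod_le_prod (s := univ) (fun v _ => (mul_pos (rpos v (I.1 v)) (rpos v (F.1 v))).le)
    (fun v _ => key v)
  rw [prod_mul_distrib, prod_mul_distrib, prod_mul_distrib, prod_ite_mem, univ_inter, prod_const] at hp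
  have hK12 : (K ^ 2) ^ S.card ≤ K ^ 12 := by
    rw [← pow_mul]; exact pow_le_pow_right₀ hK (by omega)
  rw [wt_gauge hg I, wt_gauge hg F, wt_gauge hg X, wt_gauge hg Y]
  have q1 : 0 ≤ (∏ v, r v (X.1 v)) * ∏ v, r v (Y.1 v) :=
    mul_nonneg (prod_nonneg fun v _ => (rpos _ _).le) (prod_nonneg fun v _ => (rpos _ _).le)
  have hp2 := hp.trans (mul_le_mul_of_nonneg_right hK12 q1)
  have q2 : 0 ≤ (∏ v, g v) ^ 2 * (∏ v, g v) ^ 2 := by positivity
  have := mul_le_mul_of_nonneg_right hp2 q2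
  simp only [hr] at this
  linarith

open Classical in
theorem enc_card (ℓ : V → V → ℝ) (K : ℝ) (X Y : PM V) :
    (univ.filter fun t : PM V × PM V × V => Enc ℓ K t.1 t.2.1 (comp t.1 t.2.1 t.2.2) X Y).card ≤
      Fintype.card V ^ 20 := by
  have hσ : ∀ t : PM V × PM V × V, ∃ σ : Fin 6 → V, Enc ℓ K t.1 t.2.1 (comp t.1 t.2.1 t.2.2) X Y →
      ∀ v ∈ comp t.1 t.2.1 t.2.2, (∀ i, σ i ≠ v) →
        (t.1.1 v = X.1 v ∨ t.1.1 v = Y.1 v) ∧ (t.2.1.1 v = X.1 v ∨ t.2.1.1 v = Y.1 v) := by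
    intro t
    by_cases h : Enc ℓ K t.1 t.2.1 (comp t.1 t.2.1 t.2.2) X Y
    · obtain ⟨g, S, -, hS, hex⟩ := h.ex
      refine ⟨fun i => S.toList.getD i t.2.2, fun _ v hv hi => ?_⟩
      have hvS : v ∉ S := by
        intro hvS
        obtain ⟨k, hk, e⟩ := List.getElem_of_mem (mem_toList.2 hvS)
        have hk6 : k < 6 := by rw [length_toList] at hk; omega
        refine hi ⟨k, hk6⟩ ?_
        simp only [List.getD_eq_getElem _ _ hk, e]
      exact ⟨(hex v hv _ (Or.inl rfl)).resolve_right fun h' => hvS h'.1,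
        (hex v hv _ (Or.inr rfl)).resolve_right fun h' => hvS h'.1⟩
    · exact ⟨fun _ => t.2.2, fun h' => absurd h' h⟩
  choose σ hσ using hσ
  have hc : Fintype.card V ^ 20 = (univ : Finset (V × V × (Fin 6 → V × V × V))).card := by
    simp only [card_univ, Fintype.card_prod, Fintype.card_fun, Fintype.card_fin]; ring
  rw [hc]
  refine card_le_card_of_injOn
    (fun t => (t.2.2, t.1.1 t.2.2, fun i => (σ t i, t.1.1 (σ t i), t.2.1.1 (σ t i))))
    (fun _ _ => mem_coe.2 (mem_univ _)) ?_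
  rintro ⟨I, F, a⟩ h1 ⟨I', F', a'⟩ h2 e
  have h1' := (mem_filter.1 (mem_coe.1 h1)).2
  have h2' := (mem_filter.1 (mem_coe.1 h2)).2
  simp only [Prod.mk.injEq] at e
  obtain ⟨rfl, e1, e2⟩ := e
  have e3 := fun i => congrFun e2 i
  simp only [Prod.mk.injEq] at e3
  have := dec (I := I) (F := F) (I' := I') (F' := F') (a := a) e1 (fun v hv hv' => ?_) (fun v hv hv' => ?_)
  · rw [this.1, this.2]
  · by_cases hi : ∃ i, σ (I, F, a) i = v
    · obtain ⟨i, rfl⟩ := hi
      left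
      obtain ⟨b1, b2, b3⟩ := e3 i
      rw [← b1] at b2 b3
      exact ⟨b2, b3⟩
    · push Not at hi
      have c1 := hσ _ h1' v hv hi
      have c2 := hσ _ h2' v hv' (fun i => (e3 i).1 ▸ hi i)
      have n1 := h1'.ne v hv
      have n2 := h2'.ne v hv'
      simp only at c1 c2 n1 n2
      obtain ⟨c1 | c1, d1 | d1⟩ := c1 <;> obtain ⟨c2 | c2, d2 | d2⟩ := c2 <;> simp_all
  · have c1 := h1'.out v hv
    have c2 := h2'.out v hv'
    exact ⟨c1.1.symm.trans c2.1, c1.2.symm.trans c2.2⟩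

theorem enc_of (hW : Wt ℓ) {N : ℕ} {c : ℤ → V} (hR : Rg I F C N c) {g : V → ℝ} (hg : Gauge ℓ K g) {s₁ s₂ s₃ : ℤ}
    (h₁ : ℓ (c s₁) (c (s₁ + 1)) ≤ g (c s₁) * g (c (s₁ + 1))) (h₂ : ℓ (c s₂) (c (s₂ + 1)) ≤ g (c s₂) * g (c (s₂ + 1)))
    (h₃ : ℓ (c s₃) (c (s₃ + 1)) ≤ g (c s₃) * g (c (s₃ + 1)))
    (hout : ∀ v, v ∉ C → X.1 v = I.1 v ∧ Y.1 v = F.1 v) (p : ℤ)
    (hin : ∀ t, p ≤ t → t < p + N → c t ≠ c s₁ → c t ≠ c s₂ → c t ≠ c s₃ →
      X.1 (c t) = c (t + 1) ∨ Y.1 (c t) = c (t + 1)) : Enc ℓ K I F C X Y := by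
  have hL := hR.toLp
  have h4 : (4 : ℤ) ≤ N := by exact_mod_cast hR.four
  have step : ∀ {s t : ℤ}, c s = c t → c (s + 1) = c (t + 1) := fun e =>
    (hL.inj _ _).2 (by simpa using (hL.inj _ _).1 e)
  set S : Finset V := {c s₁, c (s₁ + 1), c s₂, c (s₂ + 1), c s₃, c (s₃ + 1)} with hS
  have edge : ∀ t, (X.1 (c t) = c (t + 1) ∨ Y.1 (c t) = c (t + 1)) ∨
      (c t ∈ S ∧ c (t + 1) ∈ S ∧ ℓ (c t) (c (t + 1)) ≤ g (c t) * g (c (t + 1))) := by
    intro t
    by_cases a1 : c t = c s₁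
    · right; rw [step a1, a1]; simp [hS, h₁]
    by_cases a2 : c t = c s₂
    · right; rw [step a2, a2]; simp [hS, h₂]
    by_cases a3 : c t = c s₃
    · right; rw [step a3, a3]; simp [hS, h₃]
    obtain ⟨u, b1, b2, e⟩ := hL.win p ((hL.mem _).2 ⟨t, rfl⟩)
    left
    rw [← step e, ← e]
    exact hin u b1 b2 (e ▸ a1) (e ▸ a2) (e ▸ a3)
  have hne : ∀ t, c (t - 1) ≠ c (t + 1) := fun t => hL.ne (by omega) (by omega)
  refine ⟨hout, fun v hv => ?_, g, S, hg, card_le_six, fun v hv z hz => ?_⟩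
  · obtain ⟨t, rfl⟩ := (hL.mem v).1 hv
    rcases hR.nb t with ⟨a, b⟩ | ⟨a, b⟩ <;> rw [a, b]
    · exact (hne t).symm
    · exact hne t
  · obtain ⟨t, rfl⟩ := (hL.mem v).1 hv
    have hz' : z = c (t + 1) ∨ z = c (t - 1) := by
      rcases hR.nb t with ⟨a, b⟩ | ⟨a, b⟩ <;> rw [a, b] at hz <;> tauto
    rcases hz' with rfl | rfl
    · rcases edge t with (e | e) | e
      · exact Or.inl (Or.inl e.symm)
      · exact Or.inl (Or.inr e.symm)
      · exact Or.inr ⟨e.1, e.2.2⟩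
    · have := edge (t - 1)
      rw [sub_add_cancel] at this
      rcases this with (e | e) | e
      · exact Or.inl (Or.inl (X.symm e).symm)
      · exact Or.inl (Or.inr (Y.symm e).symm)
      · refine Or.inr ⟨e.2.1, ?_⟩
        rw [hW.symm, mul_comm]; exact e.2.2

theorem mix_congr_right {U : Finset V} {Z X' : PM V} (hX : ∀ v ∈ U, X.1 v = X'.1 v) :
    mix U Z X = mix U Z X' := by
  by_cases h : Closed Z X U
  · have h' : Closed Z X' U := fun v hv => ⟨(h v hv).1, hX v hv ▸ (h v hv).2⟩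
    refine PM.ext' fun v => ?_
    rw [mix_apply h, mix_apply h']
    split_ifs with hv
    · exact hX v hv
    · rfl
  · have h' : ¬Closed Z X' U := fun h' => h fun v hv => ⟨(h' v hv).1, (hX v hv).symm ▸ (h' v hv).2⟩
    exact (dif_neg h : mix U Z X = Z).trans (dif_neg h' : mix U Z X' = Z).symm

theorem dv_congr (φ : PM V → ℝ) {U : Finset V} {X' Y' : PM V} (hX : ∀ v ∈ U, X.1 v = X'.1 v)
    (hY : ∀ v ∈ U, Y.1 v = Y'.1 v) : dv ℓ φ U X Y = dv ℓ φ U X' Y' := by
  have hc : ∀ Z : PM V, (∀ v ∈ U, Z.1 v = Y.1 v) ↔ ∀ v ∈ U, Z.1 v = Y'.1 v := fun Z =>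
    forall₂_congr fun v hv => by rw [hY v hv]
  unfold dv
  simp only [hc, mix_congr_right hX]

theorem avg_sq_le {α : Type} [Fintype α] (w ψ : α → ℝ) (hw : ∀ a, 0 < w a) (R : α → α → Prop)
    [∀ a b, Decidable (R a b)] (hr : ∀ a, R a a) (hs : ∀ a b, R a b → ∀ x, R a x ↔ R b x) :
    ∑ y, w y * ((∑ z, if R y z then w z * ψ z else 0) / ∑ z, if R y z then w z else 0) ^ 2 ≤
      ∑ y, w y * ψ y ^ 2 := by
  set D : α → ℝ := fun y => ∑ z, if R y z then w z else 0 with hD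
  have hD0 : ∀ y, 0 < D y := fun y =>
    sum_pos' (fun z _ => by split_ifs; exacts [(hw z).le, le_rfl]) ⟨y, mem_univ _, by simp [hr, hw]⟩
  have h1 : ∀ y, ((∑ z, if R y z then w z * ψ z else 0) / D y) ^ 2 ≤
      (∑ z, if R y z then w z * ψ z ^ 2 else 0) / D y := by
    intro y
    have := sum_sq_le_sum_mul_sum_of_sq_le_mul (s := univ) (r := fun z => if R y z then w z * ψ z else 0)
      (f := fun z => if R y z then w z * ψ z ^ 2 else 0) (g := fun z => if R y z then w z else 0)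
      (fun z _ => by have := hw z; split_ifs <;> positivity)
      (fun z _ => by have := hw z; split_ifs <;> positivity)
      (fun z _ => by split_ifs <;> ring_nf <;> exact le_rfl)
    rw [div_pow, div_le_div_iff₀ (pow_pos (hD0 y) 2) (hD0 y)]
    have := mul_le_mul_of_nonneg_right this (hD0 y).le
    simp only [hD] at this ⊢
    nlinarith
  calc ∑ y, w y * ((∑ z, if R y z then w z * ψ z else 0) / D y) ^ 2
      ≤ ∑ y, w y * ((∑ z, if R y z then w z * ψ z ^ 2 else 0) / D y) :=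
        sum_le_sum fun y _ => mul_le_mul_of_nonneg_left (h1 y) (hw y).le
    _ = ∑ y, ∑ z, if R z y then w y * (w z * ψ z ^ 2 / D z) else 0 := by
        refine sum_congr rfl fun y _ => ?_
        rw [sum_div, mul_sum]
        refine sum_congr rfl fun z _ => ?_
        by_cases h : R y z
        · have h' : R z y := (hs y z h y).1 (hr y)
          have e : D z = D y := by simp only [hD, hs y z h]
          rw [if_pos h, if_pos h', e]
        · have h' : ¬R z y := fun h' => h ((hs z y h' z).1 (hr z))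
          rw [if_neg h, if_neg h']; simp
    _ = ∑ z, w z * ψ z ^ 2 := by
        rw [sum_comm]
        refine sum_congr rfl fun z _ => ?_
        have : ∑ y, (if R z y then w y * (w z * ψ z ^ 2 / D z) else 0) = D z * (w z * ψ z ^ 2 / D z) := by
          simp only [hD]
          rw [sum_mul]
          refine sum_congr rfl fun y _ => ?_
          split_ifs <;> simp
        rw [this, mul_div_cancel₀ _ (hD0 z).ne']

theorem lemQ (hW : Wt ℓ) (φ : PM V → ℝ) (b : V) :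
    ∑ X, ∑ Y, mu ℓ X * mu ℓ Y * er ℓ φ X Y b ^ 2 ≤
      ∑ X, ∑ Y, mu ℓ X * mu ℓ Y * (φ X + φ Y - φ (mix (comp X Y b) X Y) - φ (mix (comp X Y b) Y X)) ^ 2 := by
  refine sum_le_sum fun X _ => ?_
  have hZ : 0 < ZZ ℓ := by
    have : Nonempty (PM V) := ⟨X⟩
    exact ZZ_pos hW
  have hc : ∀ Y Z : PM V, (∀ v ∈ comp X Y b, Z.1 v = Y.1 v) → comp X Z b = comp X Y b :=
    fun Y Z h => comp_congr fun v hv => ⟨rfl, h v hv⟩
  have key := avg_sq_le (wt ℓ)
    (fun Y => φ X + φ Y - φ (mix (comp X Y b) X Y) - φ (mix (comp X Y b) Y X)) (wt_pos hW)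
    (fun Y Z => ∀ v ∈ comp X Y b, Z.1 v = Y.1 v) (fun _ _ _ => rfl) (fun Y Z h W => by
      rw [hc Y Z h]
      exact forall₂_congr fun v hv => by rw [h v hv])
  have he : ∀ Y, er ℓ φ X Y b ^ 2 = ((∑ Z : PM V, if ∀ v ∈ comp X Y b, Z.1 v = Y.1 v then
      wt ℓ Z * (φ X + φ Z - φ (mix (comp X Z b) X Z) - φ (mix (comp X Z b) Z X)) else 0) /
        ∑ Z : PM V, if ∀ v ∈ comp X Y b, Z.1 v = Y.1 v then wt ℓ Z else 0) ^ 2 := by
    intro Y
    have hD : 0 < ∑ Z : PM V, if ∀ v ∈ comp X Y b, Z.1 v = Y.1 v then wt ℓ Z else 0 :=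
      sum_pos' (fun z _ => by split_ifs; exacts [(wt_pos hW z).le, le_rfl])
        ⟨Y, mem_univ _, by simp [wt_pos hW]⟩
    have e : (∑ Z : PM V, if ∀ v ∈ comp X Y b, Z.1 v = Y.1 v then
        wt ℓ Z * (φ X + φ Z - φ (mix (comp X Z b) X Z) - φ (mix (comp X Z b) Z X)) else 0) =
        (∑ Z : PM V, if ∀ v ∈ comp X Y b, Z.1 v = Y.1 v then
          wt ℓ Z * (φ Z - φ (mix (comp X Y b) Z X)) else 0) +
        (φ X - φ (mix (comp X Y b) X Y)) *
          ∑ Z : PM V, if ∀ v ∈ comp X Y b, Z.1 v = Y.1 v then wt ℓ Z else 0 := by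
      rw [mul_sum, ← sum_add_distrib]
      refine sum_congr rfl fun Z _ => ?_
      split_ifs with h
      · rw [hc Y Z h, mix_congr_right h]; ring
      · simp
    rw [e, add_div, mul_div_cancel_right₀ _ hD.ne']
    unfold er dv
    ring
  have hm : 0 ≤ mu ℓ X / ZZ ℓ := (div_pos (mu_pos hW X) hZ).le
  have := mul_le_mul_of_nonneg_left key hm
  rw [mul_sum, mul_sum] at this
  refine le_trans (le_of_eq ?_) (this.trans (le_of_eq ?_))
  · refine sum_congr rfl fun Y _ => ?_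
    rw [he Y, mu.eq_1 ℓ Y]; ring
  · refine sum_congr rfl fun Y _ => ?_
    rw [mu.eq_1 ℓ Y]; ring

end Crest.Agent.R304
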