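import Crest.Agent.R304.Poly

/-!
# R304: the law of maximal entropy with given marginals

PLAN.  `opt_exists`: the laws with marginals `x` form a closed subset of the compact box `[0,1]^(Finset E)`
(`isCompact_Icc`, `IsCompact.of_isClosed_subset`; the condition `pm` says `p M = 0` for all non-matchings), `ent` is
continuous, `IsCompact.exists_isMaxOn`.  `Opt.supp`: suppose `p M₀ = 0 < q M₀`; for `0 < s < 1` the law
`(1-s) p + s q` (`Law.mix`) has entropy `≥ ent p - s ent p + s q M₀ (- log s)` (concavity of `negMulLog` and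
`negMulLog ≥ 0` on `[0,1]` for `M ≠ M₀`; `negMulLog (s a) = s a (-log s) + s negMulLog a` at `M₀`), which exceeds `ent p`
for small `s`.  `Opt.first`: `p + s r` is a law with marginals `x` for small `|s|`; `s ↦ ent (p + s r)` has a local maximum
at `0` and derivative `∑ r M (-log (p M) - 1)` (terms with `p M = 0` vanish identically), `IsLocalMax.hasDerivAt_eq_zero`.
`Opt.second`: the law is `p M (1 + t f M)` (`∑ p f = 0`, `mrg_eq`).  For the inequality: `(q + q')/2` has marginals `x`, so
`q, q'` vanish where `p` does (`Opt.supp`); `Opt.first` with `r = q + q' - 2p` gives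
`ent q + ent q' = 2 ent p - KL q - KL q'`, `KL q = ∑ q log (q/p)`.  From `log y ≤ y - 1` with `y = p e^{t f} / q`:
`KL q ≥ ∑ q t f - (∑ p e^{t f} - 1)`; `∑ q f = ∑ e, η e * (t * hv e) = t ∑ p f^2`, and
`e^y ≤ 1 + y + y^2/2 + |y|^3` for `|y| ≤ 1` (`Real.exp_bound`).  For `q'` use `-t`.
`sec_diff`: `negMulLog (a+b) + negMulLog (a-b) - 2 negMulLog a = -a ((1+u) log (1+u) + (1-u) log (1-u))`, `u = b/a`, and
`|log (1+u) - u + u^2/2| ≤ 2|u|^3` for `|u| ≤ 1/2` (`Real.abs_log_sub_add_sum_range_le`).
`frame`: in `EuclideanSpace ℝ (Finset E)` let `v e M = √(p M) (chi M e - x e)`, `U = span (range v)`, `b` an orthonormal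
basis of `U` (`stdOrthonormalBasis`), `b i = ∑ e, η i e • v e` (`Submodule.mem_span_range_iff_exists_fun`).  Then
`hv p x (η i) e = ⟪b i, v e⟫`, Parseval in `U` (`OrthonormalBasis.sum_inner_mul_inner`), `‖v e‖^2 = x e (1 - x e)`.  For
`g ∈ H`: `t g e = ∑ M, q M (chi M e - x e) = ⟪z, v e⟫` with `z M = q M / √(p M)`, and `v e = ∑ i, ⟪b i, v e⟫ b i`, so
`g ∈ span (range fun i => hv p x (η i))`, `finrank_range_le_card`.
-/

set_option autoImplicit false
set_option linter.unusedSectionVars false
open Finset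

namespace Crest.Agent.R304

variable {V E : Type} [Fintype V] [DecidableEq V] [Fintype E] [DecidableEq E]

/-- a law of maximal entropy -/
structure Opt (ends : E → V × V) (W : Finset V) (p : Finset E → ℝ) (x : E → ℝ) : Prop where
  law : Law ends W p x
  max : ∀ q, Law ends W q x → ent q ≤ ent p

/-- centred linear statistic -/
def fv (x η : E → ℝ) (M : Finset E) : ℝ := ∑ e, η e * (chi M e - x e)

/-- covariance applied to `η` -/
def hv (p : Finset E → ℝ) (x η : E → ℝ) (e : E) : ℝ := ∑ M, p M * fv x η M * (chi M e - x e)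

variable {ends : E → V × V} {W : Finset V} {x : E → ℝ} {p : Finset E → ℝ}

theorem Law.val_le_one (h : Law ends W p x) (M : Finset E) : p M ≤ 1 := by
  rw [← h.total]
  exact single_le_sum (fun M _ => h.nonneg M) (mem_univ M)

theorem Law.sum_fv {y : E → ℝ} (h : Law ends W p y) (x η : E → ℝ) :
    ∑ M, p M * fv x η M = ∑ e, η e * (y e - x e) := by
  simp only [fv, mul_sum]
  rw [sum_comm]
  refine sum_congr rfl fun e _ => ?_
  rw [← h.marg e, mrg_eq]
  have : ∀ M, p M * (η e * (chi M e - x e)) = η e * (p M * chi M e) - η e * x e * p M := fun M => by ring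
  simp only [this, sum_sub_distrib, ← mul_sum, h.total]
  ring

theorem sum_eta_hv (p : Finset E → ℝ) (x η : E → ℝ) : ∑ e, η e * hv p x η e = ∑ M, p M * fv x η M ^ 2 := by
  simp only [hv, mul_sum]
  rw [sum_comm]
  refine sum_congr rfl fun M _ => ?_
  rw [sq, ← mul_assoc]
  conv_rhs => rw [fv, mul_sum]
  exact sum_congr rfl fun e _ => by rw [fv]; ring

theorem opt_exists (h : Law ends W p x) : ∃ q, Opt ends W q x := by
  have hcl : IsClosed {q : Finset E → ℝ | Law ends W q x} := by
    have : {q : Finset E → ℝ | Law ends W q x} = (⋂ M, {q | 0 ≤ q M}) ∩ {q | ∑ M, q M = 1} ∩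
        (⋂ M, ⋂ (_ : ¬ PMon ends W M), {q | q M = 0}) ∩ ⋂ e, {q | mrg q e = x e} := by
      ext q
      simp only [Set.mem_ofPred_eq, Set.mem_inter_iff, Set.mem_iInter]
      constructor
      · intro hq
        exact ⟨⟨⟨hq.nonneg, hq.total⟩, fun M hM => by_contra fun h0 => hM (hq.pm M h0)⟩, hq.marg⟩
      · rintro ⟨⟨⟨h1, h2⟩, h3⟩, h4⟩
        exact ⟨h1, h2, fun M hM => by_contra fun h0 => hM (h3 M h0), h4⟩
    rw [this]
    refine (((isClosed_iInter fun M => isClosed_le continuous_const (continuous_apply M)).inter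
      (isClosed_eq (by fun_prop) continuous_const)).inter
      (isClosed_iInter fun M => isClosed_iInter fun _ => isClosed_eq (continuous_apply M) continuous_const)).inter
      (isClosed_iInter fun e => isClosed_eq ?_ continuous_const)
    unfold mrg
    fun_prop
  have hc : IsCompact {q : Finset E → ℝ | Law ends W q x} :=
    (isCompact_Icc (a := (0 : Finset E → ℝ)) (b := 1)).of_isClosed_subset hcl
      fun q hq => ⟨fun M => hq.nonneg M, fun M => hq.val_le_one M⟩
  have hcont : Continuous (ent : (Finset E → ℝ) → ℝ) :=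
    continuous_finsetSum _ fun M _ => Real.continuous_negMulLog.comp (continuous_apply M)
  obtain ⟨q, hq, hmax⟩ := hc.exists_isMaxOn ⟨p, h⟩ hcont.continuousOn
  exact ⟨q, hq, fun q' hq' => hmax hq'⟩

theorem Opt.supp (h : Opt ends W p x) {q : Finset E → ℝ} (hq : Law ends W q x) {M : Finset E} (hM : p M = 0) :
    q M = 0 := by
  by_contra h0
  have ha : 0 < q M := lt_of_le_of_ne (hq.nonneg M) (Ne.symm h0)
  have he := ent_nonneg h.law
  set s : ℝ := Real.exp (-(ent p / q M + 1)) with hs
  have hs0 : 0 < s := Real.exp_pos _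
  have hs1 : s < 1 := by
    have : 0 ≤ ent p / q M := by positivity
    exact Real.exp_lt_one_iff.2 (by linarith)
  have hl := h.law.mix hq (a := 1 - s) (b := s) (by linarith) hs0.le (by ring)
  rw [← add_smul, sub_add_cancel, one_smul] at hl
  have h1 := h.max _ hl
  have h2 : ∀ N ∈ (univ : Finset (Finset E)), (1 - s) * Real.negMulLog (p N) +
      (if N = M then s * (ent p + q M) else 0) ≤ Real.negMulLog (((1 - s) • p + s • q) N) := by
    intro N _
    have h3 : 0 ≤ Real.negMulLog (q N) := Real.negMulLog_nonneg (hq.nonneg N) (hq.val_le_one N)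
    split_ifs with hN
    · subst hN
      simp only [Pi.add_apply, Pi.smul_apply, smul_eq_mul, hM, Real.negMulLog_zero, mul_zero, zero_add]
      rw [Real.negMulLog_mul]
      have : q N * Real.negMulLog s = s * (ent p + q N) := by
        rw [Real.negMulLog, hs, Real.log_exp]
        field_simp
      rw [this]
      nlinarith
    · have := Real.concaveOn_negMulLog.2 (h.law.nonneg N) (hq.nonneg N) (show 0 ≤ 1 - s by linarith) hs0.le
        (by ring)
      simp only [smul_eq_mul] at this
      simp only [Pi.add_apply, Pi.smul_apply, smul_eq_mul]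
      nlinarith
  have h4 := sum_le_sum h2
  rw [sum_add_distrib, ← mul_sum, sum_ite_eq' univ M, if_pos (mem_univ _)] at h4
  have h5 : (1 - s) * ent p + s * (ent p + q M) ≤ ent p := h4.trans h1
  nlinarith

theorem Opt.first (h : Opt ends W p x) (r : Finset E → ℝ) (h0 : ∀ M, p M = 0 → r M = 0) (h1 : ∑ M, r M = 0)
    (h2 : ∀ e, mrg r e = 0) : ∑ M, r M * Real.log (p M) = 0 := by
  have e1 : ∀ᶠ s : ℝ in nhds 0, ∀ M, 0 ≤ p M + s * r M := by
    rw [Filter.eventually_all]
    intro M
    by_cases hM : p M = 0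
    · simp [hM, h0 M hM]
    · have : ContinuousAt (fun t : ℝ => p M + t * r M) 0 := by fun_prop
      refine (this.eventually (lt_mem_nhds (a := 0) ?_)).mono fun t ht => le_of_lt ht
      simpa using lt_of_le_of_ne (h.law.nonneg M) (Ne.symm hM)
  have hmax : IsLocalMax (fun s : ℝ => ∑ M, Real.negMulLog (p M + s * r M)) 0 := by
    filter_upwards [e1] with s hs
    have hl : Law ends W (fun M => p M + s * r M) x := by
      refine ⟨hs, ?_, fun M hM => h.law.pm M fun h3 => hM (by simp [h3, h0 M h3]), fun e => ?_⟩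
      · rw [sum_add_distrib, ← mul_sum, h1, h.law.total]
        ring
      · have h3 := h2 e
        have h4 := h.law.marg e
        unfold mrg at h3 h4 ⊢
        rw [sum_add_distrib, ← mul_sum, h3, h4]
        ring
    simpa [ent] using h.max _ hl
  have hd : HasDerivAt (fun s : ℝ => ∑ M, Real.negMulLog (p M + s * r M))
      (∑ M, (-Real.log (p M) - 1) * r M) 0 := by
    refine HasDerivAt.fun_sum fun M _ => ?_
    by_cases hM : p M = 0
    · simpa [hM, h0 M hM] using hasDerivAt_const (0 : ℝ) (0 : ℝ)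
    · have h3 : HasDerivAt (fun s : ℝ => p M + s * r M) (r M) 0 := by
        simpa using ((hasDerivAt_id (0 : ℝ)).mul_const (r M)).const_add (p M)
      have h4 : HasDerivAt Real.negMulLog (-Real.log (p M) - 1) (p M + 0 * r M) := by
        simpa using Real.hasDerivAt_negMulLog hM
      exact h4.comp 0 h3
  have h5 := hmax.hasDerivAt_eq_zero hd
  have h6 : ∑ M, (-Real.log (p M) - 1) * r M = -(∑ M, r M * Real.log (p M)) - ∑ M, r M := by
    rw [← sum_neg_distrib, ← sum_sub_distrib]
    exact sum_congr rfl fun M _ => by ring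
  rw [h6, h1] at h5
  linarith

theorem Law.ent_le (h : Law ends W p x) (η : E → ℝ) {t : ℝ} (ht : ∀ M, |t * fv x η M| ≤ 1) {q : Finset E → ℝ}
    (hq : Law ends W q (x + t • hv p x η)) (hs : ∀ M, p M = 0 → q M = 0) :
    ent q ≤ -(∑ M, q M * Real.log (p M)) - t ^ 2 / 2 * ∑ M, p M * fv x η M ^ 2 +
      (∑ M, p M * |fv x η M| ^ 3) * |t| ^ 3 := by
  have h1 : ∀ M ∈ (univ : Finset (Finset E)), Real.negMulLog (q M) ≤
      -(q M * Real.log (p M)) - t * (q M * fv x η M) - q M +
        (p M + t * (p M * fv x η M) + t ^ 2 / 2 * (p M * fv x η M ^ 2) + p M * |fv x η M| ^ 3 * |t| ^ 3) := by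
    intro M _
    have h2 : Real.exp (t * fv x η M) ≤ 1 + t * fv x η M + (t * fv x η M) ^ 2 / 2 + |t * fv x η M| ^ 3 := by
      have := Real.exp_bound (ht M) (n := 3) (by norm_num)
      simp only [sum_range_succ, sum_range_zero, Nat.factorial] at this
      norm_num at this
      have h3 := (abs_le.1 this).2
      have h4 : 0 ≤ (|t| * |fv x η M|) ^ 3 := by positivity
      rw [abs_mul]
      linarith
    have h3 := mul_le_mul_of_nonneg_left h2 (h.nonneg M)
    have h4 : Real.negMulLog (q M) ≤ -(q M * Real.log (p M)) - t * (q M * fv x η M) - q M +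
        p M * Real.exp (t * fv x η M) := by
      by_cases hq0 : q M = 0
      · simp only [hq0, Real.negMulLog_zero, zero_mul, mul_zero, neg_zero, sub_zero, zero_add]
        exact mul_nonneg (h.nonneg M) (Real.exp_pos _).le
      · have hq1 : 0 < q M := lt_of_le_of_ne (hq.nonneg M) (Ne.symm hq0)
        have hp1 : 0 < p M := lt_of_le_of_ne (h.nonneg M) (Ne.symm fun h5 => hq0 (hs M h5))
        have h5 := Real.log_le_sub_one_of_pos (show 0 < p M * Real.exp (t * fv x η M) / q M by positivity)
        rw [Real.log_div (by positivity) hq0, Real.log_mul hp1.ne' (Real.exp_pos _).ne', Real.log_exp] at h5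
        have h6 := mul_le_mul_of_nonneg_left h5 hq1.le
        rw [mul_sub (q M) (p M * Real.exp (t * fv x η M) / q M), mul_div_cancel₀ _ hq0] at h6
        rw [Real.negMulLog]
        linarith
    refine h4.trans ?_
    rw [abs_mul, mul_pow] at h3
    linarith
  refine (sum_le_sum h1).trans (le_of_eq ?_)
  have a1 := h.sum_fv x η
  have a2 := hq.sum_fv x η
  simp only [sub_self, mul_zero, sum_const_zero] at a1
  have a3 : ∑ e, η e * ((x + t • hv p x η) e - x e) = t * ∑ M, p M * fv x η M ^ 2 := by
    rw [← sum_eta_hv, mul_sum]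
    exact sum_congr rfl fun e _ => by simp; ring
  rw [a3] at a2
  simp only [sum_add_distrib, sum_sub_distrib, sum_neg_distrib, ← mul_sum, ← sum_mul, a1, a2, h.total, hq.total]
  ring

theorem Opt.second (h : Opt ends W p x) (η : E → ℝ) : ∃ C ε : ℝ, 0 < ε ∧ ∀ t : ℝ, |t| < ε →
    (∃ q, Law ends W q (x + t • hv p x η)) ∧
    ∀ q q', Law ends W q (x + t • hv p x η) → Law ends W q' (x - t • hv p x η) →
      ent q + ent q' ≤ 2 * ent p - t ^ 2 * ∑ M, p M * fv x η M ^ 2 + C * |t| ^ 3 := by
  set B : ℝ := ∑ M, |fv x η M| + 1 with hB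
  have hB0 : 0 < B := by positivity
  have hBM : ∀ M, |fv x η M| ≤ B := fun M =>
    (single_le_sum (f := fun M => |fv x η M|) (fun _ _ => abs_nonneg _) (mem_univ M)).trans (by linarith)
  refine ⟨2 * ∑ M, p M * |fv x η M| ^ 3, B⁻¹, inv_pos.2 hB0, fun t ht => ?_⟩
  have htf : ∀ M, |t * fv x η M| ≤ 1 := by
    intro M
    rw [abs_mul]
    calc |t| * |fv x η M| ≤ B⁻¹ * B := mul_le_mul ht.le (hBM M) (abs_nonneg _) (inv_pos.2 hB0).le
      _ = 1 := inv_mul_cancel₀ hB0.ne'
  have a1 := h.law.sum_fv x η
  simp only [sub_self, mul_zero, sum_const_zero] at a1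
  refine ⟨⟨fun M => p M * (1 + t * fv x η M), fun M => mul_nonneg (h.law.nonneg M) ?_, ?_,
    fun M hM => h.law.pm M (left_ne_zero_of_mul hM), fun e => ?_⟩, fun q q' hq hq' => ?_⟩
  · linarith [(abs_le.1 (htf M)).1]
  · have : ∀ M, p M * (1 + t * fv x η M) = p M + t * (p M * fv x η M) := fun M => by ring
    simp only [this, sum_add_distrib, ← mul_sum, a1, h.law.total]
    ring
  · have h1 := h.law.marg e
    rw [mrg_eq] at h1 ⊢
    have : ∀ M, p M * (1 + t * fv x η M) * chi M e =
        p M * chi M e + t * (p M * fv x η M * (chi M e - x e)) + t * x e * (p M * fv x η M) := fun M => by ring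
    simp only [this, sum_add_distrib, ← mul_sum, a1, h1]
    simp [hv]
  · have hl := hq.mix hq' (a := 1 / 2) (b := 1 / 2) (by norm_num) (by norm_num) (by norm_num)
    have e : (1 / 2 : ℝ) • (x + t • hv p x η) + (1 / 2 : ℝ) • (x - t • hv p x η) = x := by
      funext e
      simp
      ring
    rw [e] at hl
    have hs : ∀ M, p M = 0 → q M = 0 ∧ q' M = 0 := by
      intro M hM
      have := h.supp hl hM
      simp only [Pi.add_apply, Pi.smul_apply, smul_eq_mul] at this
      constructor <;> linarith [hq.nonneg M, hq'.nonneg M]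
    have b1 := h.law.ent_le η htf hq fun M hM => (hs M hM).1
    have b2 := h.law.ent_le η (t := -t) (fun M => by rw [neg_mul, abs_neg]; exact htf M) (q := q')
      (by rwa [neg_smul, ← sub_eq_add_neg]) fun M hM => (hs M hM).2
    have b3 := h.first (fun M => q M + q' M - 2 * p M) (fun M hM => by rw [(hs M hM).1, (hs M hM).2, hM]; ring)
      (by rw [sum_sub_distrib, sum_add_distrib, ← mul_sum, hq.total, hq'.total, h.law.total]; ring)
      (fun e => by
        have c1 := hq.marg e
        have c2 := hq'.marg e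
        have c3 := h.law.marg e
        unfold mrg at c1 c2 c3 ⊢
        rw [sum_sub_distrib, sum_add_distrib, ← mul_sum, c1, c2, c3]
        simp
        ring)
    have b4 : ∑ M, (q M + q' M - 2 * p M) * Real.log (p M) =
        ∑ M, q M * Real.log (p M) + ∑ M, q' M * Real.log (p M) + 2 * ent p := by
      rw [ent, mul_sum, ← sum_add_distrib, ← sum_add_distrib]
      exact sum_congr rfl fun M _ => by rw [Real.negMulLog]; ring
    rw [abs_neg, neg_sq] at b2
    linarith

end Crest.Agent.R304
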