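import Crest.Agent.R304.Lam2

/-!
# R304: feasible directions (plan: see `Lam1`)
-/

set_option autoImplicit false
open Finset

namespace Crest.Agent.R304

variable {V E : Type} [Fintype V] [DecidableEq V] [Fintype E] [DecidableEq E]
variable {ends : E → V × V} {W : Finset V} {x : E → ℝ}

theorem dir_space (h : Feas ends W x) (hW : W.Nonempty) :
    ∃ H : Submodule ℝ (E → ℝ),
      2 * (univ.filter fun e => x e ≠ 0).card + 4 ≤ 2 * Module.finrank ℝ H + 3 * W.card ∧
      ∀ g ∈ H, (∀ e, x e = 0 → g e = 0) ∧ ∃ ε : ℝ, 0 < ε ∧ ∀ t : ℝ, |t| < ε → Feas ends W (x + t • g) := by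
  classical
  obtain ⟨L, hL, hspan⟩ := lam_span h hW
  let φ : (E → ℝ) →ₗ[ℝ] ({e // x e = 0} → ℝ) × (L → ℝ) :=
    { toFun := fun g => (fun e => g e, fun S => cut ends g S)
      map_add' := fun g g' => by
        refine Prod.ext rfl (funext fun S => ?_)
        exact cut_add g g' S.1
      map_smul' := fun t g => by
        refine Prod.ext rfl (funext fun S => ?_)
        exact cut_smul t g S.1 }
  refine ⟨LinearMap.ker φ, ?_, fun g hg => ?_⟩
  · have h1 := LinearMap.finrank_range_add_finrank_ker φ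
    have h2 := Submodule.finrank_le (LinearMap.range φ)
    rw [Module.finrank_prod, Module.finrank_fintype_fun_eq_card, Module.finrank_fintype_fun_eq_card,
      Fintype.card_subtype, Fintype.card_coe] at h2
    rw [Module.finrank_fintype_fun_eq_card] at h1
    have h3 := card_filter_add_card_filter_not (s := (univ : Finset E)) (fun e => x e = 0)
    rw [card_univ] at h3
    have h4 : (univ.filter fun e => x e ≠ 0).card = (univ.filter fun e => ¬ x e = 0).card := rfl
    omega
  · have h0 : φ g = 0 := hg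
    have h1 : ∀ e, x e = 0 → g e = 0 := fun e he => congrFun (congrArg Prod.fst h0) ⟨e, he⟩
    have h2 : ∀ S ∈ L, cut ends g S = 0 := fun S hS => congrFun (congrArg Prod.snd h0) ⟨S, hS⟩
    have h3 := hspan g h1 h2
    refine ⟨h1, ?_⟩
    have e1 : ∀ᶠ t : ℝ in nhds 0, ∀ e, 0 ≤ x e + t * g e := by
      rw [Filter.eventually_all]
      intro e
      by_cases he : x e = 0
      · simp [he, h1 e he]
      · have : ContinuousAt (fun t : ℝ => x e + t * g e) 0 := by fun_prop
        refine (this.eventually (lt_mem_nhds (a := 0) ?_)).mono fun t ht => le_of_lt ht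
        simpa using lt_of_le_of_ne (h.nonneg e) (Ne.symm he)
    have e2 : ∀ᶠ t : ℝ in nhds 0, ∀ S : Finset V, S ⊆ W → Odd S.card → 1 ≤ cut ends x S + t * cut ends g S := by
      rw [Filter.eventually_all]
      intro S
      by_cases hS : S ⊆ W ∧ Odd S.card
      · by_cases he : cut ends x S = 1
        · simp [he, h3 S hS.1 hS.2 he]
        · have : ContinuousAt (fun t : ℝ => cut ends x S + t * cut ends g S) 0 := by fun_prop
          refine (this.eventually (lt_mem_nhds (a := 1) ?_)).mono fun t ht _ _ => le_of_lt ht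
          simpa using lt_of_le_of_ne (h.odd S hS.1 hS.2) (Ne.symm he)
      · exact Filter.Eventually.of_forall fun t h4 h5 => absurd ⟨h4, h5⟩ hS
    obtain ⟨ε, hε, hb⟩ := Metric.eventually_nhds_iff.1 (e1.and e2)
    refine ⟨ε, hε, fun t ht => ?_⟩
    obtain ⟨b1, b2⟩ := hb (y := t) (by simpa using ht)
    refine ⟨b1, fun e he => h.supp e fun h0 => he (by simp [h0, h1 e h0]), fun v hv => ?_, fun S hS hSo => ?_⟩
    · rw [cut_add, cut_smul, h3 {v} (singleton_subset_iff.2 hv) (by simp) (h.deg v hv), h.deg v hv]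
      simp
    · rw [cut_add, cut_smul]
      exact b2 S hS hSo

theorem Feas.near (h : Feas ends W x) : ∃ ρ : ℝ, 0 < ρ ∧ ∀ y, Feas ends W y → ∀ s : ℝ, 0 < s → s ≤ 1 →
    (∀ e, |y e - x e| ≤ ρ * s) → Feas ends W (x + s⁻¹ • (y - x)) := by
  classical
  have e1 : ∀ᶠ ρ : ℝ in nhds 0, ∀ e, x e ≠ 0 → ρ ≤ x e := by
    rw [Filter.eventually_all]
    intro e
    by_cases he : x e = 0
    · simp [he]
    · exact (gt_mem_nhds (lt_of_le_of_ne (h.nonneg e) (Ne.symm he))).mono fun t ht _ => le_of_lt ht
  have e2 : ∀ᶠ ρ : ℝ in nhds 0, ∀ S : Finset V, 1 < cut ends x S → 1 ≤ cut ends x S - Fintype.card E * ρ := by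
    rw [Filter.eventually_all]
    intro S
    by_cases hS : 1 < cut ends x S
    · have : ContinuousAt (fun t : ℝ => cut ends x S - Fintype.card E * t) 0 := by fun_prop
      refine (this.eventually (lt_mem_nhds (a := 1) ?_)).mono fun t ht _ => le_of_lt ht
      simpa using hS
    · exact Filter.Eventually.of_forall fun t h4 => absurd h4 hS
  obtain ⟨ρ, ⟨b1, b2⟩, hρ⟩ := (((e1.and e2).filter_mono (nhdsWithin_le_nhds (s := Set.Ioi 0))).and
    self_mem_nhdsWithin).exists
  have hρ : 0 < ρ := hρ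
  refine ⟨ρ, hρ, fun y hy s hs hs1 hb => ?_⟩
  have hb' : ∀ e, -ρ ≤ s⁻¹ * (y e - x e) := by
    intro e
    rw [inv_mul_eq_div, le_div_iff₀ hs]
    linarith [(abs_le.1 (hb e)).1]
  have hs' : 0 < s⁻¹ := inv_pos.2 hs
  refine ⟨fun e => ?_, fun e he => ?_, fun v hv => ?_, fun S hS hSo => ?_⟩
  · show 0 ≤ x e + s⁻¹ * (y e - x e)
    by_cases he : x e = 0
    · rw [he, zero_add, sub_zero]
      exact mul_nonneg hs'.le (hy.nonneg e)
    · linarith [hb' e, b1 e he]
  · by_cases h0 : x e = 0
    · exact hy.supp e fun h1 => he (by simp [h0, h1])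
    · exact h.supp e h0
  · rw [cut_add, cut_smul, cut_sub, h.deg v hv, hy.deg v hv]
    simp
  · rw [cut_add]
    rcases (h.odd S hS hSo).eq_or_lt with h1 | h1
    · rw [cut_smul, cut_sub, ← h1]
      have := mul_nonneg hs'.le (sub_nonneg.2 (hy.odd S hS hSo))
      linarith
    · have h2 : ∑ _e : E, -ρ ≤ cut ends (s⁻¹ • (y - x)) S := by
        refine sum_le_sum fun e _ => ?_
        split_ifs
        · linarith
        · exact hb' e
      rw [sum_const, card_univ, nsmul_eq_mul] at h2
      linarith [b2 S h1]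

end Crest.Agent.R304
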