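import Crest.Agent.R304.Edm
import Crest.Agent.R304.Lam

/-!
# R304: directions at a point with edges of value one (plan: see `Ent2`)
-/

set_option autoImplicit false
set_option linter.unusedSectionVars false
open Finset

namespace Crest.Agent.R304

variable {V E : Type} [Fintype V] [DecidableEq V] [Fintype E] [DecidableEq E]
variable {ends : E → V × V} {W : Finset V} {x : E → ℝ}

theorem froz_excl (h : Feas ends W x) {e f : E} (hf : x f = 1) (hef : e ≠ f) {v : V}
    (hv : (ends f).1 = v ∨ (ends f).2 = v) (hv' : (ends e).1 = v ∨ (ends e).2 = v) : x e = 0 := by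
  by_contra hne
  obtain ⟨h1, h2, h3⟩ := h.supp f (by rw [hf]; exact one_ne_zero)
  obtain ⟨-, -, h4⟩ := h.supp e hne
  have hvW : v ∈ W := by rcases hv with rfl | rfl <;> assumption
  have hd := h.deg v hvW
  have hle : ∑ g ∈ ({e, f} : Finset E),
      (if ((ends g).1 ∈ ({v} : Finset V) ↔ (ends g).2 ∈ ({v} : Finset V)) then 0 else x g) ≤
      cut ends x {v} := by
    refine Finset.sum_le_sum_of_subset_of_nonneg (Finset.subset_univ _) fun g _ _ => ?_
    split_ifs
    · exact le_rfl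
    · exact h.nonneg g
  rw [Finset.sum_pair hef, if_neg, if_neg, hd, hf] at hle
  · exact hne (le_antisymm (by linarith) (h.nonneg e))
  · simp only [Finset.mem_singleton]
    rintro ⟨h5, h6⟩
    rcases hv with h7 | h7
    · exact h3 (h7.trans (h5 h7).symm)
    · exact h3 ((h6 h7).trans h7.symm)
  · simp only [Finset.mem_singleton]
    rintro ⟨h5, h6⟩
    rcases hv' with h7 | h7
    · exact h4 (h7.trans (h5 h7).symm)
    · exact h4 ((h6 h7).trans h7.symm)

theorem froz_glue {W' : Finset V} (hW : W' ⊆ W) {O : Finset E} (hO : PMon ends (W \ W') O)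
    (hs : Supp ends (W \ W') (chi O)) {y : E → ℝ} (hy : Feas ends W' y) : Feas ends W (chi O + y) := by
  have hchi : ∀ e, 0 ≤ chi O e := fun e => by
    unfold chi
    split_ifs <;> norm_num
  have hemp : ∀ z : E → ℝ, cut ends z ∅ = 0 := fun z => by simp [cut]
  obtain ⟨hd, ho⟩ := cut_ind hO hs
  refine ⟨fun e => add_nonneg (hchi e) (hy.nonneg e), fun e he => ?_, fun v hv => ?_, fun S hS hodd => ?_⟩
  · by_cases h0 : chi O e = 0
    · have h1 : y e ≠ 0 := by simpa [h0] using he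
      obtain ⟨h2, h3, h4⟩ := hy.supp e h1
      exact ⟨hW h2, hW h3, h4⟩
    · obtain ⟨h2, h3, h4⟩ := hs e h0
      exact ⟨(Finset.mem_sdiff.1 h2).1, (Finset.mem_sdiff.1 h3).1, h4⟩
  · rw [cut_add]
    by_cases hv' : v ∈ W'
    · rw [hy.deg v hv', ← cut_inter hs, Finset.singleton_inter_of_notMem (by simp [hv']), hemp,
        zero_add]
    · rw [hd v (Finset.mem_sdiff.2 ⟨hv, hv'⟩), ← cut_inter hy.supp,
        Finset.singleton_inter_of_notMem hv', hemp, add_zero]
  · rw [cut_add]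
    have hc : #(S ∩ (W \ W')) + #(S ∩ W') = #S := by
      rw [← Finset.card_sdiff_add_card_inter S W']
      congr 2
      ext v
      simp only [Finset.mem_inter, Finset.mem_sdiff]
      exact ⟨fun h => ⟨h.1, h.2.2⟩, fun h => ⟨h.1, hS h.1, h.2⟩⟩
    by_cases h1 : Odd #(S ∩ W')
    · have h2 := hy.odd _ Finset.inter_subset_right h1
      rw [cut_inter hy.supp] at h2
      linarith [cut_nonneg (ends := ends) hchi S]
    · have h3 : Odd #(S ∩ (W \ W')) := by
        rw [← hc, Nat.odd_add'] at hodd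
        rw [Nat.not_odd_iff_even] at h1
        by_contra h4
        rw [Nat.not_odd_iff_even] at h4
        exact (Nat.not_odd_iff_even.2 h1) (hodd.2 h4)
      have h2 := ho _ Finset.inter_subset_right h3
      rw [cut_inter hs] at h2
      linarith [cut_nonneg (ends := ends) hy.nonneg S]

theorem frozen (h : Feas ends W x) (hx : ∃ e, x e ≠ 0 ∧ x e ≠ 1) :
    ∃ H : Submodule ℝ (E → ℝ),
      ((univ.filter fun e => x e ≠ 0 ∧ x e ≠ 1).card : ℝ) + 2 ≤
        Module.finrank ℝ H + 3 * ∑ e ∈ univ.filter (fun e => x e ≠ 0 ∧ x e ≠ 1), x e ∧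
      ∀ g ∈ H, ∃ ε : ℝ, 0 < ε ∧ ∀ t : ℝ, |t| < ε → Feas ends W (x + t • g) := by
  classical
  set W' : Finset V := W.filter fun v => ∀ f, x f = 1 → ¬ ((ends f).1 = v ∨ (ends f).2 = v) with hW'
  set x' : E → ℝ := fun e => if x e = 1 then 0 else x e with hx'
  set O : Finset E := univ.filter fun e => x e = 1 with hO
  have hWW : W' ⊆ W := Finset.filter_subset _ _
  have hne : ∀ e, x' e ≠ 0 ↔ x e ≠ 0 ∧ x e ≠ 1 := fun e => by
    simp only [hx']
    split_ifs with h1 <;> simp [h1]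
  have hsupp : Supp ends W' x' := by
    intro e he
    obtain ⟨h0, h1⟩ := (hne e).1 he
    obtain ⟨h2, h3, h4⟩ := h.supp e h0
    refine ⟨Finset.mem_filter.2 ⟨h2, fun f hf hv => h0 ?_⟩, Finset.mem_filter.2 ⟨h3, fun f hf hv => h0 ?_⟩,
      h4⟩
    · exact froz_excl h hf (fun h5 => h1 (h5 ▸ hf)) hv (Or.inl rfl)
    · exact froz_excl h hf (fun h5 => h1 (h5 ▸ hf)) hv (Or.inr rfl)
  have hcut : ∀ S ⊆ W', cut ends x' S = cut ends x S := by
    intro S hS
    refine Finset.sum_congr rfl fun e _ => ?_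
    by_cases h1 : x e = 1
    · have h2 : (ends e).1 ∉ S := fun h3 => (Finset.mem_filter.1 (hS h3)).2 e h1 (Or.inl rfl)
      have h3 : (ends e).2 ∉ S := fun h3 => (Finset.mem_filter.1 (hS h3)).2 e h1 (Or.inr rfl)
      simp [h2, h3]
    · simp [hx', h1]
  have hfeas : Feas ends W' x' := by
    refine ⟨fun e => ?_, hsupp, fun v hv => ?_, fun S hS ho => ?_⟩
    · simp only [hx']
      split_ifs
      · exact le_rfl
      · exact h.nonneg e
    · rw [hcut _ (Finset.singleton_subset_iff.2 hv), h.deg v (hWW hv)]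
    · rw [hcut S hS]
      exact h.odd S (hS.trans hWW) ho
  obtain ⟨e₀, he₀⟩ := hx
  obtain ⟨H, hH, hg⟩ := dir_space hfeas ⟨_, (hsupp e₀ ((hne e₀).2 he₀)).1⟩
  have hPM : PMon ends (W \ W') O := by
    intro w hw
    obtain ⟨hw1, hw2⟩ := Finset.mem_sdiff.1 hw
    have h1 : ∃ f, x f = 1 ∧ ((ends f).1 = w ∨ (ends f).2 = w) := by
      by_contra h2
      exact hw2 (Finset.mem_filter.2 ⟨hw1, fun f hf hv => h2 ⟨f, hf, hv⟩⟩)
    obtain ⟨f, hf, hv⟩ := h1
    refine Finset.card_eq_one.2 ⟨f, Finset.eq_singleton_iff_unique_mem.2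
      ⟨Finset.mem_filter.2 ⟨Finset.mem_filter.2 ⟨Finset.mem_univ _, hf⟩, hv⟩, fun e he => ?_⟩⟩
    obtain ⟨h2, h3⟩ := Finset.mem_filter.1 he
    by_contra h4
    have h5 := froz_excl h hf h4 hv h3
    rw [(Finset.mem_filter.1 h2).2] at h5
    exact one_ne_zero h5
  have hsO : Supp ends (W \ W') (chi O) := by
    intro e he
    have h1 : x e = 1 := by
      by_contra h2
      exact he (by simp [chi, hO, h2])
    obtain ⟨h2, h3, h4⟩ := h.supp e (by rw [h1]; exact one_ne_zero)
    exact ⟨Finset.mem_sdiff.2 ⟨h2, fun h5 => (Finset.mem_filter.1 h5).2 e h1 (Or.inl rfl)⟩,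
      Finset.mem_sdiff.2 ⟨h3, fun h5 => (Finset.mem_filter.1 h5).2 e h1 (Or.inr rfl)⟩, h4⟩
  refine ⟨H, ?_, fun g hgH => ?_⟩
  · have h1 : (univ.filter fun e => x' e ≠ 0) = univ.filter fun e => x e ≠ 0 ∧ x e ≠ 1 :=
      Finset.filter_congr fun e _ => hne e
    have h2 : ∑ e, x' e = ∑ e ∈ univ.filter (fun e => x e ≠ 0 ∧ x e ≠ 1), x e := by
      rw [Finset.sum_filter]
      refine Finset.sum_congr rfl fun e _ => ?_
      simp only [hx']
      by_cases h3 : x e = 1 <;> by_cases h4 : x e = 0 <;> simp [h3, h4]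
    have h3 := hfeas.sum
    rw [h1] at hH
    rw [h2] at h3
    have h4 : (2 * ((univ.filter fun e => x e ≠ 0 ∧ x e ≠ 1).card : ℝ) + 4) ≤
        2 * Module.finrank ℝ H + 3 * W'.card := by exact_mod_cast hH
    linarith
  · obtain ⟨-, ε, hε, hfe⟩ := hg g hgH
    refine ⟨ε, hε, fun t ht => ?_⟩
    have h1 : x + t • g = chi O + (x' + t • g) := by
      funext e
      simp only [Pi.add_apply, chi, hO, hx', Finset.mem_filter, Finset.mem_univ, true_and]
      split_ifs with h2
      · rw [h2]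
        ring
      · ring
    rw [h1]
    exact froz_glue hWW hPM hsO (hfe t ht)

end Crest.Agent.R304
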