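import Crest.Agent.R304.Frame
import Crest.Agent.R304.Froz

/-!
# R304: the entropy bound by a minimum principle

PLAN.  `frozen`: `W'` = vertices of `W` on no edge with `x e = 1`, `x' e = if x e = 1 then 0 else x e`.  An edge `f` with
`x f = 1` exhausts the degree of its ends, so no other support edge meets them; hence `Feas ends W' x'` (cuts of subsets
of `W'` are the same for `x` and `x'`).  If `W'` is empty all `x e ∈ {0,1}`.  Otherwise take `H` from `dir_space` for
`(W', x')`; if `Feas ends W' (x' + t • g)` with `g = 0` outside the support of `x'`, then `edmonds` gives a law `q'` on matchings of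
`W'`, and `M ↦ M ∪ {e | x e = 1}` pushes it to a law on matchings of `W` with marginals `x + t • g` (`Law.feas`).
`|W'| = 2 ∑ x'` by `Feas.sum`.
`Hs x = sSup {ent p | Law ends W p x}` or a chosen `Opt` law; `G x = Hs x - F x + c B x`.  `ent_strict`: the feasible set is
compact (closed, in `[0,1]^E`), `G` is lower semicontinuous on it: for `y` feasible and close to `x`, `y = (1-s) x + s z`
with `z` feasible (`Feas.near`), so `Hs y ≥ (1-s) Hs x` (`edmonds`, `Law.mix`, concavity of `negMulLog`, `ent_nonneg`);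
`LowerSemicontinuousOn.exists_isMinOn`.  At a minimiser `x₀` with optimal law `p`: if all `x₀ e ∈ {0,1}` then `G x₀ = Hs ≥ 0`.
Otherwise take `d, η` from `frame`, `h i = hv p x₀ (η i)` (it vanishes where `x₀ e ∈ {0,1}`, by the Parseval identity);
`0 ≤ ∑ i, (G (x₀ + t h i) + G (x₀ - t h i) - 2 G x₀) ≤ t^2 (-d + ∑_{0<x<1} (1 - x e) - c ∑_{0<x<1} x e) + C |t|^3`
(`Opt.second`, `sec_diff` for `a = x e` and `a = 1 - x e`); with `frozen` and `frame` (`Opt.supp` for the average of the laws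
at `±t`), `d ≥ #{0<x<1} + 2 - 3 m'`, `m' = ∑_{0<x<1} x e`, `0 < m' ≤ m`, so the bracket is `≤ 2 m' - 2 - c m' < 0`.
`ent_bound`: take the optimal law and let `c ↓ 2 - 2/m` (`le_of_forall_pos_le_add`).
-/

set_option autoImplicit false
set_option linter.unusedSectionVars false
open Finset Filter Topology

namespace Crest.Agent.R304

variable {V E : Type} [Fintype V] [DecidableEq V] [Fintype E] [DecidableEq E]
variable {ends : E → V × V} {W : Finset V} {x : E → ℝ}

/-- second order upper bound at `0` -/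
def Ent2Q (f : ℝ → ℝ) (k : ℝ) : Prop := ∃ C : ℝ, ∀ᶠ t in 𝓝 (0 : ℝ), f t ≤ k * t ^ 2 + C * |t| ^ 3

theorem ent2Q_add {f g : ℝ → ℝ} {k l : ℝ} (hf : Ent2Q f k) (hg : Ent2Q g l) :
    Ent2Q (fun t => f t + g t) (k + l) := by
  obtain ⟨C, hC⟩ := hf
  obtain ⟨D, hD⟩ := hg
  refine ⟨C + D, ?_⟩
  filter_upwards [hC, hD] with t h1 h2
  linarith

theorem ent2Q_sum {ι : Type} (s : Finset ι) {f : ι → ℝ → ℝ} {k : ι → ℝ} (h : ∀ i, Ent2Q (f i) (k i)) :
    Ent2Q (fun t => ∑ i ∈ s, f i t) (∑ i ∈ s, k i) := by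
  classical
  induction s using Finset.induction_on with
  | empty => exact ⟨0, by simp⟩
  | insert a s ha ih =>
    simp only [Finset.sum_insert ha]
    exact ent2Q_add (h a) ih

theorem ent2Q_nonneg {f : ℝ → ℝ} {k : ℝ} (hf : Ent2Q f k) (h0 : ∀ᶠ t in 𝓝 (0 : ℝ), 0 ≤ f t) : 0 ≤ k := by
  obtain ⟨C, hC⟩ := hf
  by_contra hk
  push Not at hk
  have h1 : ∀ᶠ t in 𝓝 (0 : ℝ), k + C * t < 0 := by
    have h2 : Continuous fun t : ℝ => k + C * t := by fun_prop
    exact h2.continuousAt.eventually_lt continuousAt_const (by simpa using hk)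
  have h3 : ∀ᶠ t in 𝓝[>] (0 : ℝ), False := by
    filter_upwards [nhdsWithin_le_nhds hC, nhdsWithin_le_nhds h0, nhdsWithin_le_nhds h1,
      self_mem_nhdsWithin] with t h4 h5 h6 h7
    have h8 : 0 < t := h7
    rw [abs_of_pos h8] at h4
    nlinarith [mul_pos_of_neg_of_neg h6 (neg_lt_zero.2 (pow_pos h8 2))]
  exact h3.exists.elim fun _ h => h

theorem ent2_abs_lt {ε : ℝ} (hε : 0 < ε) (h : ℝ) : ∀ᶠ t in 𝓝 (0 : ℝ), |t * h| < ε := by
  have h2 : Continuous fun t : ℝ => |t * h| := by fun_prop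
  exact h2.continuousAt.eventually_lt continuousAt_const (by simpa using hε)

/-- the coordinate function -/
noncomputable def ent2φ (c a : ℝ) : ℝ := c * Real.negMulLog (1 - a) - Real.negMulLog a

theorem ent2Q_phi {c a h : ℝ} (hc : 0 ≤ c) (h0 : 0 ≤ a) (h1 : a ≤ 1) (hh : a * (1 - a) = 0 → h = 0) :
    Ent2Q (fun t => ent2φ c (a + t * h) + ent2φ c (a - t * h) - 2 * ent2φ c a)
      (h ^ 2 * (1 / a - c / (1 - a))) := by
  by_cases ha : a * (1 - a) = 0
  · refine ⟨0, Eventually.of_forall fun t => ?_⟩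
    rw [hh ha]
    simp only [mul_zero, add_zero, sub_zero, ne_eq, OfNat.ofNat_ne_zero, not_false_eq_true, zero_pow,
      zero_mul]
    linarith
  have ha0 : 0 < a := lt_of_le_of_ne h0 fun h => ha (by rw [← h]; ring)
  have ha1 : 0 < 1 - a := lt_of_le_of_ne (by linarith) fun h => ha (by rw [← h]; ring)
  obtain ⟨C, ε, hε, hC⟩ := sec_diff ha0
  obtain ⟨D, δ, hδ, hD⟩ := sec_diff ha1
  refine ⟨(C + c * D) * |h| ^ 3, ?_⟩
  filter_upwards [ent2_abs_lt hε h, ent2_abs_lt hδ h] with t h2 h3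
  have h4 := (abs_le.1 (hC _ h2)).1
  have h5 := mul_le_mul_of_nonneg_left (abs_le.1 (hD _ h3)).2 hc
  rw [abs_mul] at h4 h5
  unfold ent2φ
  have e1 : 1 - (a + t * h) = 1 - a - t * h := by ring
  have e2 : 1 - (a - t * h) = 1 - a + t * h := by ring
  rw [e1, e2]
  have e3 : h ^ 2 * (1 / a - c / (1 - a)) * t ^ 2 = (t * h) ^ 2 / a - c * ((t * h) ^ 2 / (1 - a)) := by
    ring
  rw [e3]
  nlinarith

theorem ent2_mix {p q : Finset E → ℝ} (hp : ∀ M, 0 ≤ p M) (hq : ∀ M, 0 ≤ q M) {a b : ℝ} (ha : 0 ≤ a)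
    (hb : 0 ≤ b) (hab : a + b = 1) : a * ent p + b * ent q ≤ ent (a • p + b • q) := by
  unfold ent
  rw [Finset.mul_sum, Finset.mul_sum, ← Finset.sum_add_distrib]
  exact Finset.sum_le_sum fun M _ => Real.concaveOn_negMulLog.2 (hp M) (hq M) ha hb hab

theorem ent2_cut_cont (S : Finset V) : Continuous fun y : E → ℝ => cut ends y S := by
  unfold cut
  refine continuous_finsetSum _ fun e _ => ?_
  split_ifs
  · exact continuous_const
  · exact continuous_apply e

theorem ent2_compact : IsCompact {y : E → ℝ | Feas ends W y} := by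
  refine IsCompact.of_isClosed_subset (isCompact_Icc (a := 0) (b := 1)) ?_
    fun y hy => ⟨fun e => hy.nonneg e, fun e => hy.le_one e⟩
  refine IsSeqClosed.isClosed fun u y hu hy => ?_
  have hc : ∀ S, Tendsto (fun n => cut ends (u n) S) atTop (𝓝 (cut ends y S)) := fun S =>
    ((ent2_cut_cont S).tendsto y).comp hy
  have he : ∀ e, Tendsto (fun n => u n e) atTop (𝓝 (y e)) := fun e => tendsto_pi_nhds.1 hy e
  refine ⟨fun e => ge_of_tendsto' (he e) fun n => (hu n).nonneg e, fun e h0 => ?_, fun v hv => ?_,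
    fun S hS ho => ge_of_tendsto' (hc S) fun n => (hu n).odd S hS ho⟩
  · obtain ⟨n, hn⟩ := ((he e).eventually_ne h0).exists
    exact (hu n).supp e hn
  · refine tendsto_nhds_unique (hc {v}) ?_
    simp only [fun n => (hu n).deg v hv]
    exact tendsto_const_nhds

theorem ent2_lsc {P : (E → ℝ) → Finset E → ℝ} (hP : ∀ y, Feas ends W y → Opt ends W (P y) y) :
    LowerSemicontinuousOn (fun y => ent (P y)) {y : E → ℝ | Feas ends W y} := by
  intro x hx b hb
  obtain ⟨ρ, hρ, hnear⟩ := Feas.near hx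
  have h1 : ∀ᶠ s in 𝓝 (0 : ℝ), b < (1 - s) * ent (P x) := by
    have h2 : Continuous fun s : ℝ => (1 - s) * ent (P x) := by fun_prop
    exact continuousAt_const.eventually_lt h2.continuousAt (by simpa using hb)
  have h2 : ∀ᶠ s in 𝓝[>] (0 : ℝ), b < (1 - s) * ent (P x) ∧ s < 1 ∧ 0 < s := by
    filter_upwards [nhdsWithin_le_nhds h1, nhdsWithin_le_nhds (eventually_lt_nhds (one_pos (α := ℝ))),
      self_mem_nhdsWithin] with s h3 h4 h5
    exact ⟨h3, h4, h5⟩
  obtain ⟨s, hs, hs1, hs0⟩ := h2.exists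
  filter_upwards [nhdsWithin_le_nhds (Metric.ball_mem_nhds x (mul_pos hρ hs0)), self_mem_nhdsWithin]
    with y hy hyK
  have h3 : ∀ e, |y e - x e| ≤ ρ * s := fun e => by
    rw [← Real.dist_eq]
    exact (dist_le_pi_dist y x e).trans (Metric.mem_ball.1 hy).le
  have hz := hnear y hyK s hs0 hs1.le h3
  have h4 := (hP x hx).law.mix (hP _ hz).law (a := 1 - s) (b := s) (by linarith) hs0.le (by ring)
  have h5 : (1 - s) • x + s • (x + s⁻¹ • (y - x)) = y := by
    funext e
    simp only [Pi.add_apply, Pi.smul_apply, Pi.sub_apply, smul_eq_mul]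
    field_simp
    ring
  rw [h5] at h4
  have h6 := (hP y hyK).max _ h4
  have h7 := ent2_mix (hP x hx).law.nonneg (hP _ hz).law.nonneg (a := 1 - s) (b := s) (by linarith)
    hs0.le (by ring)
  have h8 := mul_nonneg hs0.le (ent_nonneg (hP _ hz).law)
  linarith

theorem ent2_min {m : ℕ} (hm : 1 ≤ m) (hW : W.card = 2 * m) {c : ℝ} (hc : 2 - 2 / (m : ℝ) < c)
    {P : (E → ℝ) → Finset E → ℝ} (hP : ∀ y, Feas ends W y → Opt ends W (P y) y) (hx : Feas ends W x)
    (hmin : ∀ y, Feas ends W y → ent (P x) + ∑ e, ent2φ c (x e) ≤ ent (P y) + ∑ e, ent2φ c (y e)) :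
    ∀ e, x e = 0 ∨ x e = 1 := by
  by_contra hne
  have hm' : (1 : ℝ) ≤ m := by exact_mod_cast hm
  have hc0 : 0 ≤ c := by
    have : 2 / (m : ℝ) ≤ 2 := by
      rw [div_le_iff₀ (by linarith)]
      linarith
    linarith
  have hex : ∃ e, x e ≠ 0 ∧ x e ≠ 1 := by
    push Not at hne
    exact hne
  obtain ⟨H, hH, hdir⟩ := frozen hx hex
  obtain ⟨d, η, hη, hpar, hrank⟩ := frame (hP x hx).law
  have hd : Module.finrank ℝ H ≤ d := by
    refine hrank H fun g hg => ?_
    obtain ⟨ε, hε, hfe⟩ := hdir g hg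
    have h1 := hfe (ε / 2) (by rw [abs_of_pos (by linarith)]; linarith)
    have h2 := hfe (-(ε / 2)) (by rw [abs_neg, abs_of_pos (by linarith)]; linarith)
    refine ⟨ε / 2, by positivity, P _, (hP _ h1).law, fun M hM => ?_⟩
    have h4 := (hP _ h1).law.mix (hP _ h2).law (a := 1 / 2) (b := 1 / 2) (by norm_num) (by norm_num)
      (by norm_num)
    have h5 : (1 / 2 : ℝ) • (x + (ε / 2) • g) + (1 / 2 : ℝ) • (x + (-(ε / 2)) • g) = x := by
      funext e
      simp only [Pi.add_apply, Pi.smul_apply, smul_eq_mul]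
      ring
    rw [h5] at h4
    have h6 := (hP x hx).supp h4 hM
    simp only [Pi.add_apply, Pi.smul_apply, smul_eq_mul] at h6
    linarith [(hP _ h1).law.nonneg M, (hP _ h2).law.nonneg M]
  have hzero : ∀ i e, x e * (1 - x e) = 0 → hv (P x) x (η i) e = 0 := by
    intro i e h0
    have h1 := hpar e
    rw [h0, Finset.sum_eq_zero_iff_of_nonneg fun i _ => sq_nonneg _] at h1
    exact pow_eq_zero_iff two_ne_zero |>.1 (h1 i (Finset.mem_univ _))
  have hk : ∀ i, 0 ≤ -1 + ∑ e, hv (P x) x (η i) e ^ 2 * (1 / x e - c / (1 - x e)) := by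
    intro i
    set g := hv (P x) x (η i) with hg
    obtain ⟨C, ε, hε, hsec⟩ := (hP x hx).second (η i)
    have hfe : ∀ t, |t| < ε → Feas ends W (x + t • g) := by
      intro t ht
      obtain ⟨q, hq⟩ := (hsec t ht).1
      refine hq.feas fun e he => hx.supp e fun h0 => he ?_
      have h1 := hzero i e (by rw [h0, zero_mul])
      simp [h0, h1]
    have hfe' : ∀ t, |t| < ε → Feas ends W (x - t • g) := by
      intro t ht
      have := hfe (-t) (by rwa [abs_neg])
      rwa [neg_smul, ← sub_eq_add_neg] at this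
    have hev : ∀ᶠ t in 𝓝 (0 : ℝ), |t| < ε := by simpa using ent2_abs_lt hε 1
    have hQ1 : Ent2Q (fun t => ent (P (x + t • g)) + ent (P (x - t • g)) - 2 * ent (P x)) (-1) := by
      refine ⟨C, ?_⟩
      filter_upwards [hev] with t ht
      have h1 := (hsec t ht).2 _ _ (hP _ (hfe t ht)).law (hP _ (hfe' t ht)).law
      rw [hη i] at h1
      linarith
    have hQ2 := ent2Q_sum Finset.univ fun e =>
      ent2Q_phi (h := g e) hc0 (hx.nonneg e) (hx.le_one e) (hzero i e)
    refine ent2Q_nonneg (ent2Q_add hQ1 hQ2) ?_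
    filter_upwards [hev] with t ht
    have h1 := hmin _ (hfe t ht)
    have h2 := hmin _ (hfe' t ht)
    simp only [Pi.add_apply, Pi.sub_apply, Pi.smul_apply, smul_eq_mul] at h1 h2
    rw [Finset.sum_sub_distrib, Finset.sum_add_distrib, ← Finset.mul_sum]
    linarith
  have hsum := Finset.sum_nonneg (s := Finset.univ) fun i _ => hk i
  rw [Finset.sum_add_distrib, Finset.sum_comm] at hsum
  set N := univ.filter fun e => x e ≠ 0 ∧ x e ≠ 1 with hN
  have h1 : ∑ e, ∑ i, hv (P x) x (η i) e ^ 2 * (1 / x e - c / (1 - x e)) =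
      #N - (1 + c) * ∑ e ∈ N, x e := by
    rw [Finset.card_eq_sum_ones, Finset.mul_sum]
    push_cast
    rw [← Finset.sum_sub_distrib, hN, Finset.sum_filter]
    refine Finset.sum_congr rfl fun e _ => ?_
    rw [← Finset.sum_mul, hpar e]
    split_ifs with h2
    · have h3 := h2.1
      have h4 : 1 - x e ≠ 0 := sub_ne_zero.2 h2.2.symm
      field_simp
      ring
    · by_cases h3 : x e = 0
      · simp [h3]
      · have h4 : x e = 1 := by
          by_contra h5
          exact h2 ⟨h3, h5⟩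
        simp [h4]
  rw [h1] at hsum
  simp only [Finset.sum_const, Finset.card_univ, Fintype.card_fin, nsmul_eq_mul] at hsum
  have h2 : 0 ≤ ∑ e ∈ N, x e := Finset.sum_nonneg fun e _ => hx.nonneg e
  have h3 : ∑ e ∈ N, x e ≤ m := by
    have h4 := hx.sum
    rw [hW] at h4
    push_cast at h4
    have h5 : ∑ e ∈ N, x e ≤ ∑ e, x e :=
      Finset.sum_le_sum_of_subset_of_nonneg (Finset.subset_univ _) fun e _ _ => hx.nonneg e
    linarith
  have hd' : (Module.finrank ℝ H : ℝ) ≤ d := by exact_mod_cast hd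
  have h6 : 2 ≤ (2 - c) * ∑ e ∈ N, x e := by linarith
  have h7 : (2 - c) * m < 2 := by
    rw [← lt_div_iff₀ (by linarith)]
    linarith
  rcases le_total 0 (2 - c) with h8 | h8
  · nlinarith
  · nlinarith

theorem ent_strict {m : ℕ} (hm : 1 ≤ m) (hW : W.card = 2 * m) {c : ℝ} (hc : 2 - 2 / (m : ℝ) < c)
    {p : Finset E → ℝ} (hp : Opt ends W p x) (hs : Supp ends W x) :
    ∑ e, Real.negMulLog (x e) - c * ∑ e, Real.negMulLog (1 - x e) ≤ ent p := by
  have hP : ∀ y : E → ℝ, ∃ q, Feas ends W y → Opt ends W q y := by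
    intro y
    by_cases hy : Feas ends W y
    · obtain ⟨q, hq⟩ := edmonds hy
      obtain ⟨q', hq'⟩ := opt_exists hq
      exact ⟨q', fun _ => hq'⟩
    · exact ⟨0, fun h => absurd h hy⟩
  choose P hP using hP
  have hx := hp.law.feas hs
  have hcont : Continuous fun y : E → ℝ => ∑ e, ent2φ c (y e) := by
    unfold ent2φ
    fun_prop
  obtain ⟨x₀, hx₀, hmin⟩ := LowerSemicontinuousOn.exists_isMinOn ⟨x, hx⟩ ent2_compact
    ((ent2_lsc hP).add hcont.continuousOn.lowerSemicontinuousOn)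
  have h01 := ent2_min hm hW hc hP hx₀ fun y hy => hmin hy
  have h1 : ∑ e, ent2φ c (x₀ e) = 0 := Finset.sum_eq_zero fun e _ => by
    rcases h01 e with h | h <;> simp [ent2φ, h]
  have h2 : ent (P x₀) + ∑ e, ent2φ c (x₀ e) ≤ ent (P x) + ∑ e, ent2φ c (x e) := hmin hx
  have h3 := ent_nonneg (hP x₀ hx₀).law
  have h4 := hp.max _ (hP x hx).law
  have h5 : ∑ e, ent2φ c (x e) = c * ∑ e, Real.negMulLog (1 - x e) - ∑ e, Real.negMulLog (x e) := by
    unfold ent2φ
    rw [Finset.sum_sub_distrib, Finset.mul_sum]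
  linarith


theorem ent_bound {m : ℕ} (hm : 1 ≤ m) (hW : W.card = 2 * m) {p : Finset E → ℝ} (hp : Law ends W p x)
    (hs : Supp ends W x) : ∃ q, Law ends W q x ∧
      ∑ e, Real.negMulLog (x e) - (2 - 2 / (m : ℝ)) * ∑ e, Real.negMulLog (1 - x e) ≤ ent q := by
  obtain ⟨q, hq⟩ := opt_exists hp
  refine ⟨q, hq.law, le_of_forall_pos_le_add fun δ hδ => ?_⟩
  set B := ∑ e, Real.negMulLog (1 - x e) with hB
  have h1 := ent_strict hm hW (c := 2 - 2 / (m : ℝ) + δ / (|B| + 1))
    (by have : 0 < δ / (|B| + 1) := by positivity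
        linarith) hq hs
  have h2 : δ / (|B| + 1) * B ≤ δ := by
    rw [div_mul_eq_mul_div, div_le_iff₀ (by positivity)]
    nlinarith [le_abs_self B]
  rw [← hB] at h1
  linarith

end Crest.Agent.R304
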