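import Crest.Agent.R304.GR
import Crest.Agent.R309.Range

/-!
# R304: minimal minimum cuts by augmenting paths

The arcs are all pairs `e = u * n + v` with tail `u`, head `v` and capacity `gn c e`.

PLAN.  `WF (cI n c)`.  For a set `T` and `y` within the capacities, `sum_exc` gives `∑_{v ∈ T} exc y v = ∑ e, sg e * y e ≤ cutN T` (reindex `range (n*n)` by
`finProdFinEquiv` or `Nat.divMod`).  Invariant after `k` steps: `InCap y`, `exc y w = val * (1[w=a] - 1[w=b])` with `val = k`, or with `b` unlabelled in the
push from `y` (then `y` is a fixed point); `push_lab`, `push_incap`.  If some cut has value `< K`, then after `K` steps `b` is unlabelled (otherwise `val = K` or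
more).  For the labelled set `U`: `a ∈ U` (`push_init`), `push_closed` shows that the arcs leaving `U` are full and those entering are empty, so
`cutN U = val`.  If `v ∈ U` has the label `y'`, `T` is a cut with `cutN T ≤ val` and `v ∉ T`, then `∑_{w ∈ T} exc y' w = val + 1 ≤ cutN T`, a contradiction.
`PT.mcut`: `PT.iterate`; the iterates are within the capacities (`push_incap` needs no hypothesis on `c`), see `sz_incap` in `R309/Flow.lean`.
-/

set_option autoImplicit false
set_option linter.unusedSectionVars false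
open Finset Crest.Agent.PTime Crest.Agent.R309

namespace Crest.Agent.R304

def cI (n : ℕ) (c : List ℕ) : Inst :=
  ((List.range (n * n)).map (· / n), (List.range (n * n)).map (· % n), (List.range (n * n)).map (gn c), List.replicate n 0)

def ffL (n : ℕ) (c : List ℕ) (a : ℕ) (y : List ℤ) : Labs := push (cI n c) y 1 (n * n) fun v => decide (v = a)

def ffS (n : ℕ) (c : List ℕ) (a b : ℕ) (y : List ℤ) : List ℤ := (lab (ffL n c a y) b).getD y

/-- the vertices reachable from `a` after at most `K` augmentations -/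
def mcut (n : ℕ) (c : List ℕ) (K a b : ℕ) : List ℕ :=
  (List.range n).filter fun v => (lab (ffL n c a ((ffS n c a b)^[K] (List.replicate (n * n) 0))) v).isSome

/-- the set of vertices given by a list -/
def toF (n : ℕ) (S : List ℕ) : Finset (Fin n) := univ.filter fun v => v.val ∈ S

def capA (n : ℕ) (c : List ℕ) (u v : Fin n) : ℕ := gn c (u * n + v)

theorem ff_nE (n : ℕ) (c : List ℕ) : nE (cI n c) = n * n := by simp [nE, cI]

theorem ff_nV (n : ℕ) (c : List ℕ) : nV (cI n c) = n := by simp [nV, cI]

theorem ff_tl {n : ℕ} (c : List ℕ) {e : ℕ} (h : e < n * n) : tl (cI n c) e = e / n := by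
  simp [tl, cI, List.getD_eq_getElem?_getD, h]

theorem ff_hd {n : ℕ} (c : List ℕ) {e : ℕ} (h : e < n * n) : hd (cI n c) e = e % n := by
  simp [hd, cI, List.getD_eq_getElem?_getD, h]

theorem ff_cap {n : ℕ} (c : List ℕ) {e : ℕ} (h : e < n * n) : cap (cI n c) e = gn c e := by
  simp [cap, cI, List.getD_eq_getElem?_getD, h]

theorem ff_wf (n : ℕ) (c : List ℕ) : WF (cI n c) := by
  intro e he
  rw [ff_nE] at he
  have hn : 0 < n := Nat.pos_of_ne_zero fun h => by simp [h] at he
  rw [ff_tl c he, ff_hd c he, ff_nV]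
  exact ⟨Nat.div_lt_of_lt_mul he, Nat.mod_lt _ hn⟩

theorem ff_sum (n : ℕ) (F : ℕ → ℤ) :
    ∑ e ∈ range (n * n), F e = ∑ u : Fin n, ∑ v : Fin n, F (u * n + v) := by
  rw [Finset.sum_range, ← finProdFinEquiv.sum_comp, Fintype.sum_prod_type]
  refine sum_congr rfl fun u _ => sum_congr rfl fun v _ => ?_
  rw [finProdFinEquiv_apply_val, add_comm, mul_comm]

theorem ff_cut (n : ℕ) (c : List ℕ) (U : ℕ → Bool) :
    (cutN (capA n c) (univ.filter fun v : Fin n => U v = true) : ℤ) = ∑ e ∈ range (nE (cI n c)),
      if U (tl (cI n c) e) = true ∧ U (hd (cI n c) e) = false then (cap (cI n c) e : ℤ) else 0 := by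
  rw [gr_cutN_eq, ff_nE, ff_sum]
  push_cast
  refine sum_congr rfl fun u _ => sum_congr rfl fun v _ => ?_
  have hn : 0 < n := u.pos
  have h : (u : ℕ) * n + v < n * n := by
    have := u.2; have := v.2; nlinarith
  have h1 : ((u : ℕ) * n + v) / n = u := by
    rw [add_comm, Nat.add_mul_div_right _ _ hn, Nat.div_eq_of_lt v.2, zero_add]
  have h2 : ((u : ℕ) * n + v) % n = v := by
    rw [add_comm, Nat.add_mul_mod_self_right, Nat.mod_eq_of_lt v.2]
  rw [ff_tl c h, ff_hd c h, ff_cap c h, h1, h2]
  simp [capA]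

theorem ff_weak {n : ℕ} {c : List ℕ} {y : List ℤ} (hy : InCap (cI n c) y) (U : ℕ → Bool) :
    ∑ v ∈ range n, (if U v = true then exc (cI n c) y v else 0) ≤
      (cutN (capA n c) (univ.filter fun v : Fin n => U v = true) : ℤ) := by
  have := sum_exc (ff_wf n c) U y
  rw [ff_nV] at this
  rw [this, ff_cut]
  refine sum_le_sum fun e he => ?_
  have h := hy.2 e (mem_range.1 he)
  unfold sg
  cases U (tl (cI n c) e) <;> cases U (hd (cI n c) e) <;> simp <;> omega

theorem ff_ind {n : ℕ} (U : ℕ → Bool) {a : ℕ} (ha : a < n) (hU : U a = true) {b : ℕ} (hb : U b = false)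
    (k : ℤ) : ∑ v ∈ range n, (if U v = true then
      k * ((if v = a then 1 else 0) - (if v = b then 1 else 0)) else 0) = k := by
  rw [sum_eq_single a]
  · have : a ≠ b := fun h => by rw [h, hb] at hU; exact Bool.false_ne_true hU
    simp [hU, this]
  · intro v _ hv
    by_cases h : v = b
    · simp [h, hb]
    · simp [hv, h]
  · intro h; exact absurd (mem_range.2 ha) h

theorem ff_ofT {n : ℕ} (T : Finset (Fin n)) :
    ∃ U : ℕ → Bool, T = univ.filter (fun v : Fin n => U v = true) ∧ ∀ v : Fin n, U v = true ↔ v ∈ T :=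
  ⟨fun v => decide (∃ h : v < n, (⟨v, h⟩ : Fin n) ∈ T), by ext v; simp, fun v => by simp⟩

theorem ff_incap (n : ℕ) (c : List ℕ) (a b k : ℕ) :
    InCap (cI n c) ((ffS n c a b)^[k] (List.replicate (n * n) 0)) := by
  induction k with
  | zero =>
    refine ⟨by simp [ff_nE], fun e he => ?_⟩
    rw [ff_nE] at he
    simp [gz, List.getD_eq_getElem?_getD, he]
  | succ k ih =>
    rw [Function.iterate_succ_apply', ffS]
    cases h : lab (ffL n c a ((ffS n c a b)^[k] (List.replicate (n * n) 0))) b with
    | none => exact ih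
    | some y => exact push_incap ih _ _ _ h

theorem ff_inv (n : ℕ) (c : List ℕ) (a b k : ℕ) : ∃ val : ℤ,
    (∀ w, exc (cI n c) ((ffS n c a b)^[k] (List.replicate (n * n) 0)) w =
      val * ((if w = a then 1 else 0) - (if w = b then 1 else 0))) ∧
    (val = k ∨ lab (ffL n c a ((ffS n c a b)^[k] (List.replicate (n * n) 0))) b = none) := by
  induction k with
  | zero =>
    refine ⟨0, fun w => ?_, Or.inl rfl⟩
    rw [zero_mul]
    refine sum_eq_zero fun e he => ?_
    rw [mem_range, ff_nE] at he
    simp [gz, List.getD_eq_getElem?_getD, he]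
  | succ k ih =>
    obtain ⟨val, h1, h2⟩ := ih
    rw [Function.iterate_succ_apply']
    cases h : lab (ffL n c a ((ffS n c a b)^[k] (List.replicate (n * n) 0))) b with
    | none =>
      have e : ffS n c a b ((ffS n c a b)^[k] (List.replicate (n * n) 0)) =
          (ffS n c a b)^[k] (List.replicate (n * n) 0) := by
        conv_lhs => rw [ffS, h]
        rfl
      rw [e]
      exact ⟨val, h1, Or.inr h⟩
    | some y =>
      have e : ffS n c a b ((ffS n c a b)^[k] (List.replicate (n * n) 0)) = y := by
        conv_lhs => rw [ffS, h]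
        rfl
      rw [e]
      obtain ⟨-, a', -, h4, h5⟩ := push_lab (ff_wf n c) (ff_incap n c a b k) _ _ _ h
      have h4' : a' = a := by simpa using h4
      subst h4'
      have hv : val = k := h2.resolve_right (by rw [h]; simp)
      refine ⟨val + 1, fun w => ?_, Or.inl (by rw [hv]; simp)⟩
      rw [h5, h1]
      push_cast
      ring

theorem ff_sz {I : Inst} {x : List ℤ} (hx : InCap I x) :
    sz x ≤ nE I * (4 * sz I + 5 + 1) + 1 := by
  rw [← hx.1]
  refine sz_list_le fun z hz => sz_int_le ?_
  obtain ⟨e, he, rfl⟩ := List.getElem_of_mem hz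
  have he' : e < nE I := hx.1 ▸ he
  have h1 := hx.2 e he'
  have h2 : gz x e = x[e] := List.getD_eq_getElem _ _ he
  have h3 : cap I e = I.2.2.1[e]'he' := List.getD_eq_getElem _ _ he'
  have h4 := lt_two_pow_sz (cap I e)
  have h5 : sz (cap I e) ≤ sz I := by
    have a1 := sz_mem (List.getElem_mem (l := I.2.2.1) he')
    have a2 := sz_prod I
    have a3 := sz_prod I.2
    have a4 := sz_prod I.2.2
    rw [h3]
    omega
  have h6 : 2 ^ sz (cap I e) ≤ 2 ^ sz I := Nat.pow_le_pow_right (by norm_num) h5
  omega

theorem mcut_spec {n : ℕ} (c : List ℕ) (K : ℕ) (a b : Fin n)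
    (h : ∃ T, a ∈ T ∧ b ∉ T ∧ cutN (capA n c) T < K) : MinCut (capA n c) a b (toF n (mcut n c K a b)) := by
  obtain ⟨val, h1, h2⟩ := ff_inv n c a b K
  have hy := ff_incap n c a b K
  unfold mcut
  generalize (ffS n c a b)^[K] (List.replicate (n * n) 0) = y at h1 h2 hy
  have weak : ∀ T : Finset (Fin n), a ∈ T → b ∉ T → val ≤ cutN (capA n c) T := by
    intro T ha hb
    obtain ⟨U, hU1, hU2⟩ := ff_ofT T
    have := ff_weak hy U
    simp only [h1] at this
    rwa [ff_ind U a.2 ((hU2 a).2 ha) (by simpa using fun h => hb ((hU2 b).1 h)), ← hU1] at this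
  have hb : lab (ffL n c a y) b = none := by
    refine h2.resolve_left fun hv => ?_
    obtain ⟨T, t1, t2, t3⟩ := h
    have := weak T t1 t2
    omega
  set U : ℕ → Bool := fun v => (lab (ffL n c a y) v).isSome with hU
  have hT : toF n ((List.range n).filter U) = univ.filter fun v : Fin n => U v = true := by
    ext v; simp [toF]
  have hUa : U a = true := push_init y 1 (n * n) _ (by rw [ff_nV]; exact a.2) (by simp)
  have hUb : U b = false := by simp [hU, hb]
  have hval : (cutN (capA n c) (univ.filter fun v : Fin n => U v = true) : ℤ) = val := by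
    have := sum_exc (ff_wf n c) U y
    simp only [h1] at this
    rw [ff_nV, ff_ind U a.2 hUa hUb] at this
    rw [this, ff_cut]
    refine sum_congr rfl fun e he => ?_
    have he' := mem_range.1 he
    have g1 := hy.2 e he'
    have g2 : (U (tl (cI n c) e) = true → U (hd (cI n c) e) = false → _) ∧
        (U (hd (cI n c) e) = true → U (tl (cI n c) e) = false → _) :=
      push_closed (ff_wf n c) hy 1 (n * n) (fun v => decide (v = (a : ℕ))) he'
        (by rw [ff_nE] at he'; omega)
    unfold sg
    cases e1 : U (tl (cI n c) e) <;> cases e2 : U (hd (cI n c) e) <;> simp [e1, e2] at g2 ⊢ <;> omega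
  rw [hT]
  refine ⟨by simp [hUa], by simp [hUb], fun T ha hb => ?_, fun T ha hb hc v hv => ?_⟩
  · have := weak T ha hb
    omega
  · by_contra hvT
    obtain ⟨y', hy'⟩ := Option.isSome_iff_exists.1 (mem_filter.1 hv).2
    obtain ⟨-, a', -, h4, h5⟩ := push_lab (ff_wf n c) hy _ _ _ hy'
    have h4' : a' = a := by simpa using h4
    subst h4'
    obtain ⟨W, hW1, hW2⟩ := ff_ofT T
    have := ff_weak (push_incap hy _ _ _ hy') W
    have e : ∀ w, (if W w = true then exc (cI n c) y' w else 0) =
        (if W w = true then val * ((if w = a then 1 else 0) - (if w = b then 1 else 0)) else 0) +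
        (if W w = true then 1 * ((if w = a then 1 else 0) - (if w = v then 1 else 0)) else 0) := by
      intro w
      rw [h5, h1]
      split_ifs <;> simp
    simp only [e] at this
    rw [sum_add_distrib, ff_ind W a.2 ((hW2 a).2 ha) (by simpa using fun h => hb ((hW2 b).1 h)),
      ff_ind W a.2 ((hW2 a).2 ha) (by simpa using fun h => hvT ((hW2 v).1 h)), ← hW1] at this
    omega

theorem PT.cI {α : Type} [Enc α] {n : α → ℕ} {c : α → List ℕ} (hn : PT n) (hn' : PB n) (hc : PT c) :
    PT (fun x => R304.cI (n x) (c x)) := by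
  unfold R304.cI
  refine PT.pair ?_ (PT.pair ?_ (PT.pair ?_ (by fun_prop)))
  · exact PT.map (f := fun x e => e / n x) (by fun_prop) (by fun_prop)
  · exact PT.map (f := fun x e => e % n x) (by fun_prop) (by fun_prop)
  · exact PT.map (f := fun x e => gn (c x) e) (by fun_prop) (by fun_prop)

theorem PT.ffL {α : Type} [Enc α] {n a : α → ℕ} {c : α → List ℕ} {y : α → List ℤ} (hn : PT n) (hn' : PB n)
    (hc : PT c) (ha : PT a) (hy : PT y) : PT (fun x => R304.ffL (n x) (c x) (a x) (y x)) := by
  unfold R304.ffL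
  exact PT.push (init := fun x v => decide (v = a x)) (PT.cI hn hn' hc) hy (by fun_prop) (by fun_prop)
    (by fun_prop)

theorem PT.mcut {α : Type} [Enc α] {n K a b : α → ℕ} {c : α → List ℕ} (hn : PT n) (hn' : PB n) (hc : PT c) (hK : PT K)
    (hK' : PB K) (ha : PT a) (hb : PT b) : PT (fun x => R304.mcut (n x) (c x) (K x) (a x) (b x)) := by
  unfold R304.mcut
  have hI := PT.cI hn hn' hc
  have hit : PT (fun x => (ffS (n x) (c x) (a x) (b x))^[K x] (List.replicate (n x * n x) 0)) := by
    refine PT.iterate (f := fun x => ffS (n x) (c x) (a x) (b x)) ?_ (by fun_prop) hK hK'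
      (B := fun x => nE (R304.cI (n x) (c x)) * (4 * sz (R304.cI (n x) (c x)) + 5 + 1) + 1) (by fun_prop)
      fun x i _ => ff_sz (ff_incap _ _ _ _ _)
    unfold ffS
    exact PT.getD_option (PT.lab (PT.ffL (by fun_prop) (by fun_prop) (by fun_prop) (by fun_prop)
      (by fun_prop)) (by fun_prop)) (by fun_prop)
  have hL := PT.ffL hn hn' hc ha hit
  refine PT.filter (f := fun x v => (lab (R304.ffL (n x) (c x) (a x)
    ((ffS (n x) (c x) (a x) (b x))^[K x] (List.replicate (n x * n x) 0))) v).isSome) ?_ (by fun_prop)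
  exact PT.isSome (PT.lab (hL.comp (g := Prod.fst) (by fun_prop)) (by fun_prop))

end Crest.Agent.R304
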