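import Crest.Agent.R304.Ent1

/-!
# R304: second differences and an orthonormal frame (plan: see `Ent1`)
-/

set_option autoImplicit false
open Finset

namespace Crest.Agent.R304

variable {V E : Type} [Fintype V] [DecidableEq V] [Fintype E] [DecidableEq E]
variable {ends : E → V × V} {W : Finset V} {x : E → ℝ} {p : Finset E → ℝ}

private theorem log_cubic {u : ℝ} (hu : |u| ≤ 1 / 2) : |u + u ^ 2 / 2 + Real.log (1 - u)| ≤ 2 * |u| ^ 3 := by
  have h1 := Real.abs_log_sub_add_sum_range_le (x := u) (by linarith) 2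
  simp only [sum_range_succ, range_zero, sum_empty] at h1
  have h2 : |u| ^ (2 + 1) / (1 - |u|) ≤ 2 * |u| ^ 3 := by
    rw [div_le_iff₀ (by linarith)]
    have h3 : 0 ≤ |u| ^ 3 := by positivity
    have h4 := mul_le_mul_of_nonneg_left hu h3
    norm_num
    linarith
  refine le_trans (le_of_eq ?_) (h1.trans h2)
  congr 1
  push_cast
  ring

theorem sec_diff {a : ℝ} (ha : 0 < a) : ∃ C ε : ℝ, 0 < ε ∧ ∀ b : ℝ, |b| < ε →
    |Real.negMulLog (a + b) + Real.negMulLog (a - b) - 2 * Real.negMulLog a + b ^ 2 / a| ≤ C * |b| ^ 3 := by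
  refine ⟨4 / a ^ 2, a / 2, by positivity, fun b hb => ?_⟩
  obtain ⟨u, rfl⟩ : ∃ u, b = a * u := ⟨b / a, by field_simp⟩
  rw [abs_mul, abs_of_pos ha] at hb ⊢
  have hu : |u| ≤ 1 / 2 := by
    by_contra hn
    push Not at hn
    nlinarith
  have hu' := abs_le.1 hu
  have h1 := log_cubic hu
  have h2 := log_cubic (u := -u) (by rwa [abs_neg])
  rw [abs_neg, sub_neg_eq_add] at h2
  have e1 : a + a * u = a * (1 + u) := by ring
  have e2 : a - a * u = a * (1 - u) := by ring
  have l1 : Real.log (a * (1 + u)) = Real.log a + Real.log (1 + u) :=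
    Real.log_mul ha.ne' (by linarith [hu'.1])
  have l2 : Real.log (a * (1 - u)) = Real.log a + Real.log (1 - u) :=
    Real.log_mul ha.ne' (by linarith [hu'.2])
  have key : Real.negMulLog (a + a * u) + Real.negMulLog (a - a * u) - 2 * Real.negMulLog a + (a * u) ^ 2 / a =
      -(a * (1 + u) * (-u + (-u) ^ 2 / 2 + Real.log (1 + u))) -
        a * (1 - u) * (u + u ^ 2 / 2 + Real.log (1 - u)) := by
    rw [e1, e2]
    unfold Real.negMulLog
    rw [l1, l2]
    field_simp
    ring
  rw [key]
  refine (abs_sub _ _).trans ?_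
  rw [abs_neg, abs_mul, abs_mul (a * (1 - u)), abs_of_nonneg (mul_nonneg ha.le (by linarith [hu'.1])),
    abs_of_nonneg (mul_nonneg ha.le (by linarith [hu'.2] : (0 : ℝ) ≤ 1 - u))]
  have h3 := mul_le_mul_of_nonneg_left h1 (mul_nonneg ha.le (by linarith [hu'.2] : (0 : ℝ) ≤ 1 - u))
  have h4 := mul_le_mul_of_nonneg_left h2 (mul_nonneg ha.le (by linarith [hu'.1] : (0 : ℝ) ≤ 1 + u))
  have e3 : 4 / a ^ 2 * (a * |u|) ^ 3 = a * (1 + u) * (2 * |u| ^ 3) + a * (1 - u) * (2 * |u| ^ 3) := by
    field_simp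
    ring
  rw [e3]
  linarith

private noncomputable def vv (p : Finset E → ℝ) (x : E → ℝ) (e : E) : EuclideanSpace ℝ (Finset E) :=
  WithLp.toLp 2 fun M => √(p M) * (chi M e - x e)

private theorem var_chi (h : Law ends W p x) (e : E) : ∑ M, p M * (chi M e - x e) ^ 2 = x e * (1 - x e) := by
  have h1 : ∀ M, p M * (chi M e - x e) ^ 2 = (1 - 2 * x e) * (p M * chi M e) + x e ^ 2 * p M := by
    intro M
    unfold chi
    split_ifs <;> ring
  simp only [h1]
  rw [sum_add_distrib, ← mul_sum, ← mul_sum, ← mrg_eq, h.marg, h.total]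
  ring

theorem frame (h : Law ends W p x) : ∃ (d : ℕ) (η : Fin d → E → ℝ), (∀ i, ∑ M, p M * fv x (η i) M ^ 2 = 1) ∧
    (∀ e, ∑ i, hv p x (η i) e ^ 2 = x e * (1 - x e)) ∧
    ∀ H : Submodule ℝ (E → ℝ), (∀ g ∈ H, ∃ t : ℝ, t ≠ 0 ∧ ∃ q, Law ends W q (x + t • g) ∧ ∀ M, p M = 0 → q M = 0) →
      Module.finrank ℝ H ≤ d := by
  set U : Submodule ℝ (EuclideanSpace ℝ (Finset E)) := Submodule.span ℝ (Set.range (vv p x)) with hU
  let b := stdOrthonormalBasis ℝ U
  have hb : ∀ i, ∃ c : E → ℝ, ∑ e, c e • vv p x e = (b i : EuclideanSpace ℝ (Finset E)) := fun i =>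
    (Submodule.mem_span_range_iff_exists_fun ℝ).1 (b i).2
  choose η hη using hb
  have hsq : ∀ M, √(p M) * √(p M) = p M := fun M => Real.mul_self_sqrt (h.nonneg M)
  have hbM : ∀ i M, (b i : EuclideanSpace ℝ (Finset E)) M = √(p M) * fv x (η i) M := by
    intro i M
    rw [← hη i]
    unfold fv
    simp only [WithLp.ofLp_sum, WithLp.ofLp_smul, Finset.sum_apply, Pi.smul_apply, smul_eq_mul, vv, mul_sum]
    refine sum_congr rfl fun e _ => ?_
    ring
  have hvU : ∀ e, vv p x e ∈ U := fun e => Submodule.subset_span ⟨e, rfl⟩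
  have hin : ∀ i e, hv p x (η i) e = inner ℝ (b i) (⟨vv p x e, hvU e⟩ : U) := by
    intro i e
    rw [Submodule.coe_inner, PiLp.inner_apply]
    unfold hv
    refine sum_congr rfl fun M _ => ?_
    rw [hbM]
    simp only [vv, RCLike.inner_apply, conj_trivial]
    calc p M * fv x (η i) M * (chi M e - x e) = √(p M) * √(p M) * fv x (η i) M * (chi M e - x e) := by rw [hsq]
      _ = _ := by ring
  refine ⟨Module.finrank ℝ U, η, fun i => ?_, fun e => ?_, fun H hH => ?_⟩
  · have h1 : ‖(b i : EuclideanSpace ℝ (Finset E))‖ = 1 := b.orthonormal.1 i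
    have h2 := EuclideanSpace.real_norm_sq_eq (b i : EuclideanSpace ℝ (Finset E))
    rw [h1, one_pow] at h2
    rw [h2]
    refine sum_congr rfl fun M _ => ?_
    rw [hbM, mul_pow, Real.sq_sqrt (h.nonneg M)]
  · simp only [hin]
    rw [b.sum_sq_inner_right, ← var_chi h e]
    change ‖vv p x e‖ ^ 2 = _
    rw [EuclideanSpace.real_norm_sq_eq]
    refine sum_congr rfl fun M _ => ?_
    simp only [vv]
    rw [mul_pow, Real.sq_sqrt (h.nonneg M)]
  · have hle : H ≤ Submodule.span ℝ (Set.range fun i => hv p x (η i)) := by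
      intro g hg
      obtain ⟨t, ht, q, hq, hq0⟩ := hH g hg
      let z : EuclideanSpace ℝ (Finset E) := WithLp.toLp 2 fun M => q M / √(p M)
      have hz : ∀ e, inner ℝ z (vv p x e) = t * g e := by
        intro e
        rw [PiLp.inner_apply]
        have h1 : ∀ M, inner ℝ (z M) (vv p x e M) = q M * chi M e - x e * q M := by
          intro M
          simp only [vv, z, RCLike.inner_apply, conj_trivial]
          by_cases hM : p M = 0
          · simp [hq0 M hM]
          · have : √(p M) ≠ 0 := fun h0 => hM (by rw [← hsq M, h0, mul_zero])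
            field_simp
        simp only [h1]
        rw [sum_sub_distrib, ← mul_sum, ← mrg_eq, hq.marg, hq.total]
        simp
      rw [Submodule.mem_span_range_iff_exists_fun]
      refine ⟨fun i => t⁻¹ * inner ℝ z (b i : EuclideanSpace ℝ (Finset E)), ?_⟩
      funext e
      have h2 := congrArg (fun u : U => inner ℝ z (u : EuclideanSpace ℝ (Finset E)))
        (b.sum_repr' (⟨vv p x e, hvU e⟩ : U))
      simp only [Submodule.coe_sum, Submodule.coe_smul, inner_sum, inner_smul_right, hz, ← hin] at h2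
      simp only [Finset.sum_apply, Pi.smul_apply, smul_eq_mul]
      calc ∑ i, t⁻¹ * inner ℝ z (b i : EuclideanSpace ℝ (Finset E)) * hv p x (η i) e
          = t⁻¹ * ∑ i, hv p x (η i) e * inner ℝ z (b i : EuclideanSpace ℝ (Finset E)) := by
            rw [mul_sum]
            refine sum_congr rfl fun i _ => ?_
            ring
        _ = g e := by rw [h2]; field_simp
    refine (Submodule.finrank_mono hle).trans ?_
    have h5 := finrank_range_le_card (R := ℝ) fun i => hv p x (η i)
    rw [Fintype.card_fin] at h5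
    exact h5

end Crest.Agent.R304
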