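import Mathlib

/-!
# R304: a minimum odd cut is a minimal minimum cut between two vertices

PLAN.  `cutN_sub`, `cutN_pos`: write `cutN c S = ∑ u, ∑ v, if u ∈ S ∧ v ∉ S then c u v else 0`; `cutN_sub` holds termwise; `cutN_pos` follows from it with
`Bᶜ` and `cutN_compl`.  `cover_odd`: among the finite families `𝓕` of sets with `Q` whose union is `S` take one with minimal `∑ card`; if two different
members `A, B` met, replace `A` by `A \ B` or `B` by `B \ A`.  So the members are pairwise disjoint and one has odd cardinality (`card_biUnion`).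
(Or: induction on the number of sets of a list, keeping a disjoint family.)
`gr`: let `S₀` be an odd set of minimal cut value `f₀`, and of minimal cardinality among those.  `cover_odd` with `Q A := A ⊂ S₀ ∧ cutN A ≤ f₀` gives `a ∈ S₀`
such that every `A ⊂ S₀` containing `a` has `cutN A > f₀`; with `Q B := B ⊆ S₀ᶜ ∧ cutN B < f₀` (`S₀ᶜ` is odd) it gives `b ∉ S₀` such that every
`B ⊆ S₀ᶜ` containing `b` has `cutN B ≥ f₀`.  For `U` as in the statement `cutN (U ∪ S₀) = cutN (U ∪ S₀)ᶜ ≥ f₀`, so `cutN (U ∩ S₀) ≤ cutN U ≤ f₀`, hence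
`S₀ ⊆ U`, `f₀ ≤ cutN U`, and `U ⊆ S₀` by minimality.
-/

set_option autoImplicit false
set_option linter.unusedSectionVars false
open Finset

namespace Crest.Agent.R304

variable {V : Type} [Fintype V] [DecidableEq V]

def cutN (c : V → V → ℕ) (S : Finset V) : ℕ := ∑ u ∈ S, ∑ v ∈ Sᶜ, c u v

/-- `U` is the smallest minimum cut between `a` and `b` -/
structure MinCut (c : V → V → ℕ) (a b : V) (U : Finset V) : Prop where
  mem : a ∈ U
  nmem : b ∉ U
  le : ∀ T, a ∈ T → b ∉ T → cutN c U ≤ cutN c T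
  sub : ∀ T, a ∈ T → b ∉ T → cutN c T ≤ cutN c U → U ⊆ T

variable {c : V → V → ℕ}

theorem gr_cutN_eq (S : Finset V) : cutN c S = ∑ u, ∑ v, if u ∈ S ∧ v ∉ S then c u v else 0 := by
  unfold cutN
  rw [← Finset.sum_filter_add_sum_filter_not univ (fun u => u ∈ S)]
  have h1 : univ.filter (fun u => u ∈ S) = S := by ext; simp
  rw [h1, Finset.sum_eq_zero (s := univ.filter fun u => ¬ u ∈ S) (fun u hu => by
    have : u ∉ S := by simpa using hu
    simp [this]), add_zero]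
  refine Finset.sum_congr rfl fun u hu => ?_
  rw [← Finset.sum_filter]
  refine Finset.sum_congr ?_ fun _ _ => rfl
  ext v; simp [hu]

theorem cutN_compl (h : ∀ u v, c u v = c v u) (S : Finset V) : cutN c Sᶜ = cutN c S := by
  unfold cutN
  rw [compl_compl, Finset.sum_comm]
  exact Finset.sum_congr rfl fun u _ => Finset.sum_congr rfl fun v _ => h _ _

theorem cutN_sub (A B : Finset V) : cutN c (A ∩ B) + cutN c (A ∪ B) ≤ cutN c A + cutN c B := by
  simp only [gr_cutN_eq, ← Finset.sum_add_distrib]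
  refine Finset.sum_le_sum fun u _ => Finset.sum_le_sum fun v _ => ?_
  by_cases h1 : u ∈ A <;> by_cases h2 : u ∈ B <;> by_cases h3 : v ∈ A <;> by_cases h4 : v ∈ B <;>
    simp [h1, h2, h3, h4]

theorem cutN_pos (h : ∀ u v, c u v = c v u) (A B : Finset V) :
    cutN c (A \ B) + cutN c (B \ A) ≤ cutN c A + cutN c B := by
  have h1 := cutN_sub (c := c) A Bᶜ
  have e1 : A ∩ Bᶜ = A \ B := by ext; simp
  have e2 : A ∪ Bᶜ = (B \ A)ᶜ := by ext; simp; tauto
  rw [e1, e2, cutN_compl h, cutN_compl h] at h1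
  exact h1

theorem cover_odd (Q : Finset V → Prop) (hQ : ∀ A B, Q A → Q B → Q (A \ B) ∨ Q (B \ A)) {S : Finset V} (hS : Odd S.card)
    (hsub : ∀ A, Q A → A ⊆ S) (hcov : ∀ a ∈ S, ∃ A, Q A ∧ a ∈ A) : ∃ A, Q A ∧ Odd A.card := by
  classical
  have hex : ∃ m, ∃ F : Finset (Finset V), (∀ A ∈ F, Q A) ∧ (∀ a ∈ S, ∃ A ∈ F, a ∈ A) ∧
      ∑ A ∈ F, A.card = m :=
    ⟨_, univ.filter Q, fun A hA => (mem_filter.1 hA).2, fun a ha => by
      obtain ⟨A, h1, h2⟩ := hcov a ha
      exact ⟨A, by simp [h1], h2⟩, rfl⟩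
  obtain ⟨F, hF1, hF2, hF3⟩ := Nat.find_spec hex
  have key : ∀ A ∈ F, ∀ B ∈ F, A ≠ B → Q (A \ B) → Disjoint A B := by
    intro A hA B hB hAB hq
    by_contra hd
    have hlt : (A \ B).card < A.card :=
      card_lt_card ⟨sdiff_subset, fun hs => hd (by
        rw [Finset.disjoint_left]
        intro x hx hxB
        exact (mem_sdiff.1 (hs hx)).2 hxB)⟩
    have h1 : ∑ C ∈ insert (A \ B) (F.erase A), C.card ≤ (A \ B).card + ∑ C ∈ F.erase A, C.card := by
      by_cases hm : A \ B ∈ F.erase A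
      · rw [insert_eq_of_mem hm]; omega
      · rw [sum_insert hm]
    have h2 := Finset.add_sum_erase F (fun C => C.card) hA
    refine Nat.find_min hex (m := ∑ C ∈ insert (A \ B) (F.erase A), C.card) (by omega)
      ⟨_, fun C hC => ?_, fun a ha => ?_, rfl⟩
    · rcases mem_insert.1 hC with rfl | hC
      · exact hq
      · exact hF1 C (mem_of_mem_erase hC)
    · obtain ⟨C, hC, haC⟩ := hF2 a ha
      by_cases hCA : C = A
      · subst hCA
        by_cases haB : a ∈ B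
        · exact ⟨B, mem_insert_of_mem (mem_erase.2 ⟨hAB.symm, hB⟩), haB⟩
        · exact ⟨_, mem_insert_self _ _, mem_sdiff.2 ⟨haC, haB⟩⟩
      · exact ⟨C, mem_insert_of_mem (mem_erase.2 ⟨hCA, hC⟩), haC⟩
  have hdis : (F : Set (Finset V)).PairwiseDisjoint id := by
    intro A hA B hB hAB
    rcases hQ A B (hF1 A hA) (hF1 B hB) with h | h
    · exact key A hA B hB hAB h
    · exact (key B hB A hA hAB.symm h).symm
  have hS' : S = F.biUnion id := by
    ext a
    simp only [mem_biUnion, id]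
    exact ⟨hF2 a, fun ⟨A, hA, ha⟩ => hsub A (hF1 A hA) ha⟩
  rw [hS', card_biUnion hdis] at hS
  by_contra hno
  refine Nat.not_even_iff_odd.2 hS (Finset.even_sum _ fun A hA => ?_)
  exact Nat.not_odd_iff_even.1 fun ho => hno ⟨A, hF1 A hA, ho⟩

theorem gr (h : ∀ u v, c u v = c v u) (hV : Even (Fintype.card V)) {S : Finset V} (hS : Odd S.card) :
    ∃ a b, (∃ T, a ∈ T ∧ b ∉ T ∧ cutN c T ≤ cutN c S) ∧ ∀ U, MinCut c a b U → Odd U.card ∧ cutN c U ≤ cutN c S := by
  classical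
  obtain ⟨S₁, h₁, hmin₁⟩ := Finset.exists_min_image (univ.filter fun T : Finset V => Odd T.card)
    (cutN c) ⟨S, by simp [hS]⟩
  obtain ⟨S₀, h₀, hmin₀⟩ := Finset.exists_min_image
    (univ.filter fun T : Finset V => Odd T.card ∧ cutN c T ≤ cutN c S₁) card
    ⟨S₁, by simpa using h₁⟩
  have ho : Odd S₀.card := (mem_filter.1 h₀).2.1
  have hmin : ∀ T : Finset V, Odd T.card → cutN c S₀ ≤ cutN c T := fun T hT =>
    (mem_filter.1 h₀).2.2.trans (hmin₁ T (by simp [hT]))
  have hcard : ∀ T : Finset V, Odd T.card → cutN c T ≤ cutN c S₀ → S₀.card ≤ T.card := fun T hT hc =>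
    hmin₀ T (mem_filter.2 ⟨mem_univ _, hT, hc.trans (mem_filter.1 h₀).2.2⟩)
  have ha : ∃ a ∈ S₀, ∀ A, A ⊂ S₀ → a ∈ A → cutN c S₀ < cutN c A := by
    by_contra hcon
    push Not at hcon
    obtain ⟨A, ⟨hA1, hA2⟩, hA3⟩ := cover_odd (fun A => A ⊂ S₀ ∧ cutN c A ≤ cutN c S₀)
      (fun A B hA hB => by
        have := cutN_pos h A B
        by_cases h1 : cutN c (A \ B) ≤ cutN c S₀
        · exact Or.inl ⟨Finset.ssubset_of_subset_of_ssubset sdiff_subset hA.1, h1⟩
        · exact Or.inr ⟨Finset.ssubset_of_subset_of_ssubset sdiff_subset hB.1, by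
            have := hA.2; have := hB.2; omega⟩) ho (fun A hA => hA.1.1) (fun a ha => by
        obtain ⟨A, h1, h2, h3⟩ := hcon a ha
        exact ⟨A, ⟨h1, h3⟩, h2⟩)
    exact absurd (card_lt_card hA1) (not_lt.2 (hcard A hA3 hA2))
  have hoc : Odd (S₀ᶜ).card := by
    rw [card_compl]
    exact Nat.Even.sub_odd (card_le_univ _) hV ho
  have hb : ∃ b ∈ S₀ᶜ, ∀ B, B ⊆ S₀ᶜ → b ∈ B → cutN c S₀ ≤ cutN c B := by
    by_contra hcon
    push Not at hcon
    obtain ⟨A, ⟨-, hA2⟩, hA3⟩ := cover_odd (fun A => A ⊆ S₀ᶜ ∧ cutN c A < cutN c S₀)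
      (fun A B hA hB => by
        have := cutN_pos h A B
        by_cases h1 : cutN c (A \ B) < cutN c S₀
        · exact Or.inl ⟨sdiff_subset.trans hA.1, h1⟩
        · exact Or.inr ⟨sdiff_subset.trans hB.1, by
            have := hA.2; have := hB.2; omega⟩) hoc (fun A hA => hA.1) (fun a ha => by
        obtain ⟨A, h1, h2, h3⟩ := hcon a ha
        exact ⟨A, ⟨h1, h3⟩, h2⟩)
    exact absurd hA2 (not_lt.2 (hmin A hA3))
  obtain ⟨a, ha1, ha2⟩ := ha
  obtain ⟨b, hb1, hb2⟩ := hb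
  have hb1' : b ∉ S₀ := mem_compl.1 hb1
  refine ⟨a, b, ⟨S₀, ha1, hb1', hmin S hS⟩, fun U hU => ?_⟩
  have h1 := hU.le S₀ ha1 hb1'
  have h2 := hb2 (U ∪ S₀)ᶜ (compl_subset_compl.2 subset_union_right)
    (by simp [hU.nmem, hb1'])
  rw [cutN_compl h] at h2
  have h3 := cutN_sub (c := c) U S₀
  have h4 : U ∩ S₀ = S₀ := by
    by_contra hne
    have := ha2 (U ∩ S₀) (Finset.ssubset_iff_subset_ne.2 ⟨inter_subset_right, hne⟩)
      (mem_inter.2 ⟨hU.mem, ha1⟩)
    omega
  rw [h4] at h3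
  have h5 : U = S₀ := by
    refine Finset.Subset.antisymm (hU.sub S₀ ha1 hb1' (by omega)) ?_
    rw [← h4]; exact inter_subset_left
  rw [h5]
  exact ⟨ho, hmin S hS⟩

end Crest.Agent.R304
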