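import Crest.Agent.R304.Ultra

/-!
# R304: the gap of the linearised dynamics

PLAN.  `tele`: enumerate `V` by `e : Fin n ≃ V`; `U k = ⋃_{j < k} comp I F (e j)` is closed, `U 0 = ∅`, `U n = univ`;
`(I_k, F_k) = (mix (U k) I F, mix (U k) F I)`.  The map `(I,F) ↦ (I_k,F_k)` is an involution (`comp_mix`, `mix_mix`) preserving
`mu I * mu F` (`wt_mix`).  `I_{k+1} = I_k` if `e k ∈ U k`, and otherwise (`comp I F (e k)` is disjoint from `U k`, `comp_eq_of_mem`)
`I_{k+1} = mix (comp I_k F_k (e k)) I_k F_k`.  Telescope and use Cauchy-Schwarz (`sq_sum_le_card_mul_sum_sq`).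
`gap`: `2 ∑ mu u^2 = ∑∑ mu mu (u F - u I)^2`.  For a triple `(I,F,a)` let `ε^2` be the sum of `er X Y b ^ 2` over `(X,Y,b)` with
`Enc I F C X Y` plus the sum of `(u X - u (cj X b c))^2` over `(X,b,c)`, `b ≠ c`, with `(∃ Y, Enc X Y) ∧ ∃ Y', Enc (cj X b c) Y'`; then `Hyp`
holds, and `cyc_bound` gives `Δ^2 ≤ 36 n^2 ε^2`.  Swap the sums: for fixed `(X,Y)` the triples with `Enc` have total weight
`≤ n^20 K^12 mu X mu Y` (`enc_card`, `Enc.wt_le`); for fixed `(X,b,c)` the admissible triples have total weight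
`≤ ∑_Y n^20 K^12 mu X mu Y = n^20 K^12 mu X`, and also `≤ n^20 K^12 mu (cj X b c)`.  `lemQ` gives the terms `b = c` (there
`mu X' mu Y' = mu X mu Y`), and for `b ≠ c`: `∑_Y min (mu X mu Y) (mu X' mu Y) = min (mu X) (mu X')`.
-/

set_option autoImplicit false
open Finset

namespace Crest.Agent.R304

variable {V : Type} [Fintype V] [DecidableEq V] {ℓ : V → V → ℝ}

theorem mu_mix (ℓ : V → V → ℝ) {U : Finset V} {X Y : PM V} (h : Closed X Y U) :
    mu ℓ (mix U X Y) * mu ℓ (mix U Y X) = mu ℓ X * mu ℓ Y := by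
  simp only [mu, div_mul_div_comm, wt_mix ℓ h]

theorem closed_biU (I F : PM V) (S : Finset V) : Closed I F (S.biUnion (comp I F)) := by
  intro v hv
  obtain ⟨a, ha, hva⟩ := mem_biUnion.1 hv
  exact ⟨mem_biUnion.2 ⟨a, ha, (closed_comp I F a v hva).1⟩, mem_biUnion.2 ⟨a, ha, (closed_comp I F a v hva).2⟩⟩

theorem tele_step (hW : Wt ℓ) (φ : PM V → ℝ) (S : Finset V) (a : V) :
    ∑ I, ∑ F, mu ℓ I * mu ℓ F *
        (φ (mix ((insert a S).biUnion (comp I F)) I F) - φ (mix (S.biUnion (comp I F)) I F)) ^ 2 ≤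
      ∑ I, ∑ F, mu ℓ I * mu ℓ F * (φ (mix (comp I F a) I F) - φ I) ^ 2 := by
  let σ : PM V × PM V → PM V × PM V := fun p =>
    (mix (S.biUnion (comp p.1 p.2)) p.1 p.2, mix (S.biUnion (comp p.1 p.2)) p.2 p.1)
  have hc : ∀ p : PM V × PM V, comp (σ p).1 (σ p).2 = comp p.1 p.2 := fun p =>
    funext fun b => comp_mix (closed_biU p.1 p.2 S) b
  have hσ : Function.Involutive σ := by
    intro p
    have h := closed_biU p.1 p.2 S
    refine Prod.ext ?_ ?_
    · change mix (S.biUnion (comp (σ p).1 (σ p).2)) (σ p).1 (σ p).2 = p.1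
      rw [hc]; exact mix_mix h
    · change mix (S.biUnion (comp (σ p).1 (σ p).2)) (σ p).2 (σ p).1 = p.2
      rw [hc]; exact mix_mix h.symm
  rw [← Fintype.sum_prod_type', ← Fintype.sum_prod_type', ← Equiv.sum_comp (hσ.toPerm σ)
    (fun p : PM V × PM V => mu ℓ p.1 * mu ℓ p.2 * (φ (mix (comp p.1 p.2 a) p.1 p.2) - φ p.1) ^ 2)]
  refine sum_le_sum fun p _ => ?_
  have h := closed_biU p.1 p.2 S
  change _ ≤ mu ℓ (σ p).1 * mu ℓ (σ p).2 * (φ (mix (comp (σ p).1 (σ p).2 a) (σ p).1 (σ p).2) - φ (σ p).1) ^ 2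
  have hm : mu ℓ (σ p).1 * mu ℓ (σ p).2 = mu ℓ p.1 * mu ℓ p.2 := mu_mix ℓ h
  rw [hm]
  refine mul_le_mul_of_nonneg_left ?_ (mul_pos (mu_pos hW _) (mu_pos hW _)).le
  by_cases ha : a ∈ S.biUnion (comp p.1 p.2)
  · have : (insert a S).biUnion (comp p.1 p.2) = S.biUnion (comp p.1 p.2) := by
      rw [biUnion_insert]; exact union_eq_right.2 (comp_sub h ha)
    rw [this, sub_self, sq, zero_mul]
    exact sq_nonneg _
  · refine le_of_eq ?_
    congr 3
    refine PM.ext' fun v => ?_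
    rw [mix_apply (closed_biU p.1 p.2 _), mix_apply (closed_comp _ _ _), hc]
    change _ = if v ∈ comp p.1 p.2 a then (mix (S.biUnion (comp p.1 p.2)) p.2 p.1).1 v
      else (mix (S.biUnion (comp p.1 p.2)) p.1 p.2).1 v
    rw [mix_apply h, mix_apply h.symm, biUnion_insert]
    by_cases hv : v ∈ comp p.1 p.2 a
    · have : v ∉ S.biUnion (comp p.1 p.2) := fun h' =>
        ha (comp_sub h h' (comp_eq_of_mem hv ▸ self_mem_comp _ _ a))
      simp [hv, this]
    · simp [hv]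

theorem tele (hW : Wt ℓ) (φ : PM V → ℝ) :
    ∑ I, ∑ F, mu ℓ I * mu ℓ F * (φ F - φ I) ^ 2 ≤
      Fintype.card V * ∑ a, ∑ I, ∑ F, mu ℓ I * mu ℓ F * (φ (mix (comp I F a) I F) - φ I) ^ 2 := by
  have key : ∀ S : Finset V, ∃ d : V → PM V → PM V → ℝ,
      (∀ I F, φ (mix (S.biUnion (comp I F)) I F) - φ I = ∑ a ∈ S, d a I F) ∧
      ∀ a ∈ S, ∑ I, ∑ F, mu ℓ I * mu ℓ F * d a I F ^ 2 ≤
        ∑ I, ∑ F, mu ℓ I * mu ℓ F * (φ (mix (comp I F a) I F) - φ I) ^ 2 := by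
    intro S
    induction S using Finset.induction_on with
    | empty =>
      refine ⟨0, fun I F => ?_, by simp⟩
      have : mix ((∅ : Finset V).biUnion (comp I F)) I F = I :=
        PM.ext' fun v => by rw [mix_apply (closed_biU I F _)]; simp
      rw [this]; simp
    | insert a S ha ih =>
      obtain ⟨d, h1, h2⟩ := ih
      refine ⟨fun b I F => if b = a then
        φ (mix ((insert a S).biUnion (comp I F)) I F) - φ (mix (S.biUnion (comp I F)) I F) else d b I F,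
        fun I F => ?_, fun b hb => ?_⟩
      · beta_reduce
        rw [sum_insert ha, if_pos rfl, sum_congr rfl fun b hb => if_neg (fun (e : b = a) => ha (e ▸ hb)), ← h1]
        ring
      · by_cases hba : b = a
        · subst hba; simpa only [if_true] using tele_step hW φ S b
        · simpa only [hba, if_false] using h2 b ((mem_insert.1 hb).resolve_left hba)
  obtain ⟨d, h1, h2⟩ := key univ
  have h3 : ∀ I F : PM V, mix (univ.biUnion (comp I F)) I F = F := fun I F =>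
    PM.ext' fun v => by
      rw [mix_apply (closed_biU I F _), if_pos (mem_biUnion.2 ⟨v, mem_univ _, self_mem_comp I F v⟩)]
  refine le_trans ?_ (mul_le_mul_of_nonneg_left (sum_le_sum h2) (Nat.cast_nonneg _))
  rw [sum_comm (s := (univ : Finset V)), mul_sum]
  refine sum_le_sum fun I _ => ?_
  rw [sum_comm (s := (univ : Finset V)), mul_sum]
  refine sum_le_sum fun F _ => ?_
  rw [← mul_sum, mul_left_comm]
  refine mul_le_mul_of_nonneg_left ?_ (mul_pos (mu_pos hW _) (mu_pos hW _)).le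
  have := h1 I F
  rw [h3] at this
  rw [this]
  exact sq_sum_le_card_mul_sum_sq

open Classical in
theorem enc_mass [Nonempty (PM V)] (hW : Wt ℓ) {K : ℝ} (hK : 1 ≤ K) (X Y : PM V) :
    ∑ t : PM V × PM V × V, (if Enc ℓ K t.1 t.2.1 (comp t.1 t.2.1 t.2.2) X Y then mu ℓ t.1 * mu ℓ t.2.1 else 0) ≤
      (Fintype.card V : ℝ) ^ 20 * K ^ 12 * (mu ℓ X * mu ℓ Y) := by
  rw [← sum_filter]
  have h0 : 0 ≤ K ^ 12 * (mu ℓ X * mu ℓ Y) :=
    mul_nonneg (by positivity) (mul_pos (mu_pos hW _) (mu_pos hW _)).le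
  refine (sum_le_card_nsmul _ _ (K ^ 12 * (mu ℓ X * mu ℓ Y)) fun t ht => ?_).trans ?_
  · have := ((mem_filter.1 ht).2).wt_le hW hK
    have hZ := ZZ_pos (V := V) hW
    simp only [mu, div_mul_div_comm]
    rw [← mul_div_assoc]
    exact div_le_div_of_nonneg_right this (by positivity)
  · rw [nsmul_eq_mul, mul_assoc]
    refine mul_le_mul_of_nonneg_right ?_ h0
    exact_mod_cast enc_card ℓ K X Y

open Classical in
theorem enc_mass' [Nonempty (PM V)] (hW : Wt ℓ) {K : ℝ} (hK : 1 ≤ K) (X : PM V) :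
    ∑ t : PM V × PM V × V, (if ∃ Y, Enc ℓ K t.1 t.2.1 (comp t.1 t.2.1 t.2.2) X Y then mu ℓ t.1 * mu ℓ t.2.1 else 0) ≤
      (Fintype.card V : ℝ) ^ 20 * K ^ 12 * mu ℓ X := by
  calc _ ≤ ∑ t : PM V × PM V × V, ∑ Y,
        (if Enc ℓ K t.1 t.2.1 (comp t.1 t.2.1 t.2.2) X Y then mu ℓ t.1 * mu ℓ t.2.1 else 0) := by
        refine sum_le_sum fun t _ => ?_
        have hnn : ∀ Y ∈ (univ : Finset (PM V)), 0 ≤
            (if Enc ℓ K t.1 t.2.1 (comp t.1 t.2.1 t.2.2) X Y then mu ℓ t.1 * mu ℓ t.2.1 else 0) := fun Y _ => by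
          split_ifs
          · exact (mul_pos (mu_pos hW _) (mu_pos hW _)).le
          · exact le_rfl
        split_ifs with h
        · obtain ⟨Y, hY⟩ := h
          exact (if_pos hY).ge.trans (single_le_sum hnn (mem_univ Y))
        · exact sum_nonneg hnn
    _ ≤ ∑ Y, (Fintype.card V : ℝ) ^ 20 * K ^ 12 * (mu ℓ X * mu ℓ Y) := by
        rw [sum_comm]; exact sum_le_sum fun Y _ => enc_mass hW hK X Y
    _ = _ := by rw [← mul_sum, ← mul_sum, sum_mu hW, mul_one]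

open Classical in
theorem gap_pt (hW : Wt ℓ) {K : ℝ} {P : Type} {On : P → V → V → Prop} (hP : Pts ℓ K On) (u : PM V → ℝ)
    (I F : PM V) (a : V) :
    (u (mix (comp I F a) I F) - u I) ^ 2 ≤ 36 * (Fintype.card V : ℝ) ^ 2 *
      (∑ q : PM V × PM V × V, (if Enc ℓ K I F (comp I F a) q.1 q.2.1 then er ℓ u q.1 q.2.1 q.2.2 ^ 2 else 0) +
       ∑ q : PM V × V × V, (if q.2.1 ≠ q.2.2 ∧ (∃ Y, Enc ℓ K I F (comp I F a) q.1 Y) ∧
          ∃ Y, Enc ℓ K I F (comp I F a) (cj q.1 q.2.1 q.2.2) Y then (u q.1 - u (cj q.1 q.2.1 q.2.2)) ^ 2 else 0)) := by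
  have n1 : ∀ q ∈ (univ : Finset (PM V × PM V × V)), 0 ≤
      (if Enc ℓ K I F (comp I F a) q.1 q.2.1 then er ℓ u q.1 q.2.1 q.2.2 ^ 2 else 0) := fun q _ => by
    split_ifs
    · exact sq_nonneg _
    · exact le_rfl
  have n2 : ∀ q ∈ (univ : Finset (PM V × V × V)), 0 ≤ (if q.2.1 ≠ q.2.2 ∧ (∃ Y, Enc ℓ K I F (comp I F a) q.1 Y) ∧
      ∃ Y, Enc ℓ K I F (comp I F a) (cj q.1 q.2.1 q.2.2) Y then (u q.1 - u (cj q.1 q.2.1 q.2.2)) ^ 2 else 0) :=
    fun q _ => by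
      split_ifs
      · exact sq_nonneg _
      · exact le_rfl
  have s1 := sum_nonneg n1
  have s2 := sum_nonneg n2
  set A := ∑ q : PM V × PM V × V, (if Enc ℓ K I F (comp I F a) q.1 q.2.1 then er ℓ u q.1 q.2.1 q.2.2 ^ 2 else 0)
  set B := ∑ q : PM V × V × V, (if q.2.1 ≠ q.2.2 ∧ (∃ Y, Enc ℓ K I F (comp I F a) q.1 Y) ∧
    ∃ Y, Enc ℓ K I F (comp I F a) (cj q.1 q.2.1 q.2.2) Y then (u q.1 - u (cj q.1 q.2.1 q.2.2)) ^ 2 else 0)
  have hH : Hyp ℓ K u I F (comp I F a) √(A + B) := by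
    refine ⟨fun X Y Y' b c hbc h1 h2 => Real.abs_le_sqrt ?_, fun X Y b h1 => Real.abs_le_sqrt ?_⟩
    · have := single_le_sum n2 (mem_univ (X, b, c))
      rw [if_pos ⟨hbc, ⟨Y, h1⟩, ⟨Y', h2⟩⟩] at this
      exact le_add_of_nonneg_of_le s1 this
    · have := single_le_sum n1 (mem_univ (X, Y, b))
      rw [if_pos h1] at this
      exact le_add_of_le_of_nonneg this s2
  have h := cyc_bound hW hP a hH (Real.sqrt_nonneg _)
  have h2 := pow_le_pow_left₀ (abs_nonneg _) h 2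
  rw [sq_abs, mul_pow, Real.sq_sqrt (add_nonneg s1 s2)] at h2
  exact h2.trans_eq (by ring)

theorem gap [Nonempty V] [Nonempty (PM V)] (hW : Wt ℓ) {δ : ℝ} (hδ : 0 < δ) (hδ1 : δ ≤ 1)
    (hx : ∀ u v, u ≠ v → δ ≤ xm ℓ u v) (u : PM V → ℝ) (hu : ∑ X, mu ℓ X * u X = 0) :
    ∑ X, mu ℓ X * u X ^ 2 ≤ 18 * (Fintype.card V : ℝ) ^ 23 * (2 * Fintype.card V / δ) ^ 12 *
      ∑ b, ∑ c, ∑ a : PM V × PM V, min (mu ℓ a.1 * mu ℓ a.2) (mu ℓ (mv b c a).1 * mu ℓ (mv b c a).2) *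
        (u a.1 + u a.2 - u (mv b c a).1 - u (mv b c a).2) ^ 2 := by
  classical
  obtain ⟨On, hP⟩ := points hW hδ hδ1 hx
  have hn : (1 : ℝ) ≤ Fintype.card V := by exact_mod_cast Fintype.card_pos
  have hK : (1 : ℝ) ≤ 2 * Fintype.card V / δ := by rw [le_div_iff₀ hδ]; linarith
  set K : ℝ := 2 * Fintype.card V / δ
  set n : ℝ := (Fintype.card V : ℝ)
  set T : V → V → ℝ := fun b c => ∑ a : PM V × PM V,
    min (mu ℓ a.1 * mu ℓ a.2) (mu ℓ (mv b c a).1 * mu ℓ (mv b c a).2) *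
      (u a.1 + u a.2 - u (mv b c a).1 - u (mv b c a).2) ^ 2 with hT
  have hC : 0 ≤ n ^ 20 * K ^ 12 := by positivity
  have e0 : ∑ I, ∑ F, mu ℓ I * mu ℓ F * (u F - u I) ^ 2 = 2 * ∑ X, mu ℓ X * u X ^ 2 := by
    have : ∀ I, ∑ F, mu ℓ I * mu ℓ F * (u F - u I) ^ 2 =
        mu ℓ I * ∑ F, mu ℓ F * u F ^ 2 - 2 * (mu ℓ I * u I) * ∑ F, mu ℓ F * u F + mu ℓ I * u I ^ 2 * ∑ F, mu ℓ F := by
      intro I
      rw [mul_sum, mul_sum, mul_sum, ← sum_sub_distrib, ← sum_add_distrib]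
      exact sum_congr rfl fun F _ => by ring
    simp only [this, hu, sum_mu hW, mul_zero, sub_zero, mul_one]
    rw [sum_add_distrib, ← sum_mul, sum_mu hW]; ring
  -- the block terms
  have hA : ∑ t : PM V × PM V × V, mu ℓ t.1 * mu ℓ t.2.1 * ∑ q : PM V × PM V × V,
      (if Enc ℓ K t.1 t.2.1 (comp t.1 t.2.1 t.2.2) q.1 q.2.1 then er ℓ u q.1 q.2.1 q.2.2 ^ 2 else 0) ≤
      n ^ 20 * K ^ 12 * ∑ b, T b b := by
    calc _ = ∑ q : PM V × PM V × V, (∑ t : PM V × PM V × V,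
          (if Enc ℓ K t.1 t.2.1 (comp t.1 t.2.1 t.2.2) q.1 q.2.1 then mu ℓ t.1 * mu ℓ t.2.1 else 0)) *
            er ℓ u q.1 q.2.1 q.2.2 ^ 2 := by
          simp only [mul_sum, sum_mul]
          rw [sum_comm]
          refine sum_congr rfl fun q _ => sum_congr rfl fun t _ => ?_
          split_ifs <;> simp
      _ ≤ ∑ q : PM V × PM V × V, n ^ 20 * K ^ 12 * (mu ℓ q.1 * mu ℓ q.2.1) * er ℓ u q.1 q.2.1 q.2.2 ^ 2 :=
          sum_le_sum fun q _ => mul_le_mul_of_nonneg_right (enc_mass hW hK _ _) (sq_nonneg _)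
      _ = n ^ 20 * K ^ 12 * ∑ b, ∑ X, ∑ Y, mu ℓ X * mu ℓ Y * er ℓ u X Y b ^ 2 := by
          rw [sum_comm (s := (univ : Finset V)), sum_congr rfl fun X _ => sum_comm (s := (univ : Finset V))]
          simp only [Fintype.sum_prod_type, mul_sum, mul_assoc]
      _ ≤ _ := by
          refine mul_le_mul_of_nonneg_left (sum_le_sum fun b _ => (lemQ hW u b).trans_eq ?_) hC
          rw [hT, ← Fintype.sum_prod_type']
          refine sum_congr rfl fun p _ => ?_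
          simp only [mv, if_true]
          rw [mu_mix ℓ (closed_comp _ _ _), min_self]
  -- the switch terms
  have hB : ∑ t : PM V × PM V × V, mu ℓ t.1 * mu ℓ t.2.1 * ∑ q : PM V × V × V,
      (if q.2.1 ≠ q.2.2 ∧ (∃ Y, Enc ℓ K t.1 t.2.1 (comp t.1 t.2.1 t.2.2) q.1 Y) ∧
        ∃ Y, Enc ℓ K t.1 t.2.1 (comp t.1 t.2.1 t.2.2) (cj q.1 q.2.1 q.2.2) Y then
          (u q.1 - u (cj q.1 q.2.1 q.2.2)) ^ 2 else 0) ≤
      n ^ 20 * K ^ 12 * ∑ b, ∑ c, if b = c then 0 else T b c := by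
    calc _ = ∑ q : PM V × V × V, (∑ t : PM V × PM V × V,
          (if q.2.1 ≠ q.2.2 ∧ (∃ Y, Enc ℓ K t.1 t.2.1 (comp t.1 t.2.1 t.2.2) q.1 Y) ∧
            ∃ Y, Enc ℓ K t.1 t.2.1 (comp t.1 t.2.1 t.2.2) (cj q.1 q.2.1 q.2.2) Y then mu ℓ t.1 * mu ℓ t.2.1 else 0)) *
            (u q.1 - u (cj q.1 q.2.1 q.2.2)) ^ 2 := by
          simp only [mul_sum, sum_mul]
          rw [sum_comm]
          refine sum_congr rfl fun q _ => sum_congr rfl fun t _ => ?_
          split_ifs <;> simp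
      _ ≤ ∑ q : PM V × V × V, n ^ 20 * K ^ 12 * (if q.2.1 = q.2.2 then 0 else
            min (mu ℓ q.1) (mu ℓ (cj q.1 q.2.1 q.2.2)) * (u q.1 - u (cj q.1 q.2.1 q.2.2)) ^ 2) := by
          refine sum_le_sum fun q _ => ?_
          by_cases hq : q.2.1 = q.2.2
          · simp [hq]
          rw [if_neg hq, ← mul_assoc]
          refine mul_le_mul_of_nonneg_right ?_ (sq_nonneg _)
          rw [mul_min_of_nonneg _ _ hC]
          refine le_min (le_trans (sum_le_sum fun t _ => ?_) (enc_mass' hW hK q.1))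
            (le_trans (sum_le_sum fun t _ => ?_) (enc_mass' hW hK (cj q.1 q.2.1 q.2.2)))
          · have := (mul_pos (mu_pos hW t.1) (mu_pos hW t.2.1)).le
            split_ifs with h1 h2
            exacts [le_rfl, (h2 h1.2.1).elim, this, le_rfl]
          · have := (mul_pos (mu_pos hW t.1) (mu_pos hW t.2.1)).le
            split_ifs with h1 h2
            exacts [le_rfl, (h2 h1.2.2).elim, this, le_rfl]
      _ = _ := by
          rw [← mul_sum, Fintype.sum_prod_type, sum_comm, Fintype.sum_prod_type]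
          congr 1
          refine sum_congr rfl fun b _ => sum_congr rfl fun c _ => ?_
          by_cases hbc : b = c
          · simp [hbc]
          simp only [hbc, if_false, hT, mv]
          rw [Fintype.sum_prod_type]
          refine sum_congr rfl fun X _ => ?_
          have : ∀ Y, min (mu ℓ X * mu ℓ Y) (mu ℓ (cj X b c) * mu ℓ Y) * (u X + u Y - u (cj X b c) - u Y) ^ 2 =
              min (mu ℓ X) (mu ℓ (cj X b c)) * (u X - u (cj X b c)) ^ 2 * mu ℓ Y := fun Y => by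
            rw [← min_mul_of_nonneg _ _ (mu_pos hW Y).le]; ring
          simp only [this]
          rw [← mul_sum, sum_mu hW, mul_one]
  have hTT : ∑ b, T b b + ∑ b, ∑ c, (if b = c then 0 else T b c) = ∑ b, ∑ c, T b c := by
    rw [← sum_add_distrib]
    refine sum_congr rfl fun b _ => ?_
    rw [← sum_ite_eq_of_mem univ b (fun c => T b c) (mem_univ b), ← sum_add_distrib]
    refine sum_congr rfl fun c _ => ?_
    split_ifs <;> simp
  have h1 := tele hW u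
  have h2 : ∑ a, ∑ I, ∑ F, mu ℓ I * mu ℓ F * (u (mix (comp I F a) I F) - u I) ^ 2 ≤
      36 * n ^ 2 * (n ^ 20 * K ^ 12 * ∑ b, ∑ c, T b c) := by
    rw [← hTT, mul_add]
    refine le_trans ?_ (mul_le_mul_of_nonneg_left (add_le_add hA hB) (by positivity))
    rw [← sum_add_distrib, mul_sum, sum_comm (s := (univ : Finset V)),
      sum_congr rfl fun X _ => sum_comm (s := (univ : Finset V)), Fintype.sum_prod_type]
    refine sum_le_sum fun I _ => ?_
    rw [Fintype.sum_prod_type]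
    refine sum_le_sum fun F _ => sum_le_sum fun a _ => ?_
    rw [← mul_add, mul_left_comm]
    exact mul_le_mul_of_nonneg_left (gap_pt hW hP u I F a) (mul_pos (mu_pos hW _) (mu_pos hW _)).le
  have h3 := mul_le_mul_of_nonneg_left h2 (by linarith : 0 ≤ n)
  rw [e0] at h1
  change _ ≤ 18 * n ^ 23 * K ^ 12 * ∑ b, ∑ c, T b c
  have e : n * (36 * n ^ 2 * (n ^ 20 * K ^ 12 * ∑ b, ∑ c, T b c)) = 2 * (18 * n ^ 23 * K ^ 12 * ∑ b, ∑ c, T b c) := by
    ring
  linarith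

end Crest.Agent.R304
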