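import Crest.Agent.R304.Sim

/-!
# R304: the initial population

PLAN.  `Ex_mod`: `Ex_ofBits`; every residue class mod `m` has `2^B / m` or `2^B / m + 1` members in `range (2^B)` (`Nat.count_modEq_card`, or write
`2^B = m q + ρ` and split the range).  `fy K f X`: the ideal operator.  `fy_unif`: let `ν i` be the law (a function `PM → ℝ`) after the steps
`0, …, i-1` from a fixed start, `ν (i+1) X = (∑ j ≤ i, ν i (cj X i j)) / (i+1)` (`cj_cj`).  By induction `ν i (cj X a b) = ν i X` for `a, b < i`: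
write `cj X a b` as conjugation by `Equiv.swap a b`; for `a, b < i` reindex `j ↦ swap a b j` (`swap i j * swap a b = swap a b * swap i (swap a b j)`),
for `b = i`: `j = a ↔ j = i`, and otherwise `swap i j * swap a i = swap a j * swap i j`.  A function invariant under all `cj` is constant
(`cj_trans`: induction on the number of `v` with `X v ≠ Y v`; `cj X (X a) (Y a)` agrees with `Y` at `a` and wherever `X` did), and `∑ ν n = 1`.
(Any other proof is fine, e.g. the dual statement for the operators acting on `f`.)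
`gen1_mem`: `runL_inv` with `cjL_enc`; `X0 n` codes `v ↦ v ± 1`.  `gen1_law`: `Ex_runL`, and induction on the number of remaining steps with `Ex_mod`.
`draws_law`: induction on `m` for all `F` and `len`: `runL_succ'`, `Ex_split`, `runL_take`, `List.ofFn_succ`, sums over `Fin (m+1) → X` by
`Fin.consEquiv`/`Fin.insertNthEquiv`; a hybrid argument.
-/

set_option autoImplicit false
open Finset Crest.Agent.PTime Crest.Agent.R309

namespace Crest.Agent.R304

private theorem sum_mod_mul (m q : ℕ) (f : ℕ → ℝ) : ∑ i ∈ range (m * q), f (i % m) = q * ∑ j ∈ range m, f j := by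
  induction q with
  | zero => simp
  | succ q ih =>
    rw [Nat.mul_succ, sum_range_add, ih]
    have : ∑ j ∈ range m, f ((m * q + j) % m) = ∑ j ∈ range m, f j :=
      sum_congr rfl fun j hj => by rw [Nat.mul_add_mod, Nat.mod_eq_of_lt (mem_range.1 hj)]
    rw [this]
    push_cast
    ring

private theorem sum_mem01 {f : ℕ → ℝ} (hf : ∀ i, 0 ≤ f i ∧ f i ≤ 1) (k : ℕ) :
    0 ≤ ∑ j ∈ range k, f j ∧ ∑ j ∈ range k, f j ≤ k :=
  ⟨sum_nonneg fun j _ => (hf j).1, (sum_le_sum fun j _ => (hf j).2).trans (by simp)⟩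

theorem Ex_mod {m : ℕ} (hm : 0 < m) (B : ℕ) {f : ℕ → ℝ} (hf : ∀ i, 0 ≤ f i ∧ f i ≤ 1) :
    |Ex B (fun l => f (ofBits l % m)) - (∑ j ∈ range m, f j) / m| ≤ m / 2 ^ B := by
  rw [Ex_ofBits B fun i => f (i % m)]
  have hN : (0 : ℝ) < 2 ^ B := by positivity
  have hm' : (0 : ℝ) < m := by exact_mod_cast hm
  obtain ⟨q, ρ, hρ, e⟩ : ∃ q ρ, ρ < m ∧ 2 ^ B = m * q + ρ :=
    ⟨2 ^ B / m, 2 ^ B % m, Nat.mod_lt _ hm, (Nat.div_add_mod _ _).symm⟩
  have e' : (2 : ℝ) ^ B = m * q + ρ := by exact_mod_cast e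
  have h1 : ∑ i ∈ range (2 ^ B), f (i % m) = q * ∑ j ∈ range m, f j + ∑ j ∈ range ρ, f j := by
    rw [e, sum_range_add, sum_mod_mul]
    congr 1
    exact sum_congr rfl fun j hj => by rw [Nat.mul_add_mod, Nat.mod_eq_of_lt ((mem_range.1 hj).trans hρ)]
  obtain ⟨a1, a2⟩ := sum_mem01 hf m
  obtain ⟨b1, b2⟩ := sum_mem01 hf ρ
  have hρ' : (ρ : ℝ) ≤ m := by exact_mod_cast hρ.le
  have hρ0 : (0 : ℝ) ≤ ρ := Nat.cast_nonneg ρ
  rw [h1]
  set S := ∑ j ∈ range m, f j
  set T := ∑ j ∈ range ρ, f j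
  have h2 : (q * S + T) / 2 ^ B - S / m = (T - ρ * (S / m)) / 2 ^ B := by
    have h5 : S / m = (q * S + ρ * (S / m)) / 2 ^ B := by
      rw [eq_div_iff hN.ne', e']
      field_simp
    rw [sub_eq_iff_eq_add]
    nth_rw 2 [h5]
    ring
  have h3 : 0 ≤ S / m := div_nonneg a1 hm'.le
  have h4 : S / m ≤ 1 := (div_le_one hm').2 a2
  rw [h2, abs_div, abs_of_pos hN]
  refine div_le_div_of_nonneg_right (abs_le.2 ⟨?_, ?_⟩) hN.le <;> nlinarith

theorem cj_trans {V : Type} [Fintype V] [DecidableEq V] {ν : PM V → ℝ} (h : ∀ X a b, ν (cj X a b) = ν X) (X Y : PM V) :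
    ν X = ν Y := by
  induction' hk : (univ.filter fun v => X.1 v ≠ Y.1 v).card using Nat.strong_induction_on with k ih generalizing X
  by_cases hXY : ∀ v, X.1 v = Y.1 v
  · rw [PM.ext' hXY]
  · push Not at hXY
    obtain ⟨a, ha⟩ := hXY
    have hac : a ≠ Y.1 a := (Y.ne a).symm
    obtain ⟨h1, -, h3⟩ := cj_left (X := X) (a := a) (b := X.1 a) (c := Y.1 a) (d := X.1 (Y.1 a)) rfl rfl hac ha
    rw [← h X (X.1 a) (Y.1 a)]
    refine ih _ ?_ _ rfl
    rw [← hk]
    refine card_lt_card ⟨fun v hv => ?_, fun hs => ?_⟩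
    · simp only [mem_filter, mem_univ, true_and] at hv ⊢
      intro e
      refine hv ?_
      rw [← e]
      refine h3 v ?_ ?_ ?_ ?_
      · rintro rfl
        exact ha e
      · rintro rfl
        rw [X.inv] at e
        exact ha (Y.symm e.symm).symm
      · rintro rfl
        rw [Y.inv] at e
        exact ha (X.symm e)
      · rintro rfl
        rw [X.inv] at e
        have e2 := Y.symm e.symm
        rw [Y.inv] at e2
        exact ha (X.symm e2.symm)
    · have := hs (x := a) (by simpa using ha)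
      simp only [mem_filter, mem_univ, true_and] at this
      exact this h1

variable {n s : ℕ}

/-- the ideal operator for the steps `i, …, i + k - 1` -/
noncomputable def fy (f : PM (Fin n) → ℝ) : ℕ → ℕ → PM (Fin n) → ℝ
  | 0, _, X => f X
  | k + 1, i, X => (∑ j ∈ range (i + 1),
      fy f k (i + 1) (if h : i < n ∧ j < n then cj X ⟨i, h.1⟩ ⟨j, h.2⟩ else X)) / (i + 1 : ℕ)

private def act (π : Equiv.Perm (Fin n)) (X : PM (Fin n)) : PM (Fin n) :=
  ⟨fun v => π (X.1 (π⁻¹ v)), fun v => ⟨by simp [X.inv], fun h => X.ne (π⁻¹ v) (by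
    have := congrArg (fun w => π⁻¹ w) h
    simpa using this)⟩⟩

private theorem act_mul (π σ : Equiv.Perm (Fin n)) (X : PM (Fin n)) : act (π * σ) X = act π (act σ X) :=
  PM.ext' fun v => by simp [act]

private theorem act_one (X : PM (Fin n)) : act 1 X = X := PM.ext' fun v => by simp [act]

private theorem act_swap (a b : Fin n) (X : PM (Fin n)) : act (Equiv.swap a b) X = cj X a b :=
  PM.ext' fun v => by simp [act, cj]

private def cjN (X : PM (Fin n)) (i j : ℕ) : PM (Fin n) :=
  if h : i < n ∧ j < n then cj X ⟨i, h.1⟩ ⟨j, h.2⟩ else X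

private theorem cjN_cjN (X : PM (Fin n)) (i j : ℕ) : cjN (cjN X i j) i j = X := by
  unfold cjN
  split_ifs
  · exact cj_cj _ _ _
  · rfl

private theorem sum_cjN (i j : ℕ) (G : PM (Fin n) → ℝ) : ∑ Y, G (cjN Y i j) = ∑ Y, G Y :=
  Equiv.sum_comp (Function.Involutive.toPerm (fun Y => cjN Y i j) fun Y => cjN_cjN Y i j) G

private noncomputable def law (X : PM (Fin n)) : ℕ → PM (Fin n) → ℝ
  | 0, Y => if Y = X then 1 else 0
  | i + 1, Y => (∑ j ∈ range (i + 1), law X i (cjN Y i j)) / (i + 1 : ℕ)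

private theorem law_dual (f : PM (Fin n) → ℝ) (X : PM (Fin n)) (k i : ℕ) :
    ∑ Y, law X i Y * fy f k i Y = ∑ Y, law X (i + k) Y * f Y := by
  induction k generalizing i with
  | zero => rfl
  | succ k ih =>
    rw [show i + (k + 1) = i + 1 + k by omega, ← ih]
    calc ∑ Y, law X i Y * fy f (k + 1) i Y
        = (∑ j ∈ range (i + 1), ∑ Y, law X i Y * fy f k (i + 1) (cjN Y i j)) / (i + 1 : ℕ) := by
          rw [sum_comm, sum_div]
          refine sum_congr rfl fun Y _ => ?_
          rw [← mul_sum, mul_div_assoc]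
          rfl
      _ = (∑ j ∈ range (i + 1), ∑ Y, law X i (cjN Y i j) * fy f k (i + 1) Y) / (i + 1 : ℕ) := by
          congr 1
          refine sum_congr rfl fun j _ => ?_
          rw [← sum_cjN i j fun Y => law X i (cjN Y i j) * fy f k (i + 1) Y]
          simp only [cjN_cjN]
      _ = _ := by
          rw [sum_comm, sum_div]
          refine sum_congr rfl fun Y _ => ?_
          rw [← sum_mul, mul_div_right_comm]
          rfl

private theorem law_sum (X : PM (Fin n)) (i : ℕ) : ∑ Y, law X i Y = 1 := by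
  induction i with
  | zero => simp [law]
  | succ i ih =>
    simp only [law]
    rw [← sum_div, sum_comm, sum_congr rfl fun j _ => (sum_cjN i j (law X i)).trans ih]
    simp only [sum_const, card_range, nsmul_eq_mul, mul_one]
    exact div_self (by positivity)

private theorem sum_range_cjN {i : ℕ} (hi : i < n) (G : PM (Fin n) → ℝ) (Y : PM (Fin n)) :
    ∑ j ∈ range (i + 1), G (cjN Y i j) =
      ∑ j : Fin n, if j.val ≤ i then G (act (Equiv.swap ⟨i, hi⟩ j) Y) else 0 := by
  have h1 : ∑ j : Fin n, (if j.val ≤ i then G (act (Equiv.swap ⟨i, hi⟩ j) Y) else 0) =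
      ∑ j : Fin n, (fun j : ℕ => if j ≤ i then G (cjN Y i j) else 0) j := by
    refine sum_congr rfl fun j _ => ?_
    simp only [cjN, act_swap, dif_pos (And.intro hi j.2)]
  rw [h1, Fin.sum_univ_eq_sum_range (fun j : ℕ => if j ≤ i then G (cjN Y i j) else 0) n, ← sum_filter]
  congr 1
  ext j
  simp only [mem_range, mem_filter]
  omega

private theorem law_inv (X : PM (Fin n)) (i : ℕ) (hi : i ≤ n) (σ : Equiv.Perm (Fin n))
    (hσ : ∀ v : Fin n, i ≤ v.val → σ v = v) (Y : PM (Fin n)) : law X i (act σ Y) = law X i Y := by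
  induction i generalizing σ Y with
  | zero =>
    have : σ = 1 := Equiv.ext fun v => hσ v (Nat.zero_le _)
    rw [this, act_one]
  | succ i ih =>
    simp only [law]
    congr 1
    rw [sum_range_cjN hi, sum_range_cjN hi, ← Equiv.sum_comp σ]
    refine sum_congr rfl fun j _ => ?_
    have h1 : (σ j).val ≤ i ↔ j.val ≤ i := by
      constructor
      · intro h
        by_contra hn
        rw [hσ j (by omega)] at h
        exact hn h
      · intro h
        by_contra hn
        have := σ.injective (hσ (σ j) (by omega))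
        rw [this] at hn
        exact hn h
    simp only [h1]
    split_ifs with hj
    · have h2 : Equiv.swap ⟨i, hi⟩ (σ j) * σ =
          (Equiv.swap ⟨i, hi⟩ (σ j) * σ * Equiv.swap ⟨i, hi⟩ j) * Equiv.swap ⟨i, hi⟩ j := by
        rw [mul_assoc _ (Equiv.swap _ j), Equiv.swap_mul_self, mul_one]
      rw [← act_mul, h2, act_mul]
      refine ih (by omega) _ (fun v hv => ?_) _
      simp only [Equiv.Perm.mul_apply]
      rcases hv.eq_or_lt with e | e
      · have : v = ⟨i, hi⟩ := Fin.ext e.symm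
        rw [this, Equiv.swap_apply_left, Equiv.swap_apply_right]
      · have a1 : v ≠ ⟨i, hi⟩ := fun h => by rw [h] at e; exact lt_irrefl _ e
        have a2 : v ≠ j := fun h => by rw [h] at e; omega
        have a3 : v ≠ σ j := fun h => by rw [h] at e; omega
        rw [Equiv.swap_apply_of_ne_of_ne a1 a2, hσ v e, Equiv.swap_apply_of_ne_of_ne a1 a3]
    · rfl

theorem fy_unif (f : PM (Fin n) → ℝ) (X : PM (Fin n)) : fy f n 0 X = (∑ Y, f Y) / Fintype.card (PM (Fin n)) := by
  have h1 := law_dual f X n 0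
  have h2 : ∑ Y, law X 0 Y * fy f n 0 Y = fy f n 0 X := by simp [law]
  have h3 : ∀ Y, law X n Y = law X n X := fun Y => cj_trans (fun Z a b => by
    rw [← act_swap]
    exact law_inv X n le_rfl _ (fun v hv => absurd v.2 (by omega)) Z) Y X
  have h4 := law_sum X n
  simp only [h3, sum_const, card_univ, nsmul_eq_mul] at h4
  have h5 : (0 : ℝ) < Fintype.card (PM (Fin n)) := by
    exact_mod_cast Fintype.card_pos_iff.2 ⟨X⟩
  rw [← h2, h1, zero_add]
  simp only [h3]
  rw [← mul_sum, eq_div_iff h5.ne', mul_right_comm, mul_comm (law X n X), h4, one_mul]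

theorem X0_mem (h : Even n) : ∃ X : PM (Fin n), X0 n = encM X := by
  obtain ⟨k, hk⟩ := h
  refine ⟨⟨fun v => if h : v.val % 2 = 0 then ⟨v.val + 1, by omega⟩ else ⟨v.val - 1, by omega⟩, fun v => ?_⟩, ?_⟩
  · by_cases hv : v.val % 2 = 0
    · have h2 : ¬ (v.val + 1) % 2 = 0 := by omega
      simp only [hv, h2, dite_true, dite_false]
      exact ⟨Fin.ext (by simp), fun e => by have := congrArg Fin.val e; simp at this⟩
    · have h2 : (v.val - 1) % 2 = 0 := by omega
      simp only [hv, h2, dite_true, dite_false]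
      exact ⟨Fin.ext (by simp only; omega), fun e => by have := congrArg Fin.val e; simp only at this; omega⟩
  · unfold X0 encM
    refine List.ext_getElem (by simp) fun i h1 h2 => ?_
    simp only [List.getElem_map, List.getElem_range, List.getElem_ofFn]
    split_ifs <;> rfl

private theorem cjL_cjN (X : PM (Fin n)) {i j : ℕ} (hi : i < n) (hj : j < n) :
    cjL n (encM X) i j = encM (cjN X i j) := by
  unfold cjN
  rw [dif_pos ⟨hi, hj⟩]
  exact cjL_enc X ⟨i, hi⟩ ⟨j, hj⟩

theorem gen1_mem (h : Even n) (t : List Bool) : ∃ X : PM (Fin n), gen1 n s t = encM X := by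
  have h1 := runL_inv (genS n) (BB s) (fun i z => z.1 = i ∧ (i ≤ n → ∃ X : PM (Fin n), z.2 = encM X))
    (fun i z l ⟨e, hz⟩ => ⟨by simp [genS, e], fun hi => by
      obtain ⟨X, hX⟩ := hz (by omega)
      have : ofBits l % (i + 1) < i + 1 := Nat.mod_lt (ofBits l) (Nat.succ_pos i)
      refine ⟨cjN X i (ofBits l % (i + 1)), ?_⟩
      simp only [genS, e, hX]
      exact cjL_cjN X hi (by omega)⟩) n (0, X0 n) ⟨rfl, fun _ => X0_mem h⟩ t
  exact h1.2 le_rfl

private theorem Kop_mem01 {σ : Type} (step : σ → List Bool → σ) (seg : ℕ) {g : σ → ℝ} (hg : ∀ x, 0 ≤ g x ∧ g x ≤ 1)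
    (k : ℕ) (x : σ) : 0 ≤ (Kop step seg)^[k] g x ∧ (Kop step seg)^[k] g x ≤ 1 := by
  induction k generalizing x with
  | zero => exact hg x
  | succ k ih =>
    rw [Function.iterate_succ_apply']
    exact ⟨Ex_nonneg fun l _ => (ih _).1, Ex_le fun l _ => (ih _).2⟩

private theorem gen_fy (hn : n ≤ s) {F : List ℕ → ℝ} (hF : ∀ l, 0 ≤ F l ∧ F l ≤ 1) (k i : ℕ) (hik : i + k ≤ n)
    (X : PM (Fin n)) : |(Kop (genS n) (BB s))^[k] (fun z => F z.2) (i, encM X) - fy (fun Y => F (encM Y)) k i X| ≤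
      k * (s / 2 ^ BB s) := by
  induction k generalizing i X with
  | zero => simp [fy]
  | succ k ih =>
    rw [Function.iterate_succ_apply']
    set G := (Kop (genS n) (BB s))^[k] (fun z : ℕ × List ℕ => F z.2) with hG
    have h1 := Ex_mod (Nat.succ_pos i) (BB s) (f := fun j => G (i + 1, cjL n (encM X) i j))
      fun j => Kop_mem01 _ _ (fun z => hF z.2) k _
    have h2 : ((i + 1 : ℕ) : ℝ) / 2 ^ BB s ≤ s / 2 ^ BB s :=
      div_le_div_of_nonneg_right (by exact_mod_cast (by omega : i + 1 ≤ s)) (by positivity)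
    have hpos : (0 : ℝ) < (i + 1 : ℕ) := by positivity
    have h3 : |(∑ j ∈ range (i + 1), G (i + 1, cjL n (encM X) i j)) / (i + 1 : ℕ) -
        fy (fun Y => F (encM Y)) (k + 1) i X| ≤ k * (s / 2 ^ BB s) := by
      change |_ - (∑ j ∈ range (i + 1), fy (fun Y => F (encM Y)) k (i + 1) (cjN X i j)) / (i + 1 : ℕ)| ≤ _
      rw [← sub_div, ← sum_sub_distrib, abs_div, abs_of_pos hpos, div_le_iff₀ hpos]
      refine (abs_sum_le_sum_abs _ _).trans ((sum_le_sum (g := fun _ => k * (s / 2 ^ BB s : ℝ))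
        fun j hj => ?_).trans (by simp [mul_comm]))
      rw [cjL_cjN X (by omega) (by have := mem_range.1 hj; omega)]
      exact ih (i + 1) (by omega) _
    have h4 : Kop (genS n) (BB s) G (i, encM X) =
        Ex (BB s) fun l => G (i + 1, cjL n (encM X) i (ofBits l % (i + 1))) := rfl
    rw [h4]
    rw [abs_le] at h1 h3 ⊢
    simp only [Nat.succ_eq_add_one] at h1
    push_cast at h1 h2 h3 ⊢
    constructor <;> linarith [h1.1, h1.2, h3.1, h3.2]

theorem gen1_law (h : Even n) (hn : n ≤ s) {F : List ℕ → ℝ} (hF : ∀ l, 0 ≤ F l ∧ F l ≤ 1) :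
    |Ex (s * BB s) (fun t => F (gen1 n s t)) - (∑ Y : PM (Fin n), F (encM Y)) / Fintype.card (PM (Fin n))| ≤
      s * s / 2 ^ BB s := by
  obtain ⟨X, hX⟩ := X0_mem h
  unfold gen1
  rw [Ex_runL (genS n) (BB s) n (s * BB s) (Nat.mul_le_mul_right _ hn) (fun z => F z.2), hX,
    ← fy_unif (fun Y => F (encM Y)) X]
  refine (gen_fy hn hF n 0 (by omega) X).trans ?_
  rw [mul_div_assoc]
  exact mul_le_mul_of_nonneg_right (by exact_mod_cast hn) (by positivity)

theorem draws_law {X β : Type} [Fintype X] [DecidableEq X] {μ : X → ℝ} (hμ : Pr μ) (e : X → β) (g : List Bool → β)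
    (seg : ℕ) {ε : ℝ}
    (hg : ∀ F : β → ℝ, (∀ y, 0 ≤ F y ∧ F y ≤ 1) → |Ex seg (fun t => F (g t)) - mn μ (fun x => F (e x))| ≤ ε)
    (m len : ℕ) (hl : m * seg ≤ len) (F : List β → ℝ) (hF : ∀ y, 0 ≤ F y ∧ F y ≤ 1) :
    |Ex len (fun t => F (draws g seg m t)) - mn (pw μ) (fun M : Fin m → X => F (List.ofFn fun i => e (M i)))| ≤ m * ε := by
  induction m generalizing F with
  | zero =>
    have h1 : Ex len (fun t => F (draws g seg 0 t)) = F [] := Ex_const len (F [])
    rw [h1]
    simp [mn, pw]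
  | succ m ih =>
    have hl' : m * seg ≤ len := le_trans (Nat.mul_le_mul_right _ (Nat.le_succ m)) hl
    set F' : List β → ℝ := fun L => mn μ fun x => F (e x :: L) with hF'
    have hF'01 : ∀ L, 0 ≤ F' L ∧ F' L ≤ 1 := fun L =>
      ⟨sum_nonneg fun x _ => mul_nonneg (hμ.pos x).le (hF _).1, by
        rw [← hμ.total]
        exact sum_le_sum fun x _ => mul_le_of_le_one_right (hμ.pos x).le (hF _).2⟩
    have h1 := ih hl' F' hF'01
    have h2 : Ex len (fun t => F (draws g seg (m + 1) t)) =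
        Ex len (fun t => Ex seg fun l => F (g l :: draws g seg m t)) := by
      unfold draws
      rw [Ex_runL _ seg (m + 1) len hl F, Function.iterate_succ_apply, ← Ex_runL _ seg m len hl']
      rfl
    have h3 : mn (pw μ) (fun M : Fin (m + 1) → X => F (List.ofFn fun i => e (M i))) =
        mn (pw μ) (fun M : Fin m → X => F' (List.ofFn fun i => e (M i))) := by
      simp only [hF', mn]
      rw [← (Fin.consEquiv fun _ : Fin (m + 1) => X).sum_comp, Fintype.sum_prod_type, sum_comm]
      refine sum_congr rfl fun M _ => ?_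
      rw [mul_sum]
      refine sum_congr rfl fun x _ => ?_
      simp only [pw, Fin.consEquiv_apply, Fin.prod_univ_succ, List.ofFn_succ, Fin.cons_zero, Fin.cons_succ]
      ring
    have h4 : |Ex len (fun t => Ex seg fun l => F (g l :: draws g seg m t)) -
        Ex len (fun t => F' (draws g seg m t))| ≤ ε := by
      rw [← Ex_sub]
      exact (abs_Ex_le _ _).trans (Ex_le fun t _ => hg (fun y => F (y :: draws g seg m t)) fun y => hF _)
    rw [h2, h3]
    rw [abs_le] at h1 h4 ⊢
    push_cast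
    constructor <;> linarith [h1.1, h1.2, h4.1, h4.2]

theorem genP_mem (h : Even n) (t : List Bool) : ∃ M : Fin (rr s) → PM (Fin n), genP n s t = encP M := by
  have h1 : (genP n s t).length = rr s := draws_length _ _ _ _
  have h2 : ∀ i : Fin (rr s), ∃ X : PM (Fin n), (genP n s t)[i.val]'(by rw [h1]; exact i.2) = encM X := by
    intro i
    obtain ⟨l, hl⟩ := mem_draws (List.getElem_mem (l := genP n s t) (by rw [h1]; exact i.2))
    obtain ⟨X, hX⟩ := gen1_mem (s := s) h l
    exact ⟨X, hl.trans hX⟩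
  choose M hM using h2
  refine ⟨M, List.ext_getElem (by simp [h1, encP]) fun i a1 a2 => ?_⟩
  simp only [encP, List.getElem_ofFn]
  exact hM ⟨i, h1 ▸ a1⟩

theorem genP_law (h : Even n) (hn : n ≤ s) (hs : 100 ≤ s) {F : List (List ℕ) → ℝ} (hF : ∀ l, 0 ≤ F l ∧ F l ≤ 1) :
    |Ex (glen s) (fun t => F (genP n s t)) -
      mn (pw (mu (lA n s []))) (fun M : Fin (rr s) → PM (Fin n) => F (encP M))| ≤ 1 / (s : ℝ) ^ 10 := by
  obtain ⟨X, -⟩ := X0_mem h
  haveI : Nonempty (PM (Fin n)) := ⟨X⟩
  have hW := wt_lA (n := n) (s := s) []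
  have hc : (0 : ℝ) < Fintype.card (PM (Fin n)) := by exact_mod_cast Fintype.card_pos
  have h1 : ∀ Y, wt (lA n s []) Y = wt (lA n s []) X := fun Y => by
    simp only [wt, lA, lw, PA_nil]
  have h2 : ∀ Y, mu (lA n s []) Y = 1 / Fintype.card (PM (Fin n)) := fun Y => by
    have := (wt_pos hW X).ne'
    unfold mu ZZ
    simp only [h1, sum_const, card_univ, nsmul_eq_mul]
    field_simp
  refine (draws_law (ε := s * s / 2 ^ BB s) ⟨mu_pos hW, sum_mu hW⟩ encM (gen1 n s) (s * BB s) (fun G hG => ?_)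
    (rr s) (glen s) le_rfl F hF).trans (err_gen hs)
  have h3 : mn (mu (lA n s [])) (fun x => G (encM x)) = (∑ Y : PM (Fin n), G (encM Y)) / Fintype.card (PM (Fin n)) := by
    simp only [mn, h2]
    rw [← mul_sum]
    ring
  rw [h3]
  exact gen1_law h hn hG

end Crest.Agent.R304
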