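import Crest.Agent.R304.Edm
import Crest.Agent.R304.Lam
import Crest.Prelude.Def_MatchingPolytope

/-!
# R304: the polytope of the statement

PLAN.  `mem_poly`: (→) the set of `x` with a law is convex (`Law.mix`) and contains the indicators (`law_single`),
`convexHull_min`.  (←) `x = ∑ M, p M • pmIndicator M` over the `M` with `p M ≠ 0`; `Convex.sum_mem`.
`face_dim`: `Law.feas`, `dir_space`, `edmonds`; `H ≤ span (pmDirections ..)`, `Submodule.finrank_mono`.
-/

set_option autoImplicit false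
open Finset Crest.Matchings

namespace Crest.Agent.R304

theorem mem_poly {v k : ℕ} (ends : Fin k → Fin v × Fin v) (x : Fin k → ℝ) :
    x ∈ pmPolytope ends ↔ ∃ p, Law ends univ p x := by
  constructor
  · intro hx
    refine convexHull_min (t := {x | ∃ p, Law ends univ p x}) ?_ ?_ hx
    · rintro _ ⟨M, hM, rfl⟩
      exact ⟨_, law_single fun w _ => hM w⟩
    · rintro x ⟨p, hp⟩ y ⟨q, hq⟩ a b ha hb hab
      exact ⟨_, hp.mix hq ha hb hab⟩
  · rintro ⟨p, hp⟩
    have e : x = ∑ M ∈ univ.filter (fun M => p M ≠ 0), p M • pmIndicator M := by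
      funext e
      rw [← hp.marg, mrg_eq, Finset.sum_apply, sum_filter]
      refine sum_congr rfl fun M _ => ?_
      by_cases h : p M = 0 <;> simp [h, chi, pmIndicator]
    rw [e]
    refine (convex_convexHull ℝ _).sum_mem (fun M _ => hp.nonneg M) ?_ fun M hM => ?_
    · rw [sum_filter_ne_zero, hp.total]
    · exact subset_convexHull ℝ _ ⟨M, fun w => hp.pm M (mem_filter.1 hM).2 w (mem_univ _), rfl⟩

theorem face_dim (m : ℕ) (hm : 1 ≤ m) (k : ℕ)
    (ends : Fin k → Fin (2 * m) × Fin (2 * m)) (hends : ∀ e, (ends e).1 ≠ (ends e).2)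
    (x : Fin k → ℝ) (hx : x ∈ pmPolytope ends) :
    ((Finset.univ.filter fun e => 0 < x e).card : ℤ) - (pmFaceDim ends x : ℤ) ≤ 3 * (m : ℤ) - 2 := by
  obtain ⟨p, hp⟩ := (mem_poly ends x).1 hx
  have hf : Feas ends univ x := hp.feas fun e _ => ⟨mem_univ _, mem_univ _, hends e⟩
  obtain ⟨H, hH, hH'⟩ := dir_space hf ⟨⟨0, by omega⟩, mem_univ _⟩
  have h1 : Module.finrank ℝ H ≤ pmFaceDim ends x := by
    refine Submodule.finrank_mono fun g hg => Submodule.subset_span ?_
    obtain ⟨-, ε, hε, h⟩ := hH' g hg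
    exact ⟨ε, hε, fun t ht => (mem_poly ends _).2 (edmonds (h t ht))⟩
  have h2 : (univ.filter fun e => 0 < x e) = univ.filter fun e => x e ≠ 0 :=
    filter_congr fun e _ => ⟨fun h => h.ne', fun h => (hf.nonneg e).lt_of_ne' h⟩
  rw [card_univ, Fintype.card_fin] at hH
  rw [h2]
  omega

end Crest.Agent.R304
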