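import Crest.Agent.R304.Poly

/-!
# R304: laminar families of tight odd sets and the space of feasible directions

PLAN.  `lam_card`: prove `2 |L| + #(maximal members of L) ≤ 3 |⋃ L|` by induction on `|L|`, removing a maximal member
`A`: the maximal members of `L.erase A` are the other maximal members and the children of `A` (maximal among the members
`⊊ A`).  If the children cover `A` they partition the odd set `A` into odd sets, so their number is odd and `≠ 1`; otherwise
the union loses a point.  (Any other proof is fine.)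
`lam_span`: fix `r ∈ W`, `G = W.erase r`; let `L` be a laminar family of tight odd subsets of `G` of maximal cardinality.
For tight odd `S ⊆ G` strong induction on the number of `A ∈ L` crossing `S` (not nested, not disjoint).  None: `insert S L`
is laminar, so `S ∈ L`.  Otherwise let `A ∈ L` cross `S`; if `|S ∩ A|` is odd use `(S ∩ A, S ∪ A)`, else `(S \ A, A \ S)`;
call the pair `(P,Q)`, both odd.  Termwise `[e cut by P] + [e cut by Q] ≤ [e cut by S] + [e cut by A]`; since
`1 + 1 ≤ cut x P + cut x Q ≤ cut x S + cut x A = 2`, `P, Q` are tight and equality holds for all `e` with `x e ≠ 0`, so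
`cut g P + cut g Q = cut g S + cut g A`.  Members of `L` crossing `P` or `Q` cross `S`, and `A` crosses neither.  If `r ∈ S`
use `W \ S` (`cut_sdiff`, `Feas.even`).
`dir_space`: `H` = kernel of the linear map `g ↦ ((g e)_{x e = 0}, (cut g S)_{S ∈ L})`, rank-nullity
(`LinearMap.finrank_range_add_finrank_ker`); feasibility for small `t`: finitely many strict inequalities stay strict
(`Filter.Eventually` near `0`, `eventually_all_finset`), the tight ones stay tight by `lam_span` (singletons are tight).
`Feas.near`: let `ρ` be such that `ρ ≤ x e` for `x e ≠ 0` and `card E * ρ ≤ cut x S - 1` for non-tight odd `S`.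
-/

set_option autoImplicit false
set_option linter.unusedSectionVars false
open Finset

namespace Crest.Agent.R304

variable {V E : Type} [Fintype V] [DecidableEq V] [Fintype E] [DecidableEq E]

theorem lam_card_big (n : ℕ) : ∀ (G : Finset V) (L : Finset (Finset V)), L.card = n → G.Nonempty →
    (∀ A ∈ L, A ⊆ G) → (∀ A ∈ L, Odd A.card ∧ 3 ≤ A.card) →
    (∀ A ∈ L, ∀ B ∈ L, A ⊆ B ∨ B ⊆ A ∨ Disjoint A B) → 2 * L.card + 1 ≤ G.card := by
  induction n with
  | zero =>
    intro G L hL hG _ _ _
    have := hG.card_pos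
    omega
  | succ n ih =>
    intro G L hL hG hsub hodd hlam
    obtain ⟨B, hB, hmin⟩ := L.exists_min_image card (card_pos.1 (by omega))
    obtain ⟨D, hDB, hD⟩ := exists_subset_card_eq (s := B) (n := 2) (by have := (hodd B hB).2; omega)
    obtain ⟨b, hbB, hbD⟩ : ∃ b ∈ B, b ∉ D := by
      by_contra hc
      push Not at hc
      have := card_le_card (show B ⊆ D from hc)
      have := (hodd B hB).2
      omega
    have hcase : ∀ A ∈ L.erase B, (B ⊆ A ∧ B.card < A.card) ∨ Disjoint A B := by
      intro A hA
      obtain ⟨hne, hA⟩ := mem_erase.1 hA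
      rcases hlam A hA B hB with h | h | h
      · exact absurd (eq_of_subset_of_card_le h (hmin A hA)) hne
      · exact Or.inl ⟨h, card_lt_card (lt_of_le_of_ne h hne.symm)⟩
      · exact Or.inr h
    have hinj : Set.InjOn (fun A : Finset V => A \ D) (L.erase B : Set (Finset V)) := by
      intro A hA A' hA' h
      simp only at h
      rcases hcase A hA with ⟨h1, -⟩ | h1 <;> rcases hcase A' hA' with ⟨h2, -⟩ | h2
      · rw [← sdiff_union_of_subset (hDB.trans h1), h, sdiff_union_of_subset (hDB.trans h2)]
      · have : b ∈ A' \ D := h ▸ mem_sdiff.2 ⟨h1 hbB, hbD⟩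
        exact absurd hbB (disjoint_left.1 h2 (mem_sdiff.1 this).1)
      · have : b ∈ A \ D := h.symm ▸ mem_sdiff.2 ⟨h2 hbB, hbD⟩
        exact absurd hbB (disjoint_left.1 h1 (mem_sdiff.1 this).1)
      · rwa [sdiff_eq_self_of_disjoint (h1.mono_right hDB), sdiff_eq_self_of_disjoint (h2.mono_right hDB)] at h
    have hc : ((L.erase B).image fun A => A \ D).card = n := by
      rw [card_image_of_injOn hinj, card_erase_of_mem hB]
      omega
    have := ih (G \ D) _ hc ⟨b, mem_sdiff.2 ⟨hsub B hB hbB, hbD⟩⟩ ?_ ?_ ?_
    · rw [hc, card_sdiff_of_subset (hDB.trans (hsub B hB))] at this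
      omega
    · intro A hA
      obtain ⟨A', hA', rfl⟩ := mem_image.1 hA
      exact sdiff_subset_sdiff (hsub A' (mem_of_mem_erase hA')) subset_rfl
    · intro A hA
      obtain ⟨A', hA', rfl⟩ := mem_image.1 hA
      obtain ⟨h3, h4⟩ := hodd A' (mem_of_mem_erase hA')
      rcases hcase A' hA' with ⟨h1, h2⟩ | h1
      · obtain ⟨h5, h6⟩ := hodd B hB
        rw [card_sdiff_of_subset (hDB.trans h1), hD]
        rw [Nat.odd_iff] at h3 h5 ⊢
        omega
      · rw [sdiff_eq_self_of_disjoint (h1.mono_right hDB)]
        exact ⟨h3, h4⟩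
    · intro A hA A' hA'
      obtain ⟨A₁, hA₁, rfl⟩ := mem_image.1 hA
      obtain ⟨A₂, hA₂, rfl⟩ := mem_image.1 hA'
      rcases hlam A₁ (mem_of_mem_erase hA₁) A₂ (mem_of_mem_erase hA₂) with h | h | h
      · exact Or.inl (sdiff_subset_sdiff h subset_rfl)
      · exact Or.inr (Or.inl (sdiff_subset_sdiff h subset_rfl))
      · exact Or.inr (Or.inr (h.mono sdiff_subset sdiff_subset))

theorem lam_card (G : Finset V) (hG : G.Nonempty) (L : Finset (Finset V)) (hsub : ∀ A ∈ L, A ⊆ G)
    (hodd : ∀ A ∈ L, Odd A.card) (hlam : ∀ A ∈ L, ∀ B ∈ L, A ⊆ B ∨ B ⊆ A ∨ Disjoint A B) :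
    2 * L.card + 1 ≤ 3 * G.card := by
  have h1 := lam_card_big _ G (L.filter fun A => ¬ A.card = 1) rfl hG (fun A hA => hsub A (mem_filter.1 hA).1)
    (fun A hA => by
      obtain ⟨h1, h2⟩ := mem_filter.1 hA
      have := hodd A h1
      refine ⟨this, ?_⟩
      rw [Nat.odd_iff] at this
      omega)
    (fun A hA B hB => hlam A (mem_filter.1 hA).1 B (mem_filter.1 hB).1)
  have h2 : (L.filter fun A => A.card = 1).card ≤ G.card := by
    have : (L.filter fun A => A.card = 1) ⊆ powersetCard 1 G := fun A hA =>
      mem_powersetCard.2 ⟨hsub A (mem_filter.1 hA).1, (mem_filter.1 hA).2⟩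
    simpa using card_le_card this
  have h3 := card_filter_add_card_filter_not (s := L) (fun A => A.card = 1)
  omega

end Crest.Agent.R304
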