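import Crest.Agent.R304.Lam1

/-!
# R304: tight odd sets are spanned by a laminar family (plan: see `Lam1`)
-/

set_option autoImplicit false
set_option linter.unusedSectionVars false
open Finset

namespace Crest.Agent.R304

variable {V E : Type} [Fintype V] [DecidableEq V] [Fintype E] [DecidableEq E]
variable {ends : E → V × V} {W : Finset V} {x : E → ℝ}

namespace Lam2A

/-- nested or disjoint -/
def Lm (A B : Finset V) : Prop := A ⊆ B ∨ B ⊆ A ∨ Disjoint A B

theorem Lm.symm {A B : Finset V} (h : Lm A B) : Lm B A := by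
  rcases h with h | h | h
  exacts [Or.inr (Or.inl h), Or.inl h, Or.inr (Or.inr h.symm)]

theorem lm_inter {S A B : Finset V} (h1 : Lm S B) (h2 : Lm A B) : Lm (S ∩ A) B := by
  rcases h1 with h1 | h1 | h1
  · exact Or.inl (inter_subset_left.trans h1)
  · rcases h2 with h2 | h2 | h2
    · exact Or.inl (inter_subset_right.trans h2)
    · exact Or.inr (Or.inl (subset_inter h1 h2))
    · exact Or.inr (Or.inr (h2.mono_left inter_subset_right))
  · exact Or.inr (Or.inr (h1.mono_left inter_subset_left))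

theorem lm_union {S A B : Finset V} (h : ¬ Lm S A) (h1 : Lm S B) (h2 : Lm A B) : Lm (S ∪ A) B := by
  rcases h1 with h1 | h1 | h1 <;> rcases h2 with h2 | h2 | h2
  · exact Or.inl (union_subset h1 h2)
  · exact Or.inr (Or.inl (h2.trans subset_union_right))
  · exact absurd (Or.inr (Or.inr (h2.symm.mono_left h1))) h
  · exact Or.inr (Or.inl (h1.trans subset_union_left))
  · exact Or.inr (Or.inl (h1.trans subset_union_left))
  · exact Or.inr (Or.inl (h1.trans subset_union_left))
  · exact absurd (Or.inr (Or.inr (h1.mono_right h2))) h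
  · exact Or.inr (Or.inl (h2.trans subset_union_right))
  · exact Or.inr (Or.inr (disjoint_union_left.2 ⟨h1, h2⟩))

theorem lm_sdiff {S A B : Finset V} (h : ¬ Lm S A) (h1 : Lm S B) (h2 : Lm A B) : Lm (S \ A) B := by
  rcases h1 with h1 | h1 | h1
  · exact Or.inl (sdiff_subset.trans h1)
  · rcases h2 with h2 | h2 | h2
    · exact absurd (Or.inr (Or.inl (h2.trans h1))) h
    · exact Or.inr (Or.inr (sdiff_disjoint.mono_right h2))
    · exact Or.inr (Or.inl (subset_sdiff.2 ⟨h1, h2.symm⟩))
  · exact Or.inr (Or.inr (h1.mono_left sdiff_subset))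

/-- indicator of a cut edge -/
def ind (ends : E → V × V) (e : E) (S : Finset V) : ℝ := if ((ends e).1 ∈ S ↔ (ends e).2 ∈ S) then 0 else 1

theorem cut_eq (g : E → ℝ) (S : Finset V) : cut ends g S = ∑ e, g e * ind ends e S := by
  refine sum_congr rfl fun e _ => ?_
  unfold ind
  split_ifs <;> simp

theorem ind_inter (e : E) (S A : Finset V) : ind ends e (S ∩ A) + ind ends e (S ∪ A) ≤ ind ends e S + ind ends e A := by
  unfold ind
  by_cases h1 : (ends e).1 ∈ S <;> by_cases h2 : (ends e).2 ∈ S <;> by_cases h3 : (ends e).1 ∈ A <;>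
    by_cases h4 : (ends e).2 ∈ A <;> simp [h1, h2, h3, h4]

theorem ind_sdiff (e : E) (S A : Finset V) : ind ends e (S \ A) + ind ends e (A \ S) ≤ ind ends e S + ind ends e A := by
  unfold ind
  by_cases h1 : (ends e).1 ∈ S <;> by_cases h2 : (ends e).2 ∈ S <;> by_cases h3 : (ends e).1 ∈ A <;>
    by_cases h4 : (ends e).2 ∈ A <;> simp [h1, h2, h3, h4]

theorem uncross (hx : ∀ e, 0 ≤ x e) {S A P Q : Finset V}
    (hi : ∀ e, ind ends e P + ind ends e Q ≤ ind ends e S + ind ends e A) (hS : cut ends x S = 1)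
    (hA : cut ends x A = 1) (hP : 1 ≤ cut ends x P) (hQ : 1 ≤ cut ends x Q) :
    cut ends x P = 1 ∧ cut ends x Q = 1 ∧ ∀ g : E → ℝ, (∀ e, x e = 0 → g e = 0) →
      cut ends g P + cut ends g Q = cut ends g S + cut ends g A := by
  have key : ∀ g : E → ℝ, cut ends g S + cut ends g A - (cut ends g P + cut ends g Q) =
      ∑ e, g e * (ind ends e S + ind ends e A - (ind ends e P + ind ends e Q)) := by
    intro g
    simp only [cut_eq, mul_sub, mul_add, sum_sub_distrib, sum_add_distrib]
  have h0 : ∀ e ∈ (univ : Finset E), 0 ≤ x e * (ind ends e S + ind ends e A - (ind ends e P + ind ends e Q)) :=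
    fun e _ => mul_nonneg (hx e) (sub_nonneg.2 (hi e))
  have h1 := sum_nonneg h0
  have h2 := key x
  refine ⟨by linarith, by linarith, fun g hg => ?_⟩
  have h3 := (sum_eq_zero_iff_of_nonneg h0).1 (by linarith)
  have h4 := key g
  rw [sum_eq_zero] at h4
  · linarith
  · intro e he
    rcases mul_eq_zero.1 (h3 e he) with h | h
    · rw [hg e h, zero_mul]
    · rw [h, mul_zero]

end Lam2A

open Lam2A in
theorem lam_span (h : Feas ends W x) (hW : W.Nonempty) :
    ∃ L : Finset (Finset V), 2 * L.card + 4 ≤ 3 * W.card ∧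
      ∀ g : E → ℝ, (∀ e, x e = 0 → g e = 0) → (∀ S ∈ L, cut ends g S = 0) →
        ∀ S ⊆ W, Odd S.card → cut ends x S = 1 → cut ends g S = 0 := by
  classical
  obtain ⟨r, hr⟩ := hW
  have hev := h.even
  have hW2 : 2 ≤ W.card := by
    have := card_pos.2 ⟨r, hr⟩
    rw [Nat.even_iff] at hev
    omega
  set G := W.erase r with hG
  have hGc : G.card = W.card - 1 := card_erase_of_mem hr
  have hGW : G ⊆ W := erase_subset _ _
  let Fam : Finset (Finset (Finset V)) := univ.filter fun L =>
    (∀ A ∈ L, A ⊆ G ∧ Odd A.card ∧ cut ends x A = 1) ∧ ∀ A ∈ L, ∀ B ∈ L, Lm A B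
  obtain ⟨L, hL, hmax⟩ := Fam.exists_max_image card ⟨∅, by simp [Fam]⟩
  obtain ⟨hL1, hL2⟩ := (mem_filter.1 hL).2
  have hcard := lam_card G (card_pos.1 (by omega)) L (fun A hA => (hL1 A hA).1) (fun A hA => (hL1 A hA).2.1) hL2
  refine ⟨L, by omega, fun g hg hgL => ?_⟩
  have key : ∀ (n : ℕ) (S : Finset V), (L.filter fun A => ¬ Lm S A).card = n → S ⊆ G → Odd S.card →
      cut ends x S = 1 → cut ends g S = 0 := by
    intro n
    induction n using Nat.strong_induction_on with
    | _ n ih =>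
    intro S hn hSG hSo hS1
    by_cases hc : ∀ A ∈ L, Lm S A
    · refine hgL S ?_
      by_contra hSL
      have : insert S L ∈ Fam := by
        refine mem_filter.2 ⟨mem_univ _, ?_, ?_⟩
        · intro A hA
          rcases mem_insert.1 hA with rfl | hA
          exacts [⟨hSG, hSo, hS1⟩, hL1 A hA]
        · intro A hA B hB
          rcases mem_insert.1 hA with hA | hA <;> rcases mem_insert.1 hB with hB | hB
          · rw [hA, hB]; exact Or.inl subset_rfl
          · rw [hA]; exact hc B hB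
          · rw [hB]; exact (hc A hA).symm
          · exact hL2 A hA B hB
      have := hmax _ this
      rw [card_insert_of_notMem hSL] at this
      omega
    push Not at hc
    obtain ⟨A, hA, hSA⟩ := hc
    obtain ⟨hAG, hAo, hA1⟩ := hL1 A hA
    have hlt : ∀ P : Finset V, Lm P A → (∀ B ∈ L, Lm S B → Lm P B) → (L.filter fun A => ¬ Lm P A).card < n := by
      intro P h1 h2
      rw [← hn]
      refine card_lt_card ⟨fun B hB => ?_, fun hsub => ?_⟩
      · obtain ⟨hB1, hB2⟩ := mem_filter.1 hB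
        exact mem_filter.2 ⟨hB1, fun h3 => hB2 (h2 B hB1 h3)⟩
      · exact (mem_filter.1 (hsub (mem_filter.2 ⟨hA, hSA⟩))).2 h1
    have c1 := card_inter_add_card_union S A
    have c2 := card_sdiff_add_card_inter S A
    have c3 := card_sdiff_add_card_inter A S
    rw [inter_comm A S] at c3
    have fin : ∀ P Q : Finset V, P ⊆ G → Q ⊆ G → Odd P.card → Odd Q.card →
        (∀ e, ind ends e P + ind ends e Q ≤ ind ends e S + ind ends e A) → Lm P A → Lm Q A →
        (∀ B ∈ L, Lm S B → Lm P B) → (∀ B ∈ L, Lm S B → Lm Q B) → cut ends g S = 0 := by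
      intro P Q hP hQ hPo hQo hi a1 a2 a3 a4
      obtain ⟨u1, u2, u3⟩ := uncross h.nonneg hi hS1 hA1 (h.odd P (hP.trans hGW) hPo) (h.odd Q (hQ.trans hGW) hQo)
      have v1 := ih _ (hlt P a1 a3) P rfl hP hPo u1
      have v2 := ih _ (hlt Q a2 a4) Q rfl hQ hQo u2
      have v3 := u3 g hg
      have v4 := hgL A hA
      linarith
    rw [Nat.odd_iff] at hSo hAo
    by_cases ho : (S ∩ A).card % 2 = 1
    · exact fin (S ∩ A) (S ∪ A) (inter_subset_left.trans hSG) (union_subset hSG hAG) (Nat.odd_iff.2 ho)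
        (Nat.odd_iff.2 (by omega)) (fun e => ind_inter e S A) (Or.inl inter_subset_right)
        (Or.inr (Or.inl subset_union_right)) (fun B hB h1 => lm_inter h1 (hL2 A hA B hB))
        (fun B hB h1 => lm_union hSA h1 (hL2 A hA B hB))
    · exact fin (S \ A) (A \ S) (sdiff_subset.trans hSG) (sdiff_subset.trans hAG) (Nat.odd_iff.2 (by omega))
        (Nat.odd_iff.2 (by omega)) (fun e => ind_sdiff e S A) (Or.inr (Or.inr sdiff_disjoint))
        (Or.inl sdiff_subset) (fun B hB h1 => lm_sdiff hSA h1 (hL2 A hA B hB))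
        (fun B hB h1 => lm_sdiff (fun h2 => hSA h2.symm) (hL2 A hA B hB) h1)
  intro S hSW hSo hS1
  by_cases hrS : r ∈ S
  · have hgs : Supp ends W g := fun e he => h.supp e fun h0 => he (hg e h0)
    rw [← cut_sdiff hgs]
    refine key _ _ rfl (fun v hv => ?_) ?_ (by rw [cut_sdiff h.supp, hS1])
    · exact mem_erase.2 ⟨fun h1 => (mem_sdiff.1 hv).2 (h1 ▸ hrS), (mem_sdiff.1 hv).1⟩
    · have := card_le_card hSW
      rw [card_sdiff_of_subset hSW]
      rw [Nat.odd_iff] at hSo ⊢
      rw [Nat.even_iff] at hev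
      omega
  · exact key _ _ rfl (fun v hv => mem_erase.2 ⟨fun h1 => hrS (h1 ▸ hv), hSW hv⟩) hSo hS1

end Crest.Agent.R304
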