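import Crest.Agent.R304.Close

/-!
# R304: the tuning loop and the final estimate

`ξ = 1/s^10`, `Z = ZZ (lA n s (micro s H))`, the rational of the state estimates `Z / ρ^(n L)`.

PLAN.  `acc_bad`: `pop_close` for `F = ind (¬ Acc)`; under the product law a union bound over the pairs and `cheb_pw` (`est_enc`,
`mn μ (indicator) = xm`), `err_cheb`.  `macro_det`: cases.  Done: nothing changes, the bounds are monotone in `i`.  `nxt = none`: both filtered lists
are empty, so `est ≤ 4d` whenever `fl + S ≤ P`, `xm ≤ 4.1 d` (`xi_small`).  `nxt = some b` from the first list: `up_step`; from the second list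
(the first is empty, so all `xm ≥ 1.9 d`): `down_step`.  `micro s (H ++ [b]) = micro s H ++ replicate S b`, `Sch_append`, `Sch_replicate`, `PA_perm`,
`PA_replicate`.  `ZZ_bp`: with `κ = ρ^(±2S) - 1`, `|κ| ≤ 0.0102` (`theta_mem`), `0 ≤ x ≤ 1`: `(1-ξ)(1 + xκ) ≤ 1 + eκ ≤ (1+ξ)(1 + xκ)` when `|e - x| ≤ ξ`.
`mi_init`: `good_init`, `PA_nil`, `card_PM_fin` (all weights are `ρ^(n L)`).  `tune_bad`: `runL_bad`, `acc_bad`, `macro_det`.
`out_bad`: at `i = T0` the state is done (`Phi_nonneg`, `T0_big`), so `stop` applies and the mean `m` of `fin1` is `≥ 1/4` (`fin1_mean`); `pop_close`,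
`cheb_pw` with `ξ` (`finq_enc`, `fin1_mem`); on the good event the average is within `(1 ± 4ξ) m`; `err_fin`.
`one_bad`: `Ex_split`.  `one_zero`: `popRun_mem`, every `finq` vanishes.  `cntA_spec`: `n = 0` (`numG = 1`), `n` odd (`PM_even`), `numG = 0` (`cntA_zero`),
otherwise `majority`, `median_spec`, `(11/16)^2 ≤ 1/2`.
-/

set_option autoImplicit false
open Finset Crest.Agent.PTime Crest.Agent.R309

namespace Crest.Agent.R304

variable {n s : ℕ} {g : List Bool}

/-- all estimates are accurate -/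
def Acc (n s : ℕ) (H : List Bump) (M : List (List ℕ)) : Prop :=
  ∀ u v : Fin n, u ≠ v → |(est M u v : ℝ) - xm (lA n s (micro s H)) u v| ≤ 1 / (s : ℝ) ^ 10

structure MI (n s : ℕ) (g : List Bool) (i : ℕ) (z : List Bump × ℚ × Bool) : Prop where
  len : z.1.length ≤ i
  sch : Sch n s [] (micro s z.1)
  good : Good s (SS s) (flG (adjA n g) (LL s)) (PA n s (micro s z.1))
  lo : (1 - 1 / (s : ℝ) ^ 10) ^ i * ZZ (lA n s (micro s z.1)) ≤ (z.2.1 : ℝ) * rho (SS s) ^ (n * LL s)
  hi : (z.2.1 : ℝ) * rho (SS s) ^ (n * LL s) ≤ (1 + 1 / (s : ℝ) ^ 10) ^ i * ZZ (lA n s (micro s z.1))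
  dn : z.2.2 = true → ∀ u v : Fin n, u ≠ v → flG (adjA n g) (LL s) u v + SS s ≤ PA n s (micro s z.1) u v →
    xm (lA n s (micro s z.1)) u v ≤ 41 / 10 * dd s
  ph : z.2.2 = false → Phi s (SS s) (PA n s (micro s z.1)) ≤ 2 * s ^ 3 - i * (dd s / 200)

/-- the standing assumptions -/
structure Ok (n s : ℕ) (g : List Bool) : Prop where
  even : Even n
  le : n ≤ s
  big : 100 ≤ s
  symm : ∀ u v : Fin n, adjA n g u v = adjA n g v u

theorem Ok.sz (h : Ok n s g) : Sz (Fin n) s (SS s) := by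
  obtain ⟨X, -⟩ := X0_mem h.even
  have := h.big
  exact ⟨⟨X⟩, by rw [Fintype.card_fin]; exact h.le, h.big, SS_pos (by omega)⟩

namespace MacroA

theorem mn_mono {Y : Type} [Fintype Y] {m : Y → ℝ} (h : Pr m) {f g : Y → ℝ} (hfg : ∀ y, f y ≤ g y) :
    mn m f ≤ mn m g := sum_le_sum fun y _ => mul_le_mul_of_nonneg_left (hfg y) (h.pos y).le

theorem mn_sum {Y ι : Type} [Fintype Y] [Fintype ι] (m : Y → ℝ) (f : ι → Y → ℝ) :
    mn m (fun y => ∑ i, f i y) = ∑ i, mn m (f i) := by
  unfold mn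
  rw [sum_comm]
  exact sum_congr rfl fun y _ => mul_sum _ _ _

theorem mn_ind (ℓ : Fin n → Fin n → ℝ) (u v : Fin n) :
    mn (mu ℓ) (fun X : PM (Fin n) => if X.1 u = v then 1 else 0) = xm ℓ u v := by
  unfold mn xm
  exact sum_congr rfl fun X _ => by simp only [mul_ite, mul_one, mul_zero]

theorem ind_mem (p : Prop) : 0 ≤ ind p ∧ ind p ≤ 1 := ⟨ind_nonneg p, ind_le_one p⟩

theorem ind_mono {p q : Prop} (h : p → q) : ind p ≤ ind q := by
  by_cases hp : p
  · rw [ind_true hp, ind_true (h hp)]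
  · rw [ind_false hp]; exact ind_nonneg q

theorem xi_pos (h : 100 ≤ s) : 0 < 1 / (s : ℝ) ^ 10 := by
  have : (0 : ℝ) < s := by exact_mod_cast (by omega : 0 < s)
  positivity

theorem xi_le (h : 100 ≤ s) : 1 / (s : ℝ) ^ 10 ≤ 1 / 100 := by
  have h1 : (100 : ℝ) ≤ s := by exact_mod_cast h
  exact one_div_le_one_div_of_le (by norm_num) (h1.trans (le_self_pow₀ (by linarith) (by norm_num)))

theorem micro_snoc (H : List Bump) (b : Bump) : micro s (H ++ [b]) = micro s H ++ List.replicate (SS s) b := by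
  unfold micro
  rw [List.flatMap_append, List.flatMap_cons, List.flatMap_nil, List.append_nil]

theorem PA_snoc (H : List Bump) (u v : Fin n) (up : Bool) :
    PA n s (micro s (H ++ [(u.val, v.val, up)])) = bp (PA n s (micro s H)) u v (sgn up * (SS s : ℕ)) := by
  rw [micro_snoc, PA_perm List.perm_append_comm, PA_replicate]

theorem fac_cast (M : List (List ℕ)) (u v : ℕ) (up : Bool) :
    ((fac s M (u, v, up) : ℚ) : ℝ) = 1 + (est M u v : ℝ) * (rho (SS s) ^ (2 * (sgn up * (SS s : ℕ))) - 1) := by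
  unfold fac sgn
  rw [← rq_cast]
  generalize SS s = S
  generalize rq s = ρ
  cases up
  · simp only [Bool.false_eq_true, if_false]
    push_cast
    rw [show (2 * (-1 * (S : ℤ))) = -((2 * S : ℕ) : ℤ) by push_cast; ring, zpow_neg, zpow_natCast]
  · simp only [if_true]
    push_cast
    rw [show (2 * (1 * (S : ℤ))) = ((2 * S : ℕ) : ℤ) by push_cast; ring, zpow_natCast]

theorem kap_le {S : ℕ} (hS : 0 < S) (up : Bool) : |rho S ^ (2 * (sgn up * (S : ℕ))) - 1| ≤ 1 / 2 := by
  obtain ⟨h1, h2⟩ := theta_mem hS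
  unfold sgn
  cases up
  · simp only [Bool.false_eq_true, if_false]
    rw [show (2 * (-1 * (S : ℤ))) = -((2 * S : ℕ) : ℤ) by push_cast; ring, zpow_neg, zpow_natCast]
    generalize rho S ^ (2 * S) = θ at h1 h2
    have h3 : θ⁻¹ ≤ 1 := inv_le_one_of_one_le₀ (by linarith)
    have h4 : 1 / 2 ≤ θ⁻¹ := by
      rw [← one_div]; exact one_div_le_one_div_of_le (by linarith) (by linarith)
    rw [abs_le]; constructor <;> linarith
  · simp only [if_true]
    rw [show (2 * (1 * (S : ℤ))) = ((2 * S : ℕ) : ℤ) by push_cast; ring, zpow_natCast]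
    rw [abs_le]; constructor <;> linarith

theorem fac_bd {ξ x e κ : ℝ} (hξ : 0 ≤ ξ) (hx0 : 0 ≤ x) (hx1 : x ≤ 1) (he : |e - x| ≤ ξ) (hκ : |κ| ≤ 1 / 2) :
    0 ≤ 1 + x * κ ∧ (1 - ξ) * (1 + x * κ) ≤ 1 + e * κ ∧ 1 + e * κ ≤ (1 + ξ) * (1 + x * κ) := by
  have h1 : |x * κ| ≤ 1 / 2 := by
    rw [abs_mul, abs_of_nonneg hx0]
    nlinarith [abs_nonneg κ]
  have h2 : |(e - x) * κ| ≤ ξ * (1 / 2) := by
    rw [abs_mul]
    exact mul_le_mul he hκ (abs_nonneg _) hξ
  obtain ⟨h3, h4⟩ := abs_le.1 h1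
  obtain ⟨h5, h6⟩ := abs_le.1 h2
  have h7 : ξ * (1 / 2) ≤ ξ * (1 + x * κ) := mul_le_mul_of_nonneg_left (by linarith) hξ
  refine ⟨by linarith, by nlinarith, by nlinarith⟩

theorem mi_step (h : Ok n s g) {i : ℕ} {H : List Bump} {q : ℚ} (hz : MI n s g i (H, q, false))
    {M : List (List ℕ)} (hM : Acc n s H M) {u v : Fin n} (huv : u ≠ v) (up : Bool)
    (h1 : Good s (SS s) (flG (adjA n g) (LL s)) (bp (PA n s (micro s H)) u v (sgn up * (SS s : ℕ))))
    (h2 : Phi s (SS s) (bp (PA n s (micro s H)) u v (sgn up * (SS s : ℕ))) ≤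
      Phi s (SS s) (PA n s (micro s H)) - dd s / 200)
    (h3 : ∀ j : ℕ, j ≤ SS s → ∀ a b, a ≠ b →
      dd s ≤ xm (lw (rho (SS s)) (bp (PA n s (micro s H)) u v (sgn up * j))) a b) :
    MI n s g (i + 1) (H ++ [(u.val, v.val, up)], q * fac s M (u.val, v.val, up), false) := by
  have hz' := h.sz
  have := hz'.ne
  have hρ : 0 < rho (SS s) := one_pos.trans (one_lt_rho hz'.pos)
  have hZ : ZZ (lA n s (micro s (H ++ [(u.val, v.val, up)]))) = ZZ (lA n s (micro s H)) *
      (1 + xm (lA n s (micro s H)) u v * (rho (SS s) ^ (2 * (sgn up * (SS s : ℕ))) - 1)) := by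
    unfold lA
    rw [PA_snoc, ZZ_bp hρ huv]
  have hξ := xi_pos h.big
  have hξ' := xi_le h.big
  obtain ⟨f0, f1, f2⟩ := fac_bd hξ.le (xm_nonneg (wt_lA (micro s H)) u v) (xm_le_one (wt_lA (micro s H)) u v)
    (hM u v huv) (kap_le hz'.pos up)
  have hZ0 : 0 < ZZ (lA n s (micro s H)) := ZZ_pos (wt_lA _)
  have lo := hz.lo
  have hi := hz.hi
  have l0 : 0 ≤ (1 - 1 / (s : ℝ) ^ 10) ^ i * ZZ (lA n s (micro s H)) :=
    mul_nonneg (pow_nonneg (by linarith) _) hZ0.le
  have l1 : 0 ≤ (1 - 1 / (s : ℝ) ^ 10) * (1 + xm (lA n s (micro s H)) u v *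
      (rho (SS s) ^ (2 * (sgn up * (SS s : ℕ))) - 1)) := mul_nonneg (by linarith) f0
  refine ⟨?_, ?_, ?_, ?_, ?_, fun hc => absurd hc (by simp), fun _ => ?_⟩
  · have := hz.len
    simp only [List.length_append, List.length_singleton] at this ⊢
    omega
  · simp only
    rw [micro_snoc, Sch_append]
    refine ⟨hz.sch, Sch_replicate _ huv up _ ?_⟩
    rw [List.append_nil, PA_perm (List.reverse_perm _)]
    exact h3
  · simp only
    rw [PA_snoc]; exact h1
  · simp only at lo ⊢
    rw [hZ, Rat.cast_mul, fac_cast]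
    calc _ = ((1 - 1 / (s : ℝ) ^ 10) ^ i * ZZ (lA n s (micro s H))) * ((1 - 1 / (s : ℝ) ^ 10) *
          (1 + xm (lA n s (micro s H)) u v * (rho (SS s) ^ (2 * (sgn up * (SS s : ℕ))) - 1))) := by
          rw [pow_succ, mul_mul_mul_comm]
      _ ≤ _ := mul_le_mul lo f1 l1 (l0.trans lo)
      _ = _ := mul_right_comm _ _ _
  · simp only at hi ⊢
    rw [hZ, Rat.cast_mul, fac_cast]
    calc _ = ((q : ℝ) * rho (SS s) ^ (n * LL s)) *
          (1 + (est M u v : ℝ) * (rho (SS s) ^ (2 * (sgn up * (SS s : ℕ))) - 1)) := mul_right_comm _ _ _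
      _ ≤ _ := mul_le_mul hi f2 (l1.trans f1) (l0.trans (lo.trans hi))
      _ = _ := by rw [pow_succ _ i, mul_mul_mul_comm]
  · have := hz.ph rfl
    simp only at this ⊢
    rw [PA_snoc]
    push_cast
    linarith

theorem mi_mono (h : Ok n s g) {i : ℕ} {H : List Bump} {q : ℚ} {c : Bool} (hz : MI n s g i (H, q, c))
    (hd : ∀ u v : Fin n, u ≠ v → flG (adjA n g) (LL s) u v + SS s ≤ PA n s (micro s H) u v →
      xm (lA n s (micro s H)) u v ≤ 41 / 10 * dd s) : MI n s g (i + 1) (H, q, true) := by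
  have := h.sz.ne
  have hξ := xi_pos h.big
  have hξ' := xi_le h.big
  have hZ0 : 0 < ZZ (lA n s (micro s H)) := ZZ_pos (wt_lA _)
  refine ⟨hz.len.trans (Nat.le_succ _), hz.sch, hz.good, le_trans ?_ hz.lo, le_trans hz.hi ?_, fun _ => hd,
    fun hc => absurd hc (by simp)⟩
  · exact mul_le_mul_of_nonneg_right (pow_le_pow_of_le_one (by linarith) (by linarith) (Nat.le_succ _)) hZ0.le
  · exact mul_le_mul_of_nonneg_right (pow_le_pow_right₀ (by linarith) (Nat.le_succ _)) hZ0.le

theorem fl_sym (h : Ok n s g) : Sym (flG (adjA n g) (LL s)) := fun u v => by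
  unfold flG; rw [h.symm]

theorem numG_zero : numG (adjA 0 g) = 1 := by
  unfold numG
  rw [filter_true_of_mem fun X _ v => v.elim0, card_univ]
  exact card_PM_fin 0

theorem numG_odd (h : ¬ Even n) : numG (adjA n g) = 0 := by
  unfold numG
  rw [card_eq_zero, eq_empty_iff_forall_notMem]
  exact fun X _ => h (PM_even X)

end MacroA

open MacroA

theorem acc_bad (h : Ok n s g) {H : List Bump} (hH : H.length ≤ T0 s) (hS : Sch n s [] (micro s H)) :
    Ex (plen s) (fun t => ind (¬ Acc n s H (popRun n s H t))) ≤ 3 / (s : ℝ) ^ 10 := by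
  have := h.sz.ne
  have hξ := xi_pos h.big
  have h1 := pop_close h.even h.le h.big hH hS le_rfl (F := fun l => ind (¬ Acc n s H l)) fun l => ind_mem _
  have hP := pr_mu (n := n) (s := s) (micro s H)
  have h2 : mn (pw (mu (lA n s (micro s H)))) (fun M : Fin (rr s) → PM (Fin n) => ind (¬ Acc n s H (encP M))) ≤
      1 / (s : ℝ) ^ 10 := by
    calc _ ≤ mn (pw (mu (lA n s (micro s H)))) (fun M : Fin (rr s) → PM (Fin n) => ∑ p : Fin n × Fin n,
          if 1 / (s : ℝ) ^ 10 < |S1 (fun X : PM (Fin n) => if X.1 p.1 = p.2 then 1 else 0) M / rr s -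
            mn (mu (lA n s (micro s H))) (fun X : PM (Fin n) => if X.1 p.1 = p.2 then 1 else 0)|
          then 1 else 0) := by
          refine mn_mono hP.pw fun M => ?_
          have n0 : ∀ p ∈ (univ : Finset (Fin n × Fin n)), (0 : ℝ) ≤
              if 1 / (s : ℝ) ^ 10 < |S1 (fun X : PM (Fin n) => if X.1 p.1 = p.2 then 1 else 0) M / rr s -
                mn (mu (lA n s (micro s H))) (fun X : PM (Fin n) => if X.1 p.1 = p.2 then 1 else 0)|
              then 1 else 0 := fun p _ => by split_ifs <;> norm_num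
          by_cases hA : Acc n s H (encP M)
          · rw [ind_false (not_not.2 hA)]; exact sum_nonneg n0
          · rw [ind_true hA]
            unfold Acc at hA
            push Not at hA
            obtain ⟨u, v, -, h3⟩ := hA
            refine le_trans ?_ (single_le_sum n0 (mem_univ (u, v)))
            rw [est_enc, ← mn_ind] at h3
            rw [if_pos h3]
      _ ≤ ∑ _p : Fin n × Fin n, 1 / (rr s * (1 / (s : ℝ) ^ 10) ^ 2) := by
          rw [mn_sum]
          exact sum_le_sum fun p _ => cheb_pw hP (rr_pos s) (fun X => by split_ifs <;> norm_num) hξ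
      _ ≤ (s : ℝ) ^ 2 * (1 / (rr s * (1 / (s : ℝ) ^ 10) ^ 2)) := by
          rw [sum_const, card_univ, Fintype.card_prod, Fintype.card_fin, nsmul_eq_mul]
          refine mul_le_mul_of_nonneg_right ?_ (by positivity)
          rw [sq]
          exact_mod_cast Nat.mul_le_mul h.le h.le
      _ ≤ _ := err_cheb h.big
  have h3 := (abs_le.1 h1).2
  have e : 3 / (s : ℝ) ^ 10 = 2 / (s : ℝ) ^ 10 + 1 / (s : ℝ) ^ 10 := by ring
  linarith

theorem macro_det (h : Ok n s g) {i : ℕ} {z : List Bump × ℚ × Bool} (hz : MI n s g i z) {M : List (List ℕ)}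
    (hM : Acc n s z.1 M) : MI n s g (i + 1) (macroD n s g z M) := by
  obtain ⟨H, q, c⟩ := z
  have hξ := xi_small h.big
  have hup : ∀ (u v : Fin n) (k : ℚ), u ≠ v → est M u v ≤ k * dq s →
      xm (lA n s (micro s H)) u v ≤ (k + 1 / 10) * dd s := by
    intro u v k huv h1
    have h2 : (est M u v : ℝ) ≤ k * dd s := by rw [← dq_cast]; exact_mod_cast h1
    have h3 := (abs_le.1 (hM u v huv)).1
    simp only at h3
    linarith
  have hdn : ∀ (u v : Fin n) (k : ℚ), u ≠ v → k * dq s ≤ est M u v →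
      (k - 1 / 10) * dd s ≤ xm (lA n s (micro s H)) u v := by
    intro u v k huv h1
    have h2 : k * dd s ≤ (est M u v : ℝ) := by rw [← dq_cast]; exact_mod_cast h1
    have h3 := (abs_le.1 (hM u v huv)).2
    simp only at h3
    linarith
  have hprs : ∀ u v : Fin n, u ≠ v → (u.val, v.val) ∈ prs n := fun u v huv =>
    mem_prs.2 ⟨u.2, v.2, fun e => huv (Fin.ext e)⟩
  unfold macroD
  cases c
  swap
  · exact mi_mono h hz (hz.dn rfl)
  simp only [Bool.false_eq_true, if_false]
  cases hn : nxt n s g H M with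
  | none =>
    unfold nxt at hn
    rw [List.head?_eq_none_iff, List.append_eq_nil_iff, List.map_eq_nil_iff, List.map_eq_nil_iff,
      List.filter_eq_nil_iff, List.filter_eq_nil_iff] at hn
    refine mi_mono h hz fun u v huv hf => ?_
    have h1 := hn.2 _ (hprs u v huv)
    rw [decide_eq_true_iff, not_and, not_lt] at h1
    have h2 := hup u v 4 huv (h1 hf)
    push_cast at h2
    linarith
  | some b =>
    unfold nxt at hn
    simp only [Option.elim_some]
    by_cases hE : ((prs n).filter fun e => decide (est M e.1 e.2 < 2 * dq s)) = []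
    · rw [hE, List.map_nil, List.nil_append] at hn
      obtain ⟨e, he, rfl⟩ := List.mem_map.1 (List.mem_of_mem_head? hn)
      rw [List.mem_filter, mem_prs, decide_eq_true_iff] at he
      obtain ⟨a, b⟩ := e
      obtain ⟨⟨ha, hb, hab⟩, hf, h4⟩ := he
      have huv : (⟨a, ha⟩ : Fin n) ≠ ⟨b, hb⟩ := fun e => hab (congrArg Fin.val e)
      rw [List.filter_eq_nil_iff] at hE
      have hall : ∀ u v : Fin n, u ≠ v → 19 / 10 * dd s ≤ xm (lA n s (micro s H)) u v := by
        intro u v huv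
        have h1 := hE _ (hprs u v huv)
        rw [decide_eq_true_iff, not_lt] at h1
        have h2 := hdn u v 2 huv h1
        push_cast at h2
        linarith
      have h5 := hdn _ _ 4 huv h4.le
      push_cast at h5
      obtain ⟨d1, d2, d3⟩ := down_step h.sz (fl_sym h) hz.good huv hall (le_trans (by linarith) h5) hf
      have e1 : ∀ k : ℤ, sgn false * k = -k := fun k => by simp [sgn]
      exact mi_step h hz hM huv false (by rw [e1]; exact d1) (by rw [e1]; exact d2)
        fun j hj => by rw [e1]; exact d3 j hj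
    · rw [List.head?_append_of_ne_nil _ (by rwa [Ne, List.map_eq_nil_iff])] at hn
      obtain ⟨e, he, rfl⟩ := List.mem_map.1 (List.mem_of_mem_head? hn)
      rw [List.mem_filter, mem_prs, decide_eq_true_iff] at he
      obtain ⟨a, b⟩ := e
      obtain ⟨⟨ha, hb, hab⟩, h4⟩ := he
      have huv : (⟨a, ha⟩ : Fin n) ≠ ⟨b, hb⟩ := fun e => hab (congrArg Fin.val e)
      have h5 := hup _ _ 2 huv h4.le
      push_cast at h5
      obtain ⟨d1, d2, d3⟩ := up_step h.sz (fl_sym h) hz.good huv (le_trans h5 (by linarith))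
      have e1 : ∀ k : ℤ, sgn true * k = k := fun k => by simp [sgn]
      exact mi_step h hz hM huv true (by rw [e1]; exact d1) (by rw [e1]; exact d2)
        fun j hj => by rw [e1]; exact d3 j hj

theorem mi_init (h : Ok n s g) : MI n s g 0 ([], Z0 n, false) := by
  have e0 : micro s [] = [] := rfl
  obtain ⟨g1, g2⟩ := good_init (fl := flG (adjA n g) (LL s)) h.sz fun u v => by
    unfold flG
    split_ifs
    · exact Or.inr rfl
    · exact Or.inl rfl
  have hZ : ZZ (lA n s []) = (Z0 n : ℝ) * rho (SS s) ^ (n * LL s) := by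
    have h1 : ∀ X : PM (Fin n), wt (lA n s []) X = rho (SS s) ^ (n * LL s) := by
      intro X
      unfold wt lA lw
      rw [PA_nil]
      simp only
      rw [prod_const, card_univ, Fintype.card_fin, zpow_natCast, ← pow_mul, mul_comm n]
      rfl
    unfold ZZ
    rw [sum_congr rfl fun X _ => h1 X, sum_const, card_univ, nsmul_eq_mul]
    congr 1
    obtain ⟨m, rfl⟩ := h.even.two_dvd
    rw [card_PM_fin, Z0, Nat.mul_div_cancel_left _ (by norm_num : 0 < 2), Rat.cast_natCast]
  refine ⟨le_rfl, trivial, ?_, ?_, ?_, fun hc => absurd hc (by simp), fun _ => ?_⟩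
  · simp only
    rw [e0, PA_nil]; exact g1
  · simp only
    rw [e0, hZ, pow_zero, one_mul]
  · simp only
    rw [e0, hZ, pow_zero, one_mul]
  · simp only
    rw [e0, PA_nil, Nat.cast_zero, zero_mul, sub_zero]; exact g2

theorem tune_bad (h : Ok n s g) : Ex (T0 s * plen s) (fun t => ind (¬ MI n s g (T0 s) (tune n s g t))) ≤ 1 / 16 := by
  have h1 : (100 : ℝ) ≤ s := by exact_mod_cast h.big
  refine (runL_bad (macroS n s g) (plen s) (T0 s) _ le_rfl (MI n s g) (3 / (s : ℝ) ^ 10) (by positivity)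
    (fun i hi x hx => ?_) _ (mi_init h)).trans ?_
  · refine le_trans (Ex_mono fun l _ => ind_mono fun h2 h3 => h2 (macro_det h hx h3))
      (acc_bad h (hx.len.trans hi.le) hx.sch)
  · unfold T0
    push_cast
    have hx : (0 : ℝ) < s := by linarith
    rw [show (s : ℝ) ^ 8 * (3 / (s : ℝ) ^ 10) = 3 / (s : ℝ) ^ 2 by field_simp,
      div_le_div_iff₀ (by positivity) (by norm_num)]
    nlinarith

theorem out_bad (h : Ok n s g) (hN : 1 ≤ numG (adjA n g)) {z : List Bump × ℚ × Bool} (hz : MI n s g (T0 s) z) :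
    Ex (plen s) (fun l => ind (¬ ((1 - 1 / (s : ℚ)) * numG (adjA n g) ≤ outD n s g z l ∧
      outD n s g z l ≤ (1 + 1 / (s : ℚ)) * numG (adjA n g)))) ≤ 1 / 16 := by
  have hsz := h.sz
  have := hsz.ne
  have hξ := xi_pos h.big
  have hξ' := xi_le h.big
  have h100 : (100 : ℝ) ≤ s := by exact_mod_cast h.big
  have hρ : 0 < rho (SS s) := one_pos.trans (one_lt_rho hsz.pos)
  have hdone : z.2.2 = true := by
    by_contra hc
    have h1 := hz.ph (by simpa using hc)
    have h2 := Phi_nonneg hsz (fun u v => by unfold flG; split_ifs <;> positivity) hz.good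
    have h3 := T0_big h.big
    linarith
  have hst := stop hsz (adjA n g) hz.good (hz.dn hdone) hN
  have hme := fin1_mean hsz (adjA n g) (LL s) hz.good.sym
  rw [Fintype.card_fin] at hst hme
  change ZZ (lA n s (micro s z.1)) ≤ 4 * (rho (SS s) ^ (n * LL s) * _) at hst
  change ZZ (lA n s (micro s z.1)) * mn (mu (lA n s (micro s z.1)))
    (fin1 (adjA n g) (rho (SS s)) (LL s) (PA n s (micro s z.1))) = _ at hme
  have hP := pr_mu (n := n) (s := s) (micro s z.1)
  have hch := cheb_pw hP (rr_pos s) (fin1_mem hsz (adjA n g) hz.good) hξ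
  generalize mn (mu (lA n s (micro s z.1))) (fin1 (adjA n g) (rho (SS s)) (LL s) (PA n s (micro s z.1))) = m
    at hme hch
  have h1 := pop_close h.even h.le h.big hz.len hz.sch le_rfl
    (F := fun l => if 1 / (s : ℝ) ^ 10 < |(((l.map (finq n s g (micro s z.1))).sum : ℚ) : ℝ) / rr s - m|
      then 1 else 0) fun l => by split_ifs <;> norm_num
  simp only [finq_enc] at h1
  have h2 : 1 / (rr s * (1 / (s : ℝ) ^ 10) ^ 2) ≤ 1 / (s : ℝ) ^ 10 :=
    le_trans (le_mul_of_one_le_left (by positivity) (by nlinarith)) (err_cheb h.big)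
  have h3 := (abs_le.1 h1).2
  have e : 2 / (s : ℝ) ^ 10 = 2 * (1 / (s : ℝ) ^ 10) := by ring
  refine le_trans (Ex_mono fun l _ => ?_) (show Ex (plen s) (fun t => if 1 / (s : ℝ) ^ 10 <
    |((((popRun n s z.1 t).map (finq n s g (micro s z.1))).sum : ℚ) : ℝ) / rr s - m| then 1 else 0) ≤ 1 / 16
    by linarith)
  split_ifs with hc
  · exact ind_le_one _
  rw [ind_false (not_not.2 ?_)]
  rw [not_lt, abs_le] at hc
  have hZ0 : 0 < ZZ (lA n s (micro s z.1)) := ZZ_pos (wt_lA _)
  have hA : 0 < rho (SS s) ^ (n * LL s) := pow_pos hρ _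
  have lo := hz.lo
  have hi := hz.hi
  obtain ⟨f1, f2⟩ := err_fin h.big
  have ho : ((outD n s g z l : ℚ) : ℝ) = (z.2.1 : ℝ) *
      (((((popRun n s z.1 l).map (finq n s g (micro s z.1))).sum : ℚ) : ℝ) / rr s) := by
    unfold outD
    rw [Rat.cast_mul, Rat.cast_div, Rat.cast_natCast]
  have e4 : 4 / (s : ℝ) ^ 10 = 4 * (1 / (s : ℝ) ^ 10) := by ring
  rw [e4] at f1 f2
  have hN0 : (0 : ℝ) ≤ numG (adjA n g) := Nat.cast_nonneg _
  have p1 : 0 ≤ (1 - 1 / (s : ℝ) ^ 10) ^ T0 s := pow_nonneg (by linarith) _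
  suffices H : (1 - 1 / (s : ℝ)) * numG (adjA n g) ≤ ((outD n s g z l : ℚ) : ℝ) ∧
      ((outD n s g z l : ℚ) : ℝ) ≤ (1 + 1 / (s : ℝ)) * numG (adjA n g) by
    constructor
    · rw [← Rat.cast_le (K := ℝ)]; push_cast; exact H.1
    · rw [← Rat.cast_le (K := ℝ)]; push_cast; exact H.2
  rw [ho]
  generalize ((((popRun n s z.1 l).map (finq n s g (micro s z.1))).sum : ℚ) : ℝ) / rr s = a at hc ⊢
  generalize (1 - 1 / (s : ℝ) ^ 10) ^ T0 s = α at *
  generalize (1 + 1 / (s : ℝ) ^ 10) ^ T0 s = β at *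
  generalize 1 / (s : ℝ) ^ 10 = ξ at *
  generalize ZZ (lA n s (micro s z.1)) = Z at *
  generalize rho (SS s) ^ (n * LL s) = A at *
  generalize (numG (adjA n g) : ℝ) = N at *
  generalize (z.2.1 : ℝ) = q at *
  have hm : 1 / 4 ≤ m := by
    by_contra hc'
    have : Z * m < Z * (1 / 4) := mul_lt_mul_of_pos_left (not_le.1 hc') hZ0
    linarith
  have a1 : (1 - 4 * ξ) * m ≤ a := by nlinarith [hc.1]
  have a2 : a ≤ (1 + 4 * ξ) * m := by nlinarith [hc.2]
  have a0 : 0 ≤ (1 - 4 * ξ) * m := mul_nonneg (by linarith) (by linarith)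
  have b0 : 0 ≤ α * Z := mul_nonneg p1 hZ0.le
  constructor
  · refine le_of_mul_le_mul_right ?_ hA
    calc (1 - 1 / (s : ℝ)) * N * A = (1 - 1 / (s : ℝ)) * (A * N) := by ring
      _ ≤ α * (1 - 4 * ξ) * (A * N) := mul_le_mul_of_nonneg_right f1 (by positivity)
      _ = (α * Z) * ((1 - 4 * ξ) * m) := by rw [← hme]; ring
      _ ≤ (q * A) * a := mul_le_mul lo a1 a0 (b0.trans lo)
      _ = _ := by ring
  · refine le_of_mul_le_mul_right ?_ hA
    calc q * a * A = (q * A) * a := by ring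
      _ ≤ (β * Z) * ((1 + 4 * ξ) * m) := mul_le_mul hi a2 (a0.trans a1) (b0.trans (lo.trans hi))
      _ = β * (1 + 4 * ξ) * (A * N) := by rw [← hme]; ring
      _ ≤ (1 + 1 / (s : ℝ)) * (A * N) := mul_le_mul_of_nonneg_right f2 (by positivity)
      _ = _ := by ring

theorem one_bad (h : Ok n s g) (hN : 1 ≤ numG (adjA n g)) :
    Ex (olen s) (fun t => ind (¬ ((1 - 1 / (s : ℚ)) * numG (adjA n g) ≤ one n s g t ∧
      one n s g t ≤ (1 + 1 / (s : ℚ)) * numG (adjA n g)))) ≤ 1 / 8 := by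
  have h1 := Ex_split (a := T0 s * plen s) (n := olen s) (Nat.le_add_right _ _) fun l l' =>
    ind (¬ ((1 - 1 / (s : ℚ)) * numG (adjA n g) ≤ outD n s g (tune n s g l) l' ∧
      outD n s g (tune n s g l) l' ≤ (1 + 1 / (s : ℚ)) * numG (adjA n g)))
  rw [show olen s - T0 s * plen s = plen s from Nat.add_sub_cancel_left _ _] at h1
  unfold one
  rw [h1]
  have h2 := tune_bad h
  calc _ ≤ Ex (T0 s * plen s) (fun t => ind (¬ MI n s g (T0 s) (tune n s g t)) + 1 / 16) := by
        refine Ex_mono fun l _ => ?_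
        by_cases hM : MI n s g (T0 s) (tune n s g l)
        · rw [ind_false (not_not.2 hM), zero_add]; exact out_bad h hN hM
        · rw [ind_true hM]
          exact le_trans (Ex_le fun _ _ => ind_le_one _) (by norm_num)
    _ ≤ _ := by rw [Ex_add, Ex_const]; linarith

theorem one_zero (h : Even n) (hN : numG (adjA n g) = 0) (t : List Bool) : one n s g t = 0 := by
  unfold one outD
  generalize tune n s g (t.take (T0 s * plen s)) = z
  obtain ⟨M, hM⟩ := popRun_mem (s := s) h z.1 (t.drop (T0 s * plen s))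
  have h1 := finq_enc (s := s) g (micro s z.1) M
  have h2 : S1 (fin1 (adjA n g) (rho (SS s)) (LL s) (PA n s (micro s z.1))) M = 0 := by
    refine sum_eq_zero fun i _ => if_neg fun hX => ?_
    unfold numG at hN
    exact eq_empty_iff_forall_notMem.1 (card_eq_zero.1 hN) (M i) (by simpa using hX)
  rw [h2, Rat.cast_eq_zero] at h1
  rw [hM, h1, zero_div, mul_zero]

theorem cntA_nonneg (t : List Bool) : 0 ≤ cntA n s g t := by
  unfold cntA
  split_ifs
  · exact zero_le_one
  · exact le_rfl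
  · exact le_max_left _ _

theorem cntA_zero (hs : 0 < s) (hN : numG (adjA n g) = 0) (t : List Bool) : cntA n s g t = 0 := by
  unfold cntA
  split_ifs with h0 h1
  · subst h0
    rw [numG_zero] at hN
    exact absurd hN one_ne_zero
  · rfl
  · have he : Even n := Nat.even_iff.2 (by omega)
    have := median_spec (draws (one n s g) (olen s) (2 * s) t) 0 0 (by
      rw [draws_length, List.countP_eq_zero.2]
      · omega
      · intro y hy
        obtain ⟨l, rfl⟩ := mem_draws hy
        rw [one_zero he hN]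
        simp)
    exact max_eq_left this.2

theorem cntA_spec (hn : n ≤ s) (hs : 100 ≤ s) (hg : ∀ u v : Fin n, adjA n g u v = adjA n g v u) {len : ℕ}
    (hl : clen s ≤ len) :
    Ex len (fun t => ind (¬ ((1 - 1 / (s : ℚ)) * numG (adjA n g) ≤ cntA n s g t ∧
      cntA n s g t ≤ (1 + 1 / (s : ℚ)) * numG (adjA n g)))) ≤ 1 / 2 ^ s := by
  have hs0 : (0 : ℚ) ≤ 1 / (s : ℚ) := by positivity
  by_cases hN : numG (adjA n g) = 0
  · refine Ex_le fun t _ => ?_
    rw [ind_false (not_not.2 ?_)]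
    · positivity
    · rw [cntA_zero (by omega) hN, hN]; simp
  by_cases h0 : n = 0
  · subst h0
    refine Ex_le fun t _ => ?_
    rw [ind_false (not_not.2 ?_)]
    · positivity
    · rw [numG_zero, cntA, if_pos rfl]
      constructor <;> (push_cast; linarith)
  have he : Even n := by
    by_contra hc
    exact hN (numG_odd hc)
  have hok : Ok n s g := ⟨he, hn, hs, hg⟩
  have h1 := majority (one n s g) (olen s) (2 * s) len hl
    (fun y => decide (y < (1 - 1 / (s : ℚ)) * numG (adjA n g) ∨ (1 + 1 / (s : ℚ)) * numG (adjA n g) < y))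
    (le_trans (Ex_mono fun l _ => ind_mono fun h2 h3 => by
      rw [decide_eq_true_iff] at h2
      rcases h2 with h2 | h2
      · exact absurd h3.1 (not_le.2 h2)
      · exact absurd h3.2 (not_le.2 h2)) (one_bad hok (Nat.one_le_iff_ne_zero.2 hN)))
  refine le_trans (Ex_mono fun t _ => ind_mono fun h2 => ?_) (h1.trans ?_)
  · by_contra hc
    apply h2
    have := median_spec (draws (one n s g) (olen s) (2 * s) t) _ _ (by rw [draws_length]; exact not_le.1 hc)
    unfold cntA
    rw [if_neg h0, if_neg (by have := Nat.even_iff.1 he; omega)]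
    exact ⟨this.1.trans (le_max_right _ _), max_le (by positivity) this.2⟩
  · rw [pow_mul, ← one_div_pow]
    exact pow_le_pow_left₀ (by positivity) (by norm_num) _

end Crest.Agent.R304
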