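import Mathlib

/-!
# R304: perfect matchings of the complete graph, weights, alternating cycles

A perfect matching is a fixed-point-free involution.  `wt ℓ X = ∏ v, ℓ v (X v)` (every edge counts twice).

PLAN.  `exists_cy`: let `σ = F ∘ I` as a permutation, `k` the minimal period of `a` (`Function.minimalPeriod`,
`a` is periodic), `N = 2k`, `c t = cyc I F a (t % N).toNat`; `cyc (2j) = σ^[j] a`, `cyc (2j+1) = I (σ^[j] a)`.  Injectivity on
`[0,N)`: equal parity contradicts minimality (`Function.iterate_injOn_Iio_minimalPeriod`); if `cyc s = cyc t` with `s < t` of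
different parity then `cyc (s+1) = cyc (t-1)` (both are the partner in the same matching), induction on `t - s` ends with
`cyc s = cyc (s+1)`, a fixed point.  `N ≤ card V` by injectivity.  `mem_comp`, `closed_comp` follow.  `comp_sub`: induction on `t`.
`comp_congr`: `cyc` stays in `U` and agrees.  `comp_mix`: both sets are closed for both pairs (a set is closed for
`(mix U X Y, mix U Y X)` iff it is closed for `(X,Y)`, since `{mix U X Y v, mix U Y X v} = {X v, Y v}`), `comp_sub`.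
`dec`: `cyc I F a t = cyc I' F' a t` by two-step induction (the previous point is the partner in the other matching).
`xm_init`: the map `X ↦ (cj X v (X u), X u)` is injective into `{X | X u = v} × V`.
-/

set_option autoImplicit false
set_option linter.unusedSectionVars false
open Finset

namespace Crest.Agent.R304

/-- perfect matchings of the complete graph -/
def PM (V : Type) : Type := {f : V → V // ∀ v, f (f v) = v ∧ f v ≠ v}

variable {V : Type} [Fintype V] [DecidableEq V]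

instance : Fintype (PM V) := by unfold PM; infer_instance
instance : DecidableEq (PM V) := by unfold PM; infer_instance

theorem PM.ext' {X Y : PM V} (h : ∀ v, X.1 v = Y.1 v) : X = Y := Subtype.ext (funext h)
theorem PM.inv (X : PM V) (v : V) : X.1 (X.1 v) = v := (X.2 v).1
theorem PM.ne (X : PM V) (v : V) : X.1 v ≠ v := (X.2 v).2
theorem PM.symm (X : PM V) {u v : V} (h : X.1 u = v) : X.1 v = u := by rw [← h, X.inv]

/-- positive symmetric weights -/
structure Wt (ℓ : V → V → ℝ) : Prop where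
  pos : ∀ u v, 0 < ℓ u v
  symm : ∀ u v, ℓ u v = ℓ v u

def wt (ℓ : V → V → ℝ) (X : PM V) : ℝ := ∏ v, ℓ v (X.1 v)
def ZZ (ℓ : V → V → ℝ) : ℝ := ∑ X, wt ℓ X
noncomputable def mu (ℓ : V → V → ℝ) (X : PM V) : ℝ := wt ℓ X / ZZ ℓ
/-- probability of the edge `u v` -/
noncomputable def xm (ℓ : V → V → ℝ) (u v : V) : ℝ := ∑ X : PM V, if X.1 u = v then mu ℓ X else 0

/-- conjugation by a transposition: a switch of two edges -/
def cj (X : PM V) (b c : V) : PM V :=
  ⟨fun v => Equiv.swap b c (X.1 (Equiv.swap b c v)), fun v => by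
    refine ⟨by simp only [Equiv.swap_apply_self, X.inv], fun h => X.ne (Equiv.swap b c v) ?_⟩
    have := congrArg (Equiv.swap b c) h
    simpa only [Equiv.swap_apply_self] using this⟩

def Closed (X Y : PM V) (U : Finset V) : Prop := ∀ v ∈ U, X.1 v ∈ U ∧ Y.1 v ∈ U
instance (X Y : PM V) (U : Finset V) : Decidable (Closed X Y U) := by unfold Closed; infer_instance

/-- `Y` on `U`, `X` elsewhere -/
def mix (U : Finset V) (X Y : PM V) : PM V :=
  if h : Closed X Y U then
    ⟨fun v => if v ∈ U then Y.1 v else X.1 v, fun v => by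
      by_cases hv : v ∈ U
      · simp only [hv, (h v hv).2, if_true]; exact Y.2 v
      · have : X.1 v ∉ U := fun h' => hv (by simpa [X.inv] using (h _ h').1)
        simp only [hv, this, if_false]; exact X.2 v⟩
  else X

/-- the alternating walk -/
def cyc (X Y : PM V) (a : V) : ℕ → V
  | 0 => a
  | t + 1 => if t % 2 = 0 then X.1 (cyc X Y a t) else Y.1 (cyc X Y a t)

/-- the vertices of the alternating cycle through `a` -/
def comp (X Y : PM V) (a : V) : Finset V := (range (Fintype.card V)).image (cyc X Y a)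

/-- the move of a pair of matchings -/
def mv (b c : V) (a : PM V × PM V) : PM V × PM V :=
  if b = c then (mix (comp a.1 a.2 b) a.1 a.2, mix (comp a.1 a.2 b) a.2 a.1) else (cj a.1 b c, a.2)

/-- a parametrised alternating cycle -/
structure Cy (I F : PM V) (C : Finset V) (N : ℕ) (c : ℤ → V) : Prop where
  even : Even N
  pos : 0 < N
  inj : ∀ s t, c s = c t ↔ (N : ℤ) ∣ s - t
  mem : ∀ v, v ∈ C ↔ ∃ t, c t = v
  ev : ∀ t, Even t → I.1 (c t) = c (t + 1)
  od : ∀ t, Odd t → F.1 (c t) = c (t + 1)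

variable {ℓ : V → V → ℝ}

theorem wt_pos (h : Wt ℓ) (X : PM V) : 0 < wt ℓ X := by
  exact prod_pos fun v _ => h.pos _ _

theorem ZZ_pos [Nonempty (PM V)] (h : Wt ℓ) : 0 < ZZ ℓ := by
  exact sum_pos (fun X _ => wt_pos h X) univ_nonempty

theorem mu_pos (h : Wt ℓ) (X : PM V) : 0 < mu ℓ X := by
  haveI : Nonempty (PM V) := ⟨X⟩
  exact div_pos (wt_pos h X) (ZZ_pos h)

theorem sum_mu [Nonempty (PM V)] (h : Wt ℓ) : ∑ X, mu ℓ X = 1 := by
  unfold mu
  rw [← sum_div]
  exact div_self (ZZ_pos h).ne' 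

theorem xm_symm (u v : V) : xm ℓ u v = xm ℓ v u := by
  refine sum_congr rfl fun X _ => ?_
  by_cases h : X.1 u = v
  · rw [if_pos h, if_pos (X.symm h)]
  · rw [if_neg h, if_neg fun h' => h (X.symm h')]

theorem xm_nonneg (h : Wt ℓ) (u v : V) : 0 ≤ xm ℓ u v := by
  refine sum_nonneg fun X _ => ?_
  split_ifs
  · exact (mu_pos h X).le
  · exact le_rfl

theorem xm_le_one (h : Wt ℓ) (u v : V) : xm ℓ u v ≤ 1 := by
  rcases isEmpty_or_nonempty (PM V) with _ | _
  · simp [xm]
  rw [← sum_mu h]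
  refine sum_le_sum fun X _ => ?_
  split_ifs
  · exact le_rfl
  · exact (mu_pos h X).le

theorem cj_cj (X : PM V) (b c : V) : cj (cj X b c) b c = X := by
  exact PM.ext' fun v => by simp [cj]

theorem cj_left {X : PM V} {a b c d : V} (h1 : X.1 a = b) (h2 : X.1 c = d) (hac : a ≠ c) (hbc : b ≠ c) :
    (cj X b c).1 a = c ∧ (cj X b c).1 b = d ∧ ∀ v, v ≠ a → v ≠ b → v ≠ c → v ≠ d → (cj X b c).1 v = X.1 v := by
  have hab : a ≠ b := h1 ▸ (X.ne a).symm
  have hdc : d ≠ c := h2 ▸ X.ne c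
  have hdb : d ≠ b := fun h => hac (by rw [← X.symm h1, ← h, X.symm h2])
  refine ⟨?_, ?_, fun v k1 k2 k3 k4 => ?_⟩
  · change Equiv.swap b c (X.1 (Equiv.swap b c a)) = c
    rw [Equiv.swap_apply_of_ne_of_ne hab hac, h1, Equiv.swap_apply_left]
  · change Equiv.swap b c (X.1 (Equiv.swap b c b)) = d
    rw [Equiv.swap_apply_left, h2, Equiv.swap_apply_of_ne_of_ne hdb hdc]
  · change Equiv.swap b c (X.1 (Equiv.swap b c v)) = _
    rw [Equiv.swap_apply_of_ne_of_ne k2 k3, Equiv.swap_apply_of_ne_of_ne]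
    · exact fun h => k1 (by rw [← X.symm h, X.symm h1])
    · exact fun h => k4 (by rw [← X.symm h, h2])

theorem wt_cj (h : Wt ℓ) {X : PM V} {a b c d : V} (h1 : X.1 a = b) (h2 : X.1 c = d) (hac : a ≠ c) (hbc : b ≠ c) :
    wt ℓ (cj X b c) * (ℓ a b * ℓ c d) ^ 2 = wt ℓ X * (ℓ a c * ℓ b d) ^ 2 := by
  obtain ⟨k1, k2, k3⟩ := cj_left h1 h2 hac hbc
  have hab : a ≠ b := h1 ▸ (X.ne a).symm
  have hcd : c ≠ d := h2 ▸ (X.ne c).symm
  have hbd : b ≠ d := fun h => hac (by rw [← X.symm h1, h, X.symm h2])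
  have had : a ≠ d := fun h => hbc (by rw [← h1, h, X.symm h2])
  have e : ∀ Y : PM V, wt ℓ Y = (∏ v ∈ univ \ {a, b, c, d}, ℓ v (Y.1 v)) *
      (ℓ a (Y.1 a) * (ℓ b (Y.1 b) * (ℓ c (Y.1 c) * ℓ d (Y.1 d)))) := by
    intro Y
    rw [wt, ← prod_sdiff (subset_univ {a, b, c, d}), prod_insert (by simp [hab, hac, had]),
      prod_insert (by simp [hbc, hbd]), prod_insert (by simp [hcd]), prod_singleton]
  have e2 : ∏ v ∈ univ \ {a, b, c, d}, ℓ v ((cj X b c).1 v) =
      ∏ v ∈ univ \ {a, b, c, d}, ℓ v (X.1 v) := by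
    refine prod_congr rfl fun v hv => ?_
    simp only [mem_sdiff, mem_univ, mem_insert, mem_singleton, not_or, true_and] at hv
    rw [k3 v hv.1 hv.2.1 hv.2.2.1 hv.2.2.2]
  rw [e, e X, e2, k1, k2, PM.symm _ k1, PM.symm _ k2, h1, h2, X.symm h1, X.symm h2, h.symm c a,
    h.symm d b, h.symm b a, h.symm d c]
  ring

theorem mix_apply {U : Finset V} {X Y : PM V} (h : Closed X Y U) (v : V) :
    (mix U X Y).1 v = if v ∈ U then Y.1 v else X.1 v := by
  simp only [mix, dif_pos h]

theorem Closed.symm {U : Finset V} {X Y : PM V} (h : Closed X Y U) : Closed Y X U := fun v hv => (h v hv).symm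

theorem closed_mix_iff {U : Finset V} {X Y : PM V} (h : Closed X Y U) (W : Finset V) :
    Closed (mix U X Y) (mix U Y X) W ↔ Closed X Y W := by
  refine forall₂_congr fun v _ => ?_
  rw [mix_apply h, mix_apply h.symm]
  split_ifs
  · exact and_comm
  · rfl

theorem mix_mix {U : Finset V} {X Y : PM V} (h : Closed X Y U) : mix U (mix U X Y) (mix U Y X) = X := by
  refine PM.ext' fun v => ?_
  rw [mix_apply ((closed_mix_iff h U).2 h), mix_apply h, mix_apply h.symm]
  split_ifs <;> rfl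

theorem wt_mix (ℓ : V → V → ℝ) {U : Finset V} {X Y : PM V} (h : Closed X Y U) :
    wt ℓ (mix U X Y) * wt ℓ (mix U Y X) = wt ℓ X * wt ℓ Y := by
  unfold wt
  rw [← prod_mul_distrib, ← prod_mul_distrib]
  refine prod_congr rfl fun v _ => ?_
  rw [mix_apply h, mix_apply h.symm]
  split_ifs
  · ring
  · rfl

theorem exists_cy' (I F : PM V) (a : V) : ∃ (N : ℕ) (c : ℤ → V), Cy I F (comp I F a) N c ∧
    (∀ t : ℕ, c t = cyc I F a t) ∧ N ≤ Fintype.card V := by
  let i : Equiv.Perm V := Function.Involutive.toPerm I.1 I.inv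
  let f : Equiv.Perm V := Function.Involutive.toPerm F.1 F.inv
  have hi : i * i = 1 := Equiv.ext I.inv
  have hf : f * f = 1 := Equiv.ext F.inv
  obtain ⟨σ, hσ⟩ : ∃ σ, σ = f * i := ⟨_, rfl⟩
  have hsc : SemiconjBy i σ σ⁻¹ := by
    rw [SemiconjBy, hσ, mul_inv_rev, inv_eq_of_mul_eq_one_left hi, inv_eq_of_mul_eq_one_left hf,
      mul_assoc]
  have hiσ : ∀ (n : ℤ) (x : V), I.1 ((σ ^ n) x) = (σ ^ (-n)) (I.1 x) := by
    intro n x
    have := congrArg (fun g : Equiv.Perm V => g x) (hsc.zpow_right n).eq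
    rw [inv_zpow'] at this
    exact this
  have hF : ∀ x, F.1 (I.1 x) = σ x := fun x => by rw [hσ]; rfl
  have hadd : ∀ (m n : ℤ) (x : V), (σ ^ m) ((σ ^ n) x) = (σ ^ (m + n)) x := fun m n x => by
    rw [zpow_add]; rfl
  have hone : ∀ (n : ℤ) (x : V), σ ((σ ^ n) x) = (σ ^ (1 + n)) x := fun n x => by
    rw [← hadd, zpow_one]
  have hne : ∀ (j : ℤ) (x : V), I.1 x ≠ (σ ^ j) x := by
    intro j x h
    rcases Int.even_or_odd' j with ⟨r, rfl | rfl⟩
    · apply I.ne ((σ ^ r) x)
      rw [hiσ, h, hadd]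
      congr 2
      ring
    · apply F.ne ((σ ^ (r + 1)) x)
      conv_lhs => rw [← I.inv ((σ ^ (r + 1)) x), hF, hiσ, h, hadd, hone]
      congr 2
      ring
  obtain ⟨k, hk0, hk⟩ : ∃ k : ℕ, 0 < k ∧ ∀ m n : ℤ, (σ ^ m) a = (σ ^ n) a ↔ (k : ℤ) ∣ m - n := by
    refine ⟨Function.minimalPeriod (fun x => σ • x) a, ?_, fun m n => ?_⟩
    · exact Function.minimalPeriod_pos_of_mem_periodicPts
        ((MulAction.injective σ).mem_periodicPts a)
    · rw [← MulAction.zpow_smul_eq_iff_minimalPeriod_dvd, Equiv.Perm.smul_def, sub_eq_neg_add,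
        ← hadd, zpow_neg, Equiv.Perm.inv_eq_iff_eq]
  let c : ℤ → V := fun t => if t % 2 = 0 then (σ ^ (t / 2)) a else I.1 ((σ ^ (t / 2)) a)
  have hev : ∀ t, t % 2 = 0 → I.1 (c t) = c (t + 1) := by
    intro t ht
    simp only [c]
    rw [if_pos ht, if_neg (by omega), show (t + 1) / 2 = t / 2 by omega]
  have hod : ∀ t, t % 2 = 1 → F.1 (c t) = c (t + 1) := by
    intro t ht
    simp only [c]
    rw [if_neg (by omega), if_pos (by omega), show (t + 1) / 2 = 1 + t / 2 by omega, hF, hone]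
  have hinj : ∀ s t, c s = c t ↔ ((2 * k : ℕ) : ℤ) ∣ s - t := by
    have hsame : ∀ s t : ℤ, s % 2 = t % 2 →
        ((k : ℤ) ∣ s / 2 - t / 2 ↔ ((2 * k : ℕ) : ℤ) ∣ s - t) := by
      intro s t h
      rw [show s - t = 2 * (s / 2 - t / 2) by omega]
      push_cast
      exact (mul_dvd_mul_iff_left two_ne_zero).symm
    have hdiff : ∀ s t : ℤ, s % 2 ≠ t % 2 → ¬ ((2 * k : ℕ) : ℤ) ∣ s - t := by
      intro s t h h'
      have : (2 : ℤ) ∣ s - t := Dvd.dvd.trans ⟨k, by push_cast; rfl⟩ h'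
      omega
    have hx : ∀ m n : ℤ, I.1 ((σ ^ m) a) ≠ (σ ^ n) a := by
      intro m n h
      apply hne (n - m) ((σ ^ m) a)
      rw [h, hadd, sub_add_cancel]
    intro s t
    simp only [c]
    split_ifs with h1 h2 h2
    · rw [hk, hsame s t (by omega)]
    · exact iff_of_false (hx _ _).symm (hdiff s t (by omega))
    · exact iff_of_false (hx _ _) (hdiff s t (by omega))
    · rw [(Function.Involutive.injective I.inv).eq_iff, hk, hsame s t (by omega)]
  have hcyc : ∀ t : ℕ, c t = cyc I F a t := by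
    intro t
    induction t with
    | zero => simp [c, cyc]
    | succ t ih =>
      rw [cyc, ← ih]
      push_cast
      split_ifs with h
      · exact (hev t (by omega)).symm
      · exact (hod t (by omega)).symm
  have hN : 2 * k ≤ Fintype.card V := by
    rw [← Fintype.card_fin (2 * k)]
    refine Fintype.card_le_of_injective (fun t : Fin (2 * k) => c (t : ℕ)) fun s t h => ?_
    have h1 := (hinj _ _).1 h
    have h2 := s.2
    have h3 := t.2
    have := Int.eq_zero_of_abs_lt_dvd h1 (by rw [abs_lt]; constructor <;> omega)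
    exact Fin.ext (by omega)
  refine ⟨2 * k, c, ⟨even_two_mul k, by omega, hinj, fun v => ⟨fun h => ?_, ?_⟩,
    fun t ht => hev t (Int.even_iff.1 ht), fun t ht => hod t (Int.odd_iff.1 ht)⟩, hcyc, hN⟩
  · obtain ⟨t, -, ht⟩ := mem_image.1 h
    exact ⟨t, (hcyc t).trans ht⟩
  · rintro ⟨t, rfl⟩
    have h0 : (0 : ℤ) < ((2 * k : ℕ) : ℤ) := by omega
    have h1 := Int.emod_nonneg t h0.ne'
    have h2 := Int.emod_lt_of_pos t h0
    refine mem_image.2 ⟨(t % ((2 * k : ℕ) : ℤ)).toNat, mem_range.2 (by omega), ?_⟩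
    rw [← hcyc, Int.toNat_of_nonneg h1, hinj]
    exact Int.dvd_emod_sub_self

theorem exists_cy (I F : PM V) (a : V) :
    ∃ (N : ℕ) (c : ℤ → V), Cy I F (comp I F a) N c ∧ c 0 = a ∧ N ≤ Fintype.card V := by
  obtain ⟨N, c, h1, h2, h3⟩ := exists_cy' I F a
  exact ⟨N, c, h1, h2 0, h3⟩

theorem mem_comp {X Y : PM V} {a v : V} : v ∈ comp X Y a ↔ ∃ t, cyc X Y a t = v := by
  obtain ⟨N, c, h1, h2, -⟩ := exists_cy' X Y a
  constructor
  · intro h
    obtain ⟨t, -, ht⟩ := mem_image.1 h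
    exact ⟨t, ht⟩
  · rintro ⟨t, rfl⟩
    exact (h1.mem _).2 ⟨t, h2 t⟩

theorem self_mem_comp (X Y : PM V) (a : V) : a ∈ comp X Y a := mem_comp.2 ⟨0, rfl⟩

theorem closed_comp (X Y : PM V) (a : V) : Closed X Y (comp X Y a) := by
  obtain ⟨N, c, h, -, -⟩ := exists_cy' X Y a
  intro v hv
  obtain ⟨t, rfl⟩ := (h.mem v).1 hv
  rcases Int.even_or_odd t with ht | ht
  · refine ⟨(h.mem _).2 ⟨t + 1, (h.ev t ht).symm⟩, (h.mem _).2 ⟨t - 1, ?_⟩⟩
    have := h.od (t - 1) (ht.sub_odd odd_one)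
    rw [sub_add_cancel] at this
    exact (Y.symm this).symm
  · refine ⟨(h.mem _).2 ⟨t - 1, ?_⟩, (h.mem _).2 ⟨t + 1, (h.od t ht).symm⟩⟩
    have := h.ev (t - 1) (ht.sub_odd odd_one)
    rw [sub_add_cancel] at this
    exact (X.symm this).symm

theorem comp_sub {X Y : PM V} {a : V} {U : Finset V} (h : Closed X Y U) (ha : a ∈ U) : comp X Y a ⊆ U := by
  intro v hv
  obtain ⟨t, rfl⟩ := mem_comp.1 hv
  clear hv
  induction t with
  | zero => exact ha
  | succ t ih =>
    rw [cyc]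
    split_ifs
    · exact (h _ ih).1
    · exact (h _ ih).2

theorem comp_eq_of_mem {X Y : PM V} {a b : V} (h : b ∈ comp X Y a) : comp X Y b = comp X Y a := by
  refine Subset.antisymm (comp_sub (closed_comp X Y a) h) (comp_sub (closed_comp X Y b) ?_)
  obtain ⟨t, ht⟩ := mem_comp.1 h
  have h1 : cyc X Y a t ∈ comp X Y b := ht ▸ self_mem_comp X Y b
  clear ht
  induction t with
  | zero => exact h1
  | succ t ih =>
    apply ih
    rw [cyc] at h1
    split_ifs at h1
    · simpa only [X.inv] using (closed_comp X Y b _ h1).1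
    · simpa only [Y.inv] using (closed_comp X Y b _ h1).2

theorem comp_congr {X Y X' Y' : PM V} {a : V} (h : ∀ v ∈ comp X Y a, X'.1 v = X.1 v ∧ Y'.1 v = Y.1 v) :
    comp X' Y' a = comp X Y a := by
  have key : ∀ t, cyc X' Y' a t = cyc X Y a t := by
    intro t
    induction t with
    | zero => rfl
    | succ t ih =>
      have := h _ (mem_comp.2 ⟨t, rfl⟩)
      rw [cyc, cyc, ih, this.1, this.2]
  unfold comp
  rw [funext key]

theorem comp_mix {U : Finset V} {X Y : PM V} (h : Closed X Y U) (a : V) :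
    comp (mix U X Y) (mix U Y X) a = comp X Y a := by
  exact Subset.antisymm (comp_sub ((closed_mix_iff h _).2 (closed_comp X Y a)) (self_mem_comp _ _ _))
    (comp_sub ((closed_mix_iff h _).1 (closed_comp _ _ a)) (self_mem_comp _ _ _))

theorem mv_mv (b c : V) (a : PM V × PM V) : mv b c (mv b c a) = a := by
  obtain ⟨X, Y⟩ := a
  by_cases h : b = c
  · simp only [mv, if_pos h]
    have hc := closed_comp X Y b
    rw [comp_mix hc, mix_mix hc, mix_mix hc.symm]
  · simp only [mv, if_neg h, cj_cj]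

theorem dec {I F I' F' : PM V} {a : V} (h0 : I.1 a = I'.1 a)
    (h1 : ∀ v ∈ comp I F a, v ∈ comp I' F' a →
      (I.1 v = I'.1 v ∧ F.1 v = F'.1 v) ∨ (I.1 v = F'.1 v ∧ F.1 v = I'.1 v))
    (h2 : ∀ v, v ∉ comp I F a → v ∉ comp I' F' a → I.1 v = I'.1 v ∧ F.1 v = F'.1 v) : I = I' ∧ F = F' := by
  have aux : ∀ v ∈ comp I F a, v ∈ comp I' F' a → (I.1 v = I'.1 v ∨ F.1 v = F'.1 v) →
      I.1 v = I'.1 v ∧ F.1 v = F'.1 v := by
    intro v k1 k2 k3
    rcases h1 v k1 k2 with h | ⟨h, h'⟩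
    · exact h
    · rcases k3 with k | k
      · exact ⟨k, by rw [h', ← k, h]⟩
      · exact ⟨by rw [h, ← k, h'], k⟩
  have key : ∀ t, cyc I' F' a t = cyc I F a t ∧ I.1 (cyc I F a t) = I'.1 (cyc I F a t) ∧
      F.1 (cyc I F a t) = F'.1 (cyc I F a t) := by
    intro t
    induction t with
    | zero => exact ⟨rfl, aux a (self_mem_comp _ _ _) (self_mem_comp _ _ _) (Or.inl h0)⟩
    | succ t ih =>
      have e : cyc I' F' a (t + 1) = cyc I F a (t + 1) := by
        rw [cyc, cyc, ih.1, ih.2.1, ih.2.2]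
      refine ⟨e, aux _ (mem_comp.2 ⟨_, rfl⟩) (mem_comp.2 ⟨_, e⟩) ?_⟩
      rw [cyc]
      split_ifs
      · left; rw [I.inv, ih.2.1, I'.inv]
      · right; rw [F.inv, ih.2.2, F'.inv]
  have hc : comp I' F' a = comp I F a := by
    unfold comp
    rw [funext fun t => (key t).1]
  have all : ∀ v, I.1 v = I'.1 v ∧ F.1 v = F'.1 v := by
    intro v
    by_cases hv : v ∈ comp I F a
    · obtain ⟨t, rfl⟩ := mem_comp.1 hv
      exact (key t).2
    · exact h2 v hv (hc ▸ hv)
  exact ⟨PM.ext' fun v => (all v).1, PM.ext' fun v => (all v).2⟩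

theorem xm_init [Nonempty (PM V)] {k : ℝ} (hk : 0 < k) {u v : V} (h : u ≠ v) :
    1 / (Fintype.card V : ℝ) ≤ xm (fun _ _ => k) u v := by
  have hP : (0 : ℝ) < Fintype.card (PM V) := by exact_mod_cast Fintype.card_pos
  have hV : (0 : ℝ) < Fintype.card V := by exact_mod_cast Fintype.card_pos_iff.2 ⟨u⟩
  have hmu : ∀ X : PM V, mu (fun _ _ => k) X = 1 / Fintype.card (PM V) := by
    intro X
    have : (0 : ℝ) < k ^ Fintype.card V := by positivity
    simp only [mu, ZZ, wt, prod_const, card_univ, sum_const, nsmul_eq_mul]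
    field_simp
  have hc : Fintype.card (PM V) ≤ #{X : PM V | X.1 u = v} * Fintype.card V := by
    rw [← card_univ, ← card_univ, ← card_product]
    refine card_le_card_of_injOn (fun X => (cj X v (X.1 u), X.1 u)) (fun X _ => ?_) fun X _ Y _ e => ?_
    · simp only [coe_product, Set.mem_prod, mem_coe, mem_filter, mem_univ, true_and, and_true]
      change Equiv.swap v (X.1 u) (X.1 (Equiv.swap v (X.1 u) u)) = v
      rw [Equiv.swap_apply_of_ne_of_ne h (X.ne u).symm, Equiv.swap_apply_right]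
    · simp only [Prod.mk.injEq] at e
      rw [← cj_cj X v (X.1 u), e.1, e.2, cj_cj]
  have hc' : (Fintype.card (PM V) : ℝ) ≤ #{X : PM V | X.1 u = v} * Fintype.card V := by
    exact_mod_cast hc
  simp only [xm, hmu]
  rw [← sum_filter, sum_const, nsmul_eq_mul, mul_one_div, div_le_div_iff₀ hV hP]
  linarith

theorem card_PM_le : Fintype.card (PM V) ≤ Fintype.card V ^ Fintype.card V := by
  refine (Fintype.card_le_of_injective (fun X : PM V => X.1) Subtype.val_injective).trans ?_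
  rw [Fintype.card_fun]

end Crest.Agent.R304
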