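import Crest.Agent.R304.Par
import Crest.Agent.R309.PTAlg

/-!
# R304: the counting algorithm runs in polynomial time

PLAN.  See `Crest/Agent/R309/PTModel.lean`, `PTAlg.lean` for the style (library `Crest/Agent/Lib/PT`).  Prove `PT` and `PB` for every parameter
(`PB (pw2 s)` by `PB.mono` and `pw2_le`; `PB (bz s)` by `PB.size` or `bz s ≤ s`), then `PT` for every function of `Alg.lean` in turn, in the form
`PT n → PB n → PT s → PB s → …`.  Sizes for the loops: the vertex in `cycS` is `a`, `0` or a member of `X` or `Y` (`PT.iterate`); call a matching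
bounded if it has length `≤ n` and entries `≤ n`, a population bounded if its length is `≤ rr s` and its members are bounded.  `X0`, `cjL` (for `b, c ≤ n`),
`mixL`, `mvL`, `prpL`, `mstep`, `sample` keep this (`runL_inv`).  For `PT` of `sample` on an arbitrary start `M` use instead the invariant
"length `= M.length`, members of length `≤ max n (sz M)` with entries of size `≤ sz M + sz n`-like bound", or restrict the argument type to a subtype
of bounded populations (there is an `Enc` instance for subtypes).  `popRun`: `PT.foldl` (the history is a sublist up to order, the tape shrinks).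
`tune`: `PT.runL`; the history has length `≤ i` and entries `< n` (members of `prs n`); the rational is a product of `Z0 n` and `i` factors, as in
`R309.PT.anneal` (`Ht.mul`, `ht_sz`, `Ht.sz_le`, `PT.pb_sz`, `eval_mono`).
-/

set_option autoImplicit false
open Finset Crest.Agent.PTime Crest.Agent.R309

namespace Crest.Agent.R304

variable {α : Type} [Enc α]

section par
variable {s : α → ℕ}

@[fun_prop] theorem PT.bz (h : PT s) : PT (fun a => R304.bz (s a)) := by unfold R304.bz; fun_prop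
@[fun_prop] theorem PB.bz (h : PB s) : PB (fun a => R304.bz (s a)) :=
  h.mono fun _ => Nat.size_le.2 Nat.lt_two_pow_self
@[fun_prop] theorem PT.pw2 (h : PT s) : PT (fun a => R304.pw2 (s a)) := by
  unfold R304.pw2 R304.bz; fun_prop
@[fun_prop] theorem PB.pw2 (h : PB s) : PB (fun a => R304.pw2 (s a)) :=
  PB.mono (g := fun a => 2 * s a + 1) (by fun_prop) fun a => pw2_le _
@[fun_prop] theorem PT.rr (h : PT s) : PT (fun a => R304.rr (s a)) := by unfold R304.rr R304.RR; fun_prop
@[fun_prop] theorem PB.rr (h : PB s) : PB (fun a => R304.rr (s a)) := by unfold R304.rr R304.RR; fun_prop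
@[fun_prop] theorem PT.SS (h : PT s) : PT (fun a => R304.SS (s a)) := by
  unfold R304.SS
  exact (h.pow (PT.const 18) (PB.const 18)).mul ((PT.rr h).pow (PT.const 2) (PB.const 2))
@[fun_prop] theorem PB.SS (h : PB s) : PB (fun a => R304.SS (s a)) := by unfold R304.SS; fun_prop
@[fun_prop] theorem PT.TT (h : PT s) : PT (fun a => R304.TT (s a)) := by unfold R304.TT R304.AA; fun_prop
@[fun_prop] theorem PB.TT (h : PB s) : PB (fun a => R304.TT (s a)) := by unfold R304.TT R304.AA; fun_prop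
@[fun_prop] theorem PT.BB (h : PT s) : PT (fun a => R304.BB (s a)) := by unfold R304.BB; fun_prop
@[fun_prop] theorem PB.BB (h : PB s) : PB (fun a => R304.BB (s a)) := by unfold R304.BB; fun_prop
@[fun_prop] theorem PT.b0 (h : PT s) : PT (fun a => R304.b0 (s a)) := by unfold R304.b0; fun_prop
@[fun_prop] theorem PB.b0 (h : PB s) : PB (fun a => R304.b0 (s a)) := by unfold R304.b0; fun_prop
@[fun_prop] theorem PT.T0 (h : PT s) : PT (fun a => R304.T0 (s a)) := by unfold R304.T0; fun_prop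
@[fun_prop] theorem PB.T0 (h : PB s) : PB (fun a => R304.T0 (s a)) := by unfold R304.T0; fun_prop
@[fun_prop] theorem PT.LL (h : PT s) : PT (fun a => R304.LL (s a)) := by
  unfold R304.LL
  exact ((PT.const 200).mul (PT.SS h)).mul (h.pow (PT.const 2) (PB.const 2))
@[fun_prop] theorem PB.LL (h : PB s) : PB (fun a => R304.LL (s a)) := by unfold R304.LL; fun_prop
@[fun_prop] theorem PT.rq (h : PT s) : PT (fun a => R304.rq (s a)) := by unfold R304.rq; fun_prop
@[fun_prop] theorem PT.dq (h : PT s) : PT (fun a => R304.dq (s a)) := by unfold R304.dq; fun_prop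
@[fun_prop] theorem PT.sseg (h : PT s) : PT (fun a => R304.sseg (s a)) := by unfold R304.sseg; fun_prop
@[fun_prop] theorem PB.sseg (h : PB s) : PB (fun a => R304.sseg (s a)) := by unfold R304.sseg; fun_prop
@[fun_prop] theorem PT.glen (h : PT s) : PT (fun a => R304.glen (s a)) := by unfold R304.glen; fun_prop
@[fun_prop] theorem PB.glen (h : PB s) : PB (fun a => R304.glen (s a)) := by unfold R304.glen; fun_prop
@[fun_prop] theorem PT.plen (h : PT s) : PT (fun a => R304.plen (s a)) := by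
  unfold R304.plen
  exact (PT.glen h).add (((PT.T0 h).mul (PT.SS h)).mul (PT.sseg h))
@[fun_prop] theorem PB.plen (h : PB s) : PB (fun a => R304.plen (s a)) := by unfold R304.plen; fun_prop
@[fun_prop] theorem PT.olen (h : PT s) : PT (fun a => R304.olen (s a)) := by
  unfold R304.olen
  exact ((PT.T0 h).mul (PT.plen h)).add (PT.plen h)
@[fun_prop] theorem PB.olen (h : PB s) : PB (fun a => R304.olen (s a)) := by unfold R304.olen; fun_prop

end par

@[fun_prop] theorem PB.clen {s : α → ℕ} (h : PB s) : PB (fun a => R304.clen (s a)) := by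
  unfold R304.clen; fun_prop

/-- a bounded list -/
def Bd (K : ℕ) (X : List ℕ) : Prop := X.length ≤ K ∧ ∀ y ∈ X, y < 2 ^ K
def BdP (K : ℕ) (M : List (List ℕ)) : Prop := M.length ≤ K ∧ ∀ X ∈ M, Bd K X

theorem Bd.sz_le {K : ℕ} {X : List ℕ} (h : Bd K X) : sz X ≤ K * (4 * K + 1 + 1) + 1 :=
  (sz_list_le fun y hy => sz_le_of_lt (h.2 y hy)).trans (by gcongr; exact h.1)

theorem BdP.sz_le {K : ℕ} {M : List (List ℕ)} (h : BdP K M) : sz M ≤ K * (K * (4 * K + 1 + 1) + 1 + 1) + 1 :=
  (sz_list_le fun X hX => (h.2 X hX).sz_le).trans (by gcongr; exact h.1)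

theorem bd_of_sz {K : ℕ} {X : List ℕ} (h : sz X ≤ K) : Bd K X :=
  ⟨(length_le_sz X).trans h, fun y hy => (lt_two_pow_sz y).trans_le
    (Nat.pow_le_pow_right (by norm_num) ((sz_mem hy).le.trans h))⟩

theorem bdP_of_sz {K : ℕ} {M : List (List ℕ)} (h : sz M ≤ K) : BdP K M :=
  ⟨(length_le_sz M).trans h, fun _ hX => bd_of_sz ((sz_mem hX).le.trans h)⟩

theorem Bd.gn_lt {K : ℕ} {X : List ℕ} (h : Bd K X) (v : ℕ) : gn X v < 2 ^ K := by
  unfold gn
  by_cases hv : v < X.length
  · rw [List.getD_eq_getElem _ _ hv]; exact h.2 _ (List.getElem_mem hv)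
  · rw [List.getD_eq_default _ _ (by omega)]; positivity

theorem bd_map {K n : ℕ} (hn : n ≤ K) {f : ℕ → ℕ} (h : ∀ v < n, f v < 2 ^ K) : Bd K ((List.range n).map f) :=
  ⟨by simpa using hn, fun y hy => by
    obtain ⟨v, hv, rfl⟩ := List.mem_map.1 hy
    exact h v (List.mem_range.1 hv)⟩

theorem Bd.cjL {K n : ℕ} {X : List ℕ} (h : Bd K X) (hn : n ≤ K) {b c : ℕ} (hb : b ≤ K) (hc : c ≤ K) :
    Bd K (cjL n X b c) :=
  bd_map hn fun v _ => by
    have h1 : K < 2 ^ K := Nat.lt_two_pow_self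
    have h2 := h.gn_lt (swN b c v)
    generalize gn X (swN b c v) = y at h2
    unfold swN
    split_ifs <;> omega

theorem Bd.mixL {K n : ℕ} {X Y : List ℕ} (hX : Bd K X) (hY : Bd K Y) (hn : n ≤ K) (U : List ℕ) :
    Bd K (mixL n U X Y) :=
  bd_map hn fun v _ => by
    split_ifs
    exacts [hY.gn_lt v, hX.gn_lt v]

theorem bd_mvL {K n s θ : ℕ} {a : List ℕ × List ℕ} (hX : Bd K a.1) (hY : Bd K a.2) (hn : n ≤ K) :
    Bd K (mvL n s θ a).1 ∧ Bd K (mvL n s θ a).2 := by
  unfold mvL
  split_ifs with h1 h2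
  · exact ⟨hX.mixL hY hn _, hY.mixL hX hn _⟩
  · exact ⟨hX.cjL hn (by omega) (by omega), hY⟩
  · exact ⟨hX, hY⟩

theorem BdP.getD {K : ℕ} {M : List (List ℕ)} (h : BdP K M) (i : ℕ) : Bd K (M.getD i []) := by
  by_cases hv : i < M.length
  · rw [List.getD_eq_getElem _ _ hv]; exact h.2 _ (List.getElem_mem hv)
  · rw [List.getD_eq_default _ _ (by omega)]; exact ⟨by simp, by simp⟩

theorem BdP.set {K : ℕ} {M : List (List ℕ)} (h : BdP K M) (i : ℕ) {X : List ℕ} (hX : Bd K X) : BdP K (M.set i X) :=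
  ⟨by simpa using h.1, fun Y hY => by
    rcases List.mem_or_eq_of_mem_set hY with hY | rfl
    exacts [h.2 Y hY, hX]⟩

theorem BdP.prpL {K n s : ℕ} {M : List (List ℕ)} (h : BdP K M) (hn : n ≤ K) (k : ℕ) : BdP K (prpL n s M k) := by
  unfold R304.prpL
  split_ifs
  · exact h
  · have := bd_mvL (n := n) (s := s) (θ := k / rr s / rr s)
      (a := (M.getD (k % rr s) [], M.getD (k / rr s % rr s) [])) (h.getD _) (h.getD _) hn
    exact (h.set _ this.1).set _ this.2

theorem BdP.sample {K n s : ℕ} {M : List (List ℕ)} (h : BdP K M) (hn : n ≤ K) (W : List (List ℕ) → ℚ) (b B T : ℕ)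
    (t : List Bool) : BdP K (sample W (R304.prpL n s) b B T M t) := by
  unfold R309.sample
  refine runL_inv _ _ (fun _ x => BdP K x) (fun _ x l hx => ?_) T _ h _
  unfold mstep
  split_ifs
  exacts [hx.prpL hn _, hx]

section alg
variable {n s : α → ℕ}

@[fun_prop] theorem PT.swN {b c v : α → ℕ} (hb : PT b) (hc : PT c) (hv : PT v) :
    PT (fun a => R304.swN (b a) (c a) (v a)) := by unfold R304.swN; fun_prop

theorem PT.cjL {X : α → List ℕ} {b c : α → ℕ} (hn : PT n) (hn' : PB n) (hX : PT X) (hb : PT b) (hc : PT c) :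
    PT (fun a => R304.cjL (n a) (X a) (b a) (c a)) := by unfold R304.cjL; fun_prop

theorem PT.cycS {X Y : α → List ℕ} {z : α → ℕ × Bool} (hX : PT X) (hY : PT Y) (hz : PT z) :
    PT (fun a => R304.cycS (X a) (Y a) (z a)) := by unfold R304.cycS; fun_prop

theorem PT.compL {X Y : α → List ℕ} {b : α → ℕ} (hn : PT n) (hn' : PB n) (hX : PT X) (hY : PT Y) (hb : PT b) :
    PT (fun a => R304.compL (n a) (X a) (Y a) (b a)) := by
  unfold R304.compL
  refine PT.map_range hn hn' (PT.fst ?_)
  refine PT.iterate (f := fun p : α × U => R304.cycS (X p.1) (Y p.1))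
    (PT.cycS (hX.comp PT.id.fst.fst) (hY.comp PT.id.fst.fst) PT.id.snd) (by fun_prop) (by fun_prop) (by fun_prop)
    (B := fun p : α × U => 4 * (sz (X p.1) + sz (Y p.1) + sz (b p.1)) + 1 + 4) (by fun_prop) fun p i _ => ?_
  generalize X p.1 = X
  generalize Y p.1 = Y
  generalize b p.1 = b
  have h1 : Bd (sz X + sz Y + sz b) X := bd_of_sz (by omega)
  have h2 : Bd (sz X + sz Y + sz b) Y := bd_of_sz (by omega)
  have h3 : ((R304.cycS X Y)^[i] (b, false)).1 < 2 ^ (sz X + sz Y + sz b) := by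
    cases i with
    | zero => exact (lt_two_pow_sz b).trans_le (Nat.pow_le_pow_right (by norm_num) (by omega))
    | succ i =>
      rw [Function.iterate_succ_apply']
      unfold R304.cycS
      dsimp only
      split_ifs
      exacts [h2.gn_lt _, h1.gn_lt _]
  have h4 := sz_le_of_lt h3
  have h5 := sz_bool ((R304.cycS X Y)^[i] (b, false)).2
  rw [sz_prod]
  omega

theorem PT.mixL {U' X Y : α → List ℕ} (hn : PT n) (hn' : PB n) (hU : PT U') (hX : PT X) (hY : PT Y) :
    PT (fun a => R304.mixL (n a) (U' a) (X a) (Y a)) := by unfold R304.mixL; fun_prop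

theorem PT.mvL {θ : α → ℕ} {z : α → List ℕ × List ℕ} (hn : PT n) (hn' : PB n) (hs : PT s) (hθ : PT θ) (hz : PT z) :
    PT (fun a => R304.mvL (n a) (s a) (θ a) (z a)) := by
  have h1 : PT (fun a => θ a % R304.pw2 (s a)) := by fun_prop
  have h2 : PT (fun a => θ a / R304.pw2 (s a)) := by fun_prop
  have h3 := PT.compL hn hn' hz.fst hz.snd h1
  unfold R304.mvL
  exact PT.ite ((h1.lt hn).and (h2.lt hn)) (PT.ite (h1.eq h2)
    ((PT.mixL hn hn' h3 hz.fst hz.snd).pair (PT.mixL hn hn' h3 hz.snd hz.fst))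
    ((PT.cjL hn hn' hz.fst h1 h2).pair hz.snd)) hz

theorem PT.prpL {M : α → List (List ℕ)} {k : α → ℕ} (hn : PT n) (hn' : PB n) (hs : PT s) (hM : PT M) (hk : PT k) :
    PT (fun a => R304.prpL (n a) (s a) (M a) (k a)) := by
  have h1 : PT (fun a => k a % R304.rr (s a)) := by fun_prop
  have h2 : PT (fun a => k a / R304.rr (s a) % R304.rr (s a)) := by fun_prop
  have h3 : PT (fun a => k a / R304.rr (s a) / R304.rr (s a)) := by fun_prop
  have h4 := PT.mvL hn hn' hs h3 ((PT.getD h1 hM (PT.const [])).pair (PT.getD h2 hM (PT.const [])))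
  unfold R304.prpL
  exact PT.ite (h1.eq h2) hM (PT.set h2 (PT.set h1 hM h4.fst) h4.snd)

@[fun_prop] theorem PT.cnt {ms : α → List Bump} {u v : α → ℕ} {up : α → Bool} (hm : PT ms) (hu : PT u) (hv : PT v)
    (hup : PT up) : PT (fun a => R304.cnt (ms a) (u a) (v a) (up a)) := by unfold R304.cnt; fun_prop

@[fun_prop] theorem PB.cnt {ms : α → List Bump} {u v : α → ℕ} {up : α → Bool} (hm : PT ms) :
    PB (fun a => R304.cnt (ms a) (u a) (v a) (up a)) := by unfold R304.cnt; exact PB.countP hm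

theorem PT.PL {ms : α → List Bump} {u v : α → ℕ} (hs : PT s) (hm : PT ms) (hu : PT u) (hv : PT v) :
    PT (fun a => R304.PL (s a) (ms a) (u a) (v a)) := by unfold R304.PL; fun_prop

theorem PT.lq {ms : α → List Bump} {u v : α → ℕ} (hs : PT s) (hs' : PB s) (hm : PT ms) (hu : PT u) (hv : PT v) :
    PT (fun a => R304.lq (s a) (ms a) (u a) (v a)) := by unfold R304.lq; fun_prop

theorem PT.wq {ms : α → List Bump} {X : α → List ℕ} (hn : PT n) (hn' : PB n) (hs : PT s) (hs' : PB s) (hm : PT ms)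
    (hX : PT X) : PT (fun a => R304.wq (n a) (s a) (ms a) (X a)) := by
  unfold R304.wq
  exact (PT.map_range hn hn' (PT.lq (hs.comp PT.id.fst) (hs'.comp PT.id.fst) (hm.comp PT.id.fst) PT.id.snd.val
    (PT.gn (hX.comp PT.id.fst) PT.id.snd.val))).rat_list_prod

theorem PT.WP {ms : α → List Bump} {M : α → List (List ℕ)} (hn : PT n) (hn' : PB n) (hs : PT s) (hs' : PB s)
    (hm : PT ms) (hM : PT M) : PT (fun a => R304.WP (n a) (s a) (ms a) (M a)) := by
  unfold R304.WP
  exact (PT.map (f := fun a => R304.wq (n a) (s a) (ms a)) (PT.wq (hn.comp PT.id.fst) (hn'.comp PT.id.fst)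
    (hs.comp PT.id.fst) (hs'.comp PT.id.fst) (hm.comp PT.id.fst) PT.id.snd) hM).rat_list_prod

theorem PT.gen1 {t : α → List Bool} (hn : PT n) (hn' : PB n) (hs : PT s) (ht : PT t) :
    PT (fun a => R304.gen1 (n a) (s a) (t a)) := by
  unfold R304.gen1
  refine PT.snd (PT.runL (step := fun a => R304.genS (n a)) ?_ (PT.BB hs) hn hn' ?_ ht
    (B := fun a => 4 * n a + 1 + ((n a + 1) * (4 * (n a + 1) + 1 + 1) + 1) + 1) (by fun_prop) fun a i hi => ?_)
  · unfold R304.genS
    exact PT.pair (by fun_prop) (PT.cjL (hn.comp PT.id.fst) (hn'.comp PT.id.fst) (by fun_prop) (by fun_prop)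
      (by fun_prop))
  · unfold R304.X0; fun_prop
  · obtain ⟨k1, k2⟩ := runL_inv (R304.genS (n a)) (R304.BB (s a))
      (fun j (z : ℕ × List ℕ) => z.1 = j ∧ (j ≤ n a → Bd (n a + 1) z.2))
      (fun j z l ⟨h1, h2⟩ => ⟨by rw [← h1]; rfl, fun hj => (h2 (by omega)).cjL (by omega) (by omega) (by
        have : ofBits l % (z.1 + 1) < z.1 + 1 := Nat.mod_lt _ (Nat.succ_pos z.1)
        omega)⟩) i (0, R304.X0 (n a)) ⟨rfl, fun _ => bd_map (by omega) fun v hv => by
          have : n a + 1 < 2 ^ (n a + 1) := Nat.lt_two_pow_self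
          split_ifs <;> omega⟩ (t a)
    have a1 := (k2 hi).sz_le
    have a2 := sz_le_self (runL (R304.genS (n a)) (R304.BB (s a)) i (0, R304.X0 (n a)) (t a)).1
    rw [sz_prod]
    omega

theorem PT.genP {t : α → List Bool} (hn : PT n) (hn' : PB n) (hs : PT s) (hs' : PB s) (ht : PT t) :
    PT (fun a => R304.genP (n a) (s a) (t a)) := by
  unfold R304.genP
  exact PT.draws (g := fun a => R304.gen1 (n a) (s a))
    (PT.gen1 (hn.comp PT.id.fst) (hn'.comp PT.id.fst) (hs.comp PT.id.fst) PT.id.snd) (by fun_prop) (PT.rr hs)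
    (PB.rr hs') ht

theorem PT.microS {z : α → List Bump × List (List ℕ) × List Bool} {b : α → Bump} (hn : PT n) (hn' : PB n) (hs : PT s)
    (hs' : PB s) (hz : PT z) (hb : PT b) : PT (fun a => R304.microS (n a) (s a) (z a) (b a)) := by
  have h1 := hb.cons hz.fst
  unfold R304.microS
  refine h1.pair (PT.pair ?_ (by fun_prop))
  exact PT.sample (W := fun a => R304.WP (n a) (s a) (b a :: (z a).1)) (prop := fun a => R304.prpL (n a) (s a))
    (PT.WP (hn.comp PT.id.fst) (hn'.comp PT.id.fst) (hs.comp PT.id.fst) (hs'.comp PT.id.fst) (h1.comp PT.id.fst)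
      PT.id.snd)
    (PT.prpL (hn.comp PT.id.fst) (hn'.comp PT.id.fst) (hs.comp PT.id.fst) PT.id.snd.fst PT.id.snd.snd)
    (PT.b0 hs) (PB.b0 hs') (PT.BB hs) (PB.BB hs') (PT.TT hs) (PB.TT hs') hz.snd.fst (by fun_prop)
    (fun a x => BdP (sz (z a).2.1 + n a) x) (fun a => bdP_of_sz (by omega)) (fun a x i hx => hx.prpL (by omega) i)
    (Bd := fun a => (sz (z a).2.1 + n a) * ((sz (z a).2.1 + n a) * (4 * (sz (z a).2.1 + n a) + 1 + 1) + 1 + 1) + 1)
    (by fun_prop) fun a x hx => hx.sz_le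

theorem PT.micro {H : α → List Bump} (hs : PT s) (hs' : PB s) (hH : PT H) : PT (fun a => R304.micro (s a) (H a)) := by
  unfold R304.micro
  exact PT.flatMap (f := fun a => List.replicate (R304.SS (s a))) (by fun_prop) hH

end alg

theorem fold_micro (n s K : ℕ) (hn : n ≤ K) (ms : List Bump) : ∀ z : List Bump × List (List ℕ) × List Bool, BdP K z.2.1 →
    (ms.foldl (microS n s) z).1 = ms.reverse ++ z.1 ∧ BdP K (ms.foldl (microS n s) z).2.1 ∧
      (ms.foldl (microS n s) z).2.2.Sublist z.2.2 := by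
  induction ms with
  | nil => exact fun z h => ⟨rfl, h, List.Sublist.refl _⟩
  | cons b ms ih =>
    intro z h
    obtain ⟨h1, h2, h3⟩ := ih (microS n s z b) (h.sample hn _ _ _ _ _)
    rw [List.foldl_cons]
    exact ⟨by rw [h1]; simp [microS], h2, h3.trans (List.drop_sublist _ _)⟩

theorem PT.popRun {n s : α → ℕ} {H : α → List Bump} {t : α → List Bool} (hn : PT n) (hn' : PB n) (hs : PT s) (hs' : PB s)
    (hH : PT H) (ht : PT t) : PT (fun a => R304.popRun (n a) (s a) (H a) (t a)) := by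
  have hm := PT.micro hs hs' hH
  have hg := PT.genP hn hn' hs hs' ((PT.glen hs).take ht)
  have hK : PB (fun a => sz (R304.genP (n a) (s a) ((t a).take (R304.glen (s a)))) + n a) := hg.pb_sz.add hn'
  unfold R304.popRun
  refine PT.fst (PT.snd (PT.foldl (f := fun a => R304.microS (n a) (s a))
    (PT.microS (hn.comp PT.id.fst) (hn'.comp PT.id.fst) (hs.comp PT.id.fst) (hs'.comp PT.id.fst) PT.id.snd.fst
      PT.id.snd.snd) ((PT.const []).pair (hg.pair ((PT.glen hs).drop ht))) hm
    (((hm.pb_sz.add ((hK.mul (((hK.mul ((((PB.const 4).mul hK).add (PB.const 1)).add (PB.const 1))).add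
      (PB.const 1)).add (PB.const 1))).add (PB.const 1))).add ht.pb_sz).add (PB.const 2)) fun a i => ?_))
  obtain ⟨h1, h2, h3⟩ := fold_micro (n a) (s a) (sz (R304.genP (n a) (s a) ((t a).take (R304.glen (s a)))) + n a)
    (by omega) ((R304.micro (s a) (H a)).take i)
    ([], R304.genP (n a) (s a) ((t a).take (R304.glen (s a))), (t a).drop (R304.glen (s a))) (bdP_of_sz (by simp))
  have a1 := h2.sz_le
  have a2 := sz_sublist (h3.trans (List.drop_sublist _ _))
  have a3 := sz_sublist (List.take_sublist i (R304.micro (s a) (H a)))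
  rw [sz_prod, sz_prod, h1, List.append_nil, sz_reverse]
  omega

section mac
variable {n s : α → ℕ} {g : α → List Bool}

theorem PT.est {M : α → List (List ℕ)} {u v : α → ℕ} (hM : PT M) (hu : PT u) (hv : PT v) :
    PT (fun a => R304.est (M a) (u a) (v a)) := by unfold R304.est; fun_prop

theorem PT.prs (hn : PT n) (hn' : PB n) : PT (fun a => R304.prs (n a)) := by unfold R304.prs; fun_prop

@[fun_prop] theorem PT.adjL {u v : α → ℕ} (hn : PT n) (hg : PT g) (hu : PT u) (hv : PT v) :
    PT (fun a => R304.adjL (n a) (g a) (u a) (v a)) := by unfold R304.adjL; fun_prop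

theorem PT.flL {u v : α → ℕ} (hn : PT n) (hs : PT s) (hg : PT g) (hu : PT u) (hv : PT v) :
    PT (fun a => R304.flL (n a) (s a) (g a) (u a) (v a)) := by unfold R304.flL; fun_prop

theorem PT.nxt {H : α → List Bump} {M : α → List (List ℕ)} (hn : PT n) (hn' : PB n) (hs : PT s) (hs' : PB s)
    (hg : PT g) (hH : PT H) (hM : PT M) : PT (fun a => R304.nxt (n a) (s a) (g a) (H a) (M a)) := by
  have hp := PT.prs hn hn'
  have hu : PT (fun p : α × ℕ × ℕ => p.2.1) := PT.id.snd.fst
  have hv : PT (fun p : α × ℕ × ℕ => p.2.2) := PT.id.snd.snd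
  have he := PT.est (hM.comp PT.id.fst) hu hv
  have hd : PT (fun p : α × ℕ × ℕ => R304.dq (s p.1)) := PT.dq (hs.comp PT.id.fst)
  unfold R304.nxt
  exact ((PT.map (f := fun _ (e : ℕ × ℕ) => ((e.1, e.2, true) : Bump)) (hu.pair (hv.pair (PT.const true)))
    (PT.filter (he.rat_lt ((PT.const 2).rat_mul hd)).decide hp)).append
    (PT.map (f := fun _ (e : ℕ × ℕ) => ((e.1, e.2, false) : Bump)) (hu.pair (hv.pair (PT.const false)))
      (PT.filter ((((PT.flL (hn.comp PT.id.fst) (hs.comp PT.id.fst) (hg.comp PT.id.fst) hu hv).int_add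
        (PT.SS (hs.comp PT.id.fst)).natCast_int).int_le
        (PT.PL (hs.comp PT.id.fst) ((PT.micro hs hs' hH).comp PT.id.fst) hu hv)).and
        (((PT.const 4).rat_mul hd).rat_lt he)).decide hp))).head?

theorem PT.fac {M : α → List (List ℕ)} {b : α → Bump} (hs : PT s) (hs' : PB s) (hM : PT M) (hb : PT b) :
    PT (fun a => R304.fac (s a) (M a) (b a)) := by
  have he := PT.est hM hb.fst hb.snd.fst
  have h1 : PT (fun a => R304.rq (s a) ^ (2 * R304.SS (s a))) :=
    (PT.rq hs).rat_pow ((PT.const 2).mul (PT.SS hs)) ((PB.const 2).mul (PB.SS hs'))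
  unfold R304.fac
  exact (PT.const 1).rat_add (he.rat_mul ((PT.ite (hb.snd.snd.eq (PT.const true)) h1 h1.rat_inv).rat_sub (PT.const 1)))

end mac

/-- the factor of one large step -/
def mfac (n s : ℕ) (g : List Bool) (H : List Bump) (l : List Bool) : ℚ :=
  (nxt n s g H (popRun n s H l)).elim 1 (fac s (popRun n s H l))

theorem macroS_eq (n s : ℕ) (g : List Bool) (z : List Bump × ℚ × Bool) (l : List Bool) :
    macroS n s g z l = if z.2.2 = true then z else
      (z.1 ++ (nxt n s g z.1 (popRun n s z.1 l)).toList, z.2.1 * mfac n s g z.1 l,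
        (nxt n s g z.1 (popRun n s z.1 l)).isNone) := by
  unfold macroS macroD mfac
  cases nxt n s g z.1 (popRun n s z.1 l) <;> simp

theorem PT.mfac {n s : α → ℕ} {g l : α → List Bool} {H : α → List Bump} (hn : PT n) (hn' : PB n) (hs : PT s)
    (hs' : PB s) (hg : PT g) (hH : PT H) (hl : PT l) : PT (fun a => R304.mfac (n a) (s a) (g a) (H a) (l a)) := by
  have hp := PT.popRun hn hn' hs hs' hH hl
  unfold R304.mfac
  exact PT.option_elim (f := fun a => R304.fac (s a) (R304.popRun (n a) (s a) (H a) (l a)))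
    (PT.nxt hn hn' hs hs' hg hH hp) (PT.const 1)
    (PT.fac (hs.comp PT.id.fst) (hs'.comp PT.id.fst) (hp.comp PT.id.fst) PT.id.snd)

theorem PT.macroS {n s : α → ℕ} {g l : α → List Bool} {z : α → List Bump × ℚ × Bool} (hn : PT n) (hn' : PB n)
    (hs : PT s) (hs' : PB s) (hg : PT g) (hz : PT z) (hl : PT l) :
    PT (fun a => R304.macroS (n a) (s a) (g a) (z a) (l a)) := by
  have hx := PT.nxt hn hn' hs hs' hg hz.fst (PT.popRun hn hn' hs hs' hz.fst hl)
  exact (PT.ite (hz.snd.snd.eq (PT.const true)) hz ((hz.fst.append hx.toList).pair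
    ((hz.snd.fst.rat_mul (PT.mfac hn hn' hs hs' hg hz.fst hl)).pair hx.isNone))).congr fun a => macroS_eq _ _ _ _ _

theorem sz_nxt {n s : ℕ} {g : List Bool} {H : List Bump} {M : List (List ℕ)} {b : Bump} (h : nxt n s g H M = some b) :
    sz b ≤ sz (prs n) + 4 := by
  have h1 := List.mem_of_mem_head? h
  have key : ∀ (e : ℕ × ℕ) (c : Bool), e ∈ prs n → sz ((e.1, e.2, c) : Bump) ≤ sz (prs n) + 4 := fun e c he => by
    have a1 := sz_mem he
    have a2 := sz_bool c
    rw [sz_prod] at a1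
    simp only [sz_pair]
    omega
  rcases List.mem_append.1 h1 with h2 | h2 <;>
  · obtain ⟨e, he, rfl⟩ := List.mem_map.1 h2
    exact key e _ (List.mem_of_mem_filter he)

theorem PT.tune {n s : α → ℕ} {g t : α → List Bool} (hn : PT n) (hn' : PB n) (hs : PT s) (hs' : PB s)
    (hg : PT g) (ht : PT t) : PT (fun a => R304.tune (n a) (s a) (g a) (t a)) := by
  have hF : PT (fun x : (U × U × List Bool) × List Bump × List Bool =>
      R304.mfac x.1.1.val x.1.2.1.val x.1.2.2 x.2.1 x.2.2) :=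
    PT.mfac (by fun_prop) (by fun_prop) (by fun_prop) (by fun_prop) (by fun_prop) (by fun_prop) (by fun_prop)
  obtain ⟨q, hq⟩ := hF.pb_sz
  have hv : PT (fun a => R304.Z0 (n a)) := by unfold R304.Z0; fun_prop
  have hL := PB.T0 hs'
  have hA : PT (fun a => ((⟨n a⟩ : U), (⟨s a⟩ : U), g a)) := (hn.toU hn').pair ((hs.toU hs').pair hg)
  have hP : PB (fun a => R304.T0 (s a) * (sz (R304.prs (n a)) + 4 + 1) + 1) :=
    (hL.mul (((PT.prs hn hn').pb_sz.add (PB.const 4)).add (PB.const 1))).add (PB.const 1)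
  have hQ := PB.poly_eval q (((hA.pb_sz.add hP).add ht.pb_sz).add (PB.const 2))
  have hB := ((hP.add (((PB.const 8).mul (hv.pb_sz.add (hL.mul hQ))).add (PB.const 15))).add (PB.const 5))
  unfold R304.tune
  refine PT.runL (step := fun a => R304.macroS (n a) (s a) (g a))
    (PT.macroS (hn.comp PT.id.fst) (hn'.comp PT.id.fst) (hs.comp PT.id.fst) (hs'.comp PT.id.fst) (hg.comp PT.id.fst)
      PT.id.snd.fst PT.id.snd.snd) (PT.plen hs) (PT.T0 hs) hL ((PT.const []).pair (hv.pair (PT.const false))) ht hB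
    fun a i hi => ?_
  generalize n a = n at hi ⊢
  generalize s a = s at hi ⊢
  generalize g a = g
  generalize t a = t
  have hsz : ∀ (H : List Bump) (j : ℕ), H.length ≤ j → (∀ b ∈ H, sz b ≤ sz (R304.prs n) + 4) → j ≤ R304.T0 s →
      sz H ≤ R304.T0 s * (sz (R304.prs n) + 4 + 1) + 1 := fun H j h1 h2 h3 =>
    (sz_list_le h2).trans (by gcongr; omega)
  set Q := q.eval (sz ((⟨n⟩ : U), (⟨s⟩ : U), g) + (R304.T0 s * (sz (R304.prs n) + 4 + 1) + 1) + sz t + 2) with hQd
  obtain ⟨k1, k2, k3⟩ := runL_inv_sub (R304.macroS n s g) (R304.plen s) t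
    (fun j (z : List Bump × ℚ × Bool) => z.1.length ≤ j ∧ (∀ b ∈ z.1, sz b ≤ sz (R304.prs n) + 4) ∧
      (j ≤ R304.T0 s → Ht z.2.1 (sz (R304.Z0 n) + j * Q)))
    (fun j z l hl ⟨h1, h2, h3⟩ => by
      rw [macroS_eq]
      split_ifs
      · refine ⟨h1.trans (Nat.le_succ _), h2, fun hj => (h3 (by omega)).mono ?_⟩
        rw [Nat.succ_mul]; omega
      · refine ⟨?_, fun b hb => ?_, fun hj => ?_⟩
        · cases R304.nxt n s g z.1 (R304.popRun n s z.1 l) <;> simp <;> omega
        · rcases List.mem_append.1 hb with hb | hb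
          · exact h2 b hb
          · exact sz_nxt (Option.mem_toList.1 hb)
        · have a1 := hsz z.1 j h1 h2 (by omega)
          have a2 := sz_sublist hl
          have a3 : sz (R304.mfac n s g z.1 l) ≤ Q :=
            (hq (((⟨n⟩ : U), (⟨s⟩ : U), g), z.1, l)).trans (eval_mono q (by
              rw [sz_pair ((⟨n⟩ : U), (⟨s⟩ : U), g), sz_pair z.1]; omega))
          refine ((h3 (by omega)).mul ((ht_sz _).mono a3)).mono ?_
          rw [Nat.succ_mul]; omega)
    i ([], R304.Z0 n, false) ⟨by simp, by simp, fun _ => (ht_sz _).mono (by simp)⟩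
  have a1 := hsz _ i k1 k2 hi
  have a2 := ((k3 hi).mono (m := sz (R304.Z0 n) + R304.T0 s * Q) (by gcongr)).sz_le
  generalize R309.runL (R304.macroS n s g) (R304.plen s) i ([], R304.Z0 n, false) t = st at a1 a2
  have a3 := sz_bool st.2.2
  rw [sz_prod, sz_prod]
  omega

theorem PT.finq {n s : α → ℕ} {g : α → List Bool} {ms : α → List Bump} {X : α → List ℕ} (hn : PT n) (hn' : PB n)
    (hs : PT s) (hs' : PB s) (hg : PT g) (hm : PT ms) (hX : PT X) :
    PT (fun a => R304.finq (n a) (s a) (g a) (ms a) (X a)) := by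
  have hw := PT.wq hn hn' hs hs' hm hX
  unfold R304.finq
  refine PT.ite (PT.eq (PT.all (f := fun a v => R304.adjL (n a) (g a) v (gn (X a) v)) (by fun_prop) (hn.range hn'))
    (PT.const true)) (PT.rat_div (by fun_prop) hw) (PT.const 0)

theorem PT.one {n s : α → ℕ} {g t : α → List Bool} (hn : PT n) (hn' : PB n) (hs : PT s) (hs' : PB s)
    (hg : PT g) (ht : PT t) : PT (fun a => R304.one (n a) (s a) (g a) (t a)) := by
  have h1 : PT (fun a => R304.T0 (s a) * R304.plen (s a)) := (PT.T0 hs).mul (PT.plen hs)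
  have hz := PT.tune hn hn' hs hs' hg (h1.take ht)
  have hm := PT.micro hs hs' hz.fst
  unfold R304.one R304.outD
  exact hz.snd.fst.rat_mul ((PT.map (f := fun a => R304.finq (n a) (s a) (g a) (R304.micro (s a)
    (R304.tune (n a) (s a) (g a) ((t a).take (R304.T0 (s a) * R304.plen (s a)))).1))
    (PT.finq (hn.comp PT.id.fst) (hn'.comp PT.id.fst) (hs.comp PT.id.fst) (hs'.comp PT.id.fst) (hg.comp PT.id.fst)
      (hm.comp PT.id.fst) PT.id.snd) (PT.popRun hn hn' hs hs' hz.fst (h1.drop ht))).rat_list_sum.rat_div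
    (PT.rr hs).natCast_rat)

theorem PT.cntA {n s : α → ℕ} {g t : α → List Bool} (hn : PT n) (hn' : PB n) (hs : PT s) (hs' : PB s)
    (hg : PT g) (ht : PT t) : PT (fun a => R304.cntA (n a) (s a) (g a) (t a)) := by
  unfold R304.cntA
  exact PT.ite (hn.eq (PT.const 0)) (PT.const 1) (PT.ite ((hn.mod (PT.const 2)).eq (PT.const 1)) (PT.const 0)
    ((PT.const 0).rat_max (PT.median (PT.draws (g := fun a => R304.one (n a) (s a) (g a))
      (PT.one (hn.comp PT.id.fst) (hn'.comp PT.id.fst) (hs.comp PT.id.fst) (hs'.comp PT.id.fst) (hg.comp PT.id.fst)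
        PT.id.snd) (PT.olen hs) ((PT.const 2).mul hs) ((PB.const 2).mul hs') ht))))

end Crest.Agent.R304
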