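import Crest.Agent.R304.PM

/-!
# R304: tuning the exponents of the weights

Weights `lw ρ P u v = ρ ^ P u v`, `ρ = 1 + 1/(200 S)`, `θ = ρ^(2S) ∈ [1.01, 1.0102]` (Bernoulli; `1 + x ≤ exp x`), `d = 1/(100 s^2)`.

PLAN.  `wt_bp`: `∏ v` changes only at `u` and `v` (`X v = u ↔ X u = v`).  `ZZ_bp`: sum it.  `mu_bp`: the ratios of `wt` and of `ZZ` both lie between
`1` and `ρ^(2k)`, so `mu / mu' ∈ [ρ^(-2), ρ^2]`, `ρ^2 - 1 ≤ 3/(200 S)`.  `xm_ge`: if `c * wt X ≤ wt' X` for all `X` containing the edge `a b` then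
`c * xm a b * ZZ ≤ xm' a b * ZZ'`.
`good_xm`: `wt P X ≥ wt P0 X * θ^(c a b)` on the matchings containing `a b`, and `(1+d/40)^(∑∑ c) ≤ exp (20 n^2 d / 40) ≤ exp (1/200) ≤ 1.0051`.
`up_step`: `c u v < 20`, since otherwise `xm ≥ 1.8 d * 1.01^20 / 1.0051 > 2.1 d`; new `c` = `c + 1` at `(u,v)`, `(v,u)`;
`ZZ' = ZZ (1 + x (θ-1)) ≤ ZZ (1 + d/40)`; `log ZZ` grows by at most `2.1 d * 0.0102`, the second term of `Phi` by `3 d log θ ≥ 3 d * 0.0099`;
for `0 ≤ k ≤ S`, `ZZ` grows by at most the factor `1 + d/40` and no weight decreases.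
`down_step`: every weight loses at most the factor `θ` and `ZZ` does not grow, so all `xm ≥ 1.9 d / 1.0102 ≥ 1.8 d`; take `P0` = the new `P`, `c = 0`;
`log ZZ` drops by at least `3.9 d (1 - 1/θ) ≥ 3.9 d * 0.0099`, the second term by `3 d log θ ≤ 3 d * 0.0102`.
`Phi_nonneg`: `log ZZ ≥ log (wt X)` for every `X`; average over the uniform law `mu (fun _ _ => 1)` and use `xm_init`, `3 d ≤ 1/n`.
`good_init`: `xm_init`; `Phi ≤ log ZZ = log (card) + n L log ρ`, `card_PM_le`, `log ρ ≤ 1/(200 S)`.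
-/

set_option autoImplicit false
set_option linter.unusedSectionVars false
open Finset

namespace Crest.Agent.R304

variable {V : Type} [Fintype V] [DecidableEq V]

noncomputable def rho (S : ℕ) : ℝ := 1 + 1 / (200 * S)
noncomputable def dd (s : ℕ) : ℝ := 1 / (100 * s ^ 2)

noncomputable def lw (ρ : ℝ) (P : V → V → ℤ) (u v : V) : ℝ := ρ ^ P u v

def Sym (P : V → V → ℤ) : Prop := ∀ u v, P u v = P v u

/-- change the exponent of the pair `u v` by `k` -/
def bp (P : V → V → ℤ) (u v : V) (k : ℤ) (a b : V) : ℤ :=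
  if (a = u ∧ b = v) ∨ (a = v ∧ b = u) then P a b + k else P a b

structure Good (s S : ℕ) (fl P : V → V → ℤ) : Prop where
  sym : Sym P
  ge : ∀ u v, u ≠ v → fl u v ≤ P u v ∧ (S : ℤ) ∣ P u v - fl u v
  ex : ∃ (P0 : V → V → ℤ) (c : V → V → ℕ), Sym P0 ∧ (∀ u v, P u v = P0 u v + S * c u v) ∧ (∀ u v, c u v ≤ 20) ∧
    (∀ u v, u ≠ v → 18 / 10 * dd s ≤ xm (lw (rho S) P0) u v) ∧
    ZZ (lw (rho S) P) ≤ ZZ (lw (rho S) P0) * (1 + dd s / 40) ^ (∑ u, ∑ v, c u v)

noncomputable def Phi (s S : ℕ) (P : V → V → ℤ) : ℝ :=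
  Real.log (ZZ (lw (rho S) P)) - 3 * dd s * Real.log (rho S) * ∑ u, ∑ v, if u ≠ v then (P u v : ℝ) else 0

/-- the standing size assumptions -/
structure Sz (V : Type) [Fintype V] [DecidableEq V] (s S : ℕ) : Prop where
  ne : Nonempty (PM V)
  card : Fintype.card V ≤ s
  big : 100 ≤ s
  pos : 0 < S

variable {s S : ℕ} {fl P : V → V → ℤ} {u v : V} {ρ : ℝ}

theorem one_lt_rho (h : 0 < S) : 1 < rho S := by
  have : (0 : ℝ) < S := by exact_mod_cast h
  unfold rho
  exact lt_add_of_pos_right _ (by positivity)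

theorem theta_mem (h : 0 < S) : 101 / 100 ≤ rho S ^ (2 * S) ∧ rho S ^ (2 * S) ≤ 10102 / 10000 := by
  have hS : (0 : ℝ) < S := by exact_mod_cast h
  have e : ((2 * S : ℕ) : ℝ) * (1 / (200 * S)) = 1 / 100 := by push_cast; field_simp; norm_num
  have h0 : (0 : ℝ) ≤ 1 / (200 * S) := by positivity
  constructor
  · have := one_add_mul_le_pow (a := (1 / (200 * S) : ℝ)) (by linarith) (2 * S)
    rw [e] at this
    unfold rho; linarith
  · calc rho S ^ (2 * S) ≤ Real.exp (1 / (200 * S)) ^ (2 * S) :=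
          pow_le_pow_left₀ (zero_le_one.trans (one_lt_rho h).le)
            (by unfold rho; linarith [Real.add_one_le_exp (1 / (200 * S) : ℝ)]) _
      _ = Real.exp (1 / 100) := by rw [← Real.exp_nat_mul, e]
      _ ≤ 1 / (1 - 1 / 100) := Real.exp_bound_div_one_sub_of_interval (by norm_num) (by norm_num)
      _ ≤ _ := by norm_num

theorem wt_lw (hρ : 0 < ρ) (h : Sym P) : Wt (lw ρ P) := by
  exact ⟨fun _ _ => zpow_pos hρ _, fun a b => by unfold lw; rw [h a b]⟩

theorem Sym.bp (h : Sym P) (u v : V) (k : ℤ) : Sym (bp P u v k) := by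
  intro a b
  unfold Crest.Agent.R304.bp
  rw [h a b]
  exact if_congr (by tauto) rfl rfl

theorem bp_zero (P : V → V → ℤ) (u v : V) : bp P u v 0 = P := by
  funext a b
  simp [bp]

theorem bp_bp (P : V → V → ℤ) (u v : V) (k k' : ℤ) : bp (bp P u v k) u v k' = bp P u v (k + k') := by
  funext a b
  unfold bp
  split_ifs
  · ring
  · rfl

theorem wt_bp (hρ : 0 < ρ) (huv : u ≠ v) (k : ℤ) (X : PM V) :
    wt (lw ρ (bp P u v k)) X = wt (lw ρ P) X * if X.1 u = v then ρ ^ (2 * k) else 1 := by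
  unfold wt lw
  split_ifs with h
  · have h' := X.symm h
    have : ∀ w, ρ ^ bp P u v k w (X.1 w) =
        ρ ^ P w (X.1 w) * ((if w = u then ρ ^ k else 1) * if w = v then ρ ^ k else 1) := by
      intro w
      unfold bp
      by_cases h1 : w = u
      · subst h1; simp [h, huv, zpow_add₀ hρ.ne']
      by_cases h2 : w = v
      · subst h2; simp [h', h1, zpow_add₀ hρ.ne']
      · simp [h1, h2]
    simp only [this]
    rw [prod_mul_distrib, prod_mul_distrib, prod_ite_eq', prod_ite_eq', two_mul, zpow_add₀ hρ.ne']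
    simp
  · rw [mul_one]
    refine prod_congr rfl fun w _ => ?_
    unfold bp
    rw [if_neg]
    rintro (⟨rfl, h1⟩ | ⟨rfl, h1⟩)
    · exact h h1
    · exact h (X.symm h1)

theorem wt_lw_pos (hρ : 0 < ρ) (P : V → V → ℤ) (X : PM V) : 0 < wt (lw ρ P) X :=
  prod_pos fun _ _ => zpow_pos hρ _

theorem ZZ_lw_pos [Nonempty (PM V)] (hρ : 0 < ρ) (P : V → V → ℤ) : 0 < ZZ (lw ρ P) :=
  sum_pos (fun X _ => wt_lw_pos hρ P X) univ_nonempty

theorem xm_mul_ZZ [Nonempty (PM V)] (hρ : 0 < ρ) (P : V → V → ℤ) (a b : V) :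
    xm (lw ρ P) a b * ZZ (lw ρ P) = ∑ X : PM V, if X.1 a = b then wt (lw ρ P) X else 0 := by
  rw [xm, sum_mul]
  refine sum_congr rfl fun X _ => ?_
  split_ifs
  · exact div_mul_cancel₀ _ (ZZ_lw_pos hρ P).ne'
  · exact zero_mul _

theorem ZZ_bp [Nonempty (PM V)] (hρ : 0 < ρ) (huv : u ≠ v) (k : ℤ) :
    ZZ (lw ρ (bp P u v k)) = ZZ (lw ρ P) * (1 + xm (lw ρ P) u v * (ρ ^ (2 * k) - 1)) := by
  rw [mul_add, mul_one, ← mul_assoc, mul_comm (ZZ _) (xm _ _ _), xm_mul_ZZ hρ, sum_mul, ZZ, ZZ, ← sum_add_distrib]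
  refine sum_congr rfl fun X _ => ?_
  rw [wt_bp hρ huv]
  split_ifs <;> ring

theorem mu_cmp (hρ : 1 ≤ ρ) (P : V → V → ℤ) (huv : u ≠ v) (k : ℕ) (X : PM V) :
    mu (lw ρ P) X ≤ ρ ^ (2 * k) * mu (lw ρ (bp P u v k)) X ∧
      mu (lw ρ (bp P u v k)) X ≤ ρ ^ (2 * k) * mu (lw ρ P) X := by
  have : Nonempty (PM V) := ⟨X⟩
  have h0 : 0 < ρ := one_pos.trans_le hρ
  have hr : 1 ≤ ρ ^ (2 * k) := one_le_pow₀ hρ
  have hw : ∀ Y, wt (lw ρ P) Y ≤ wt (lw ρ (bp P u v k)) Y ∧
      wt (lw ρ (bp P u v k)) Y ≤ ρ ^ (2 * k) * wt (lw ρ P) Y := by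
    intro Y
    have := wt_lw_pos h0 P Y
    rw [wt_bp h0 huv, show (2 * (k : ℤ)) = ((2 * k : ℕ) : ℤ) by push_cast; rfl, zpow_natCast]
    split_ifs <;> constructor <;> nlinarith
  have hZ1 : ZZ (lw ρ P) ≤ ZZ (lw ρ (bp P u v k)) := sum_le_sum fun Y _ => (hw Y).1
  have hZ2 : ZZ (lw ρ (bp P u v k)) ≤ ρ ^ (2 * k) * ZZ (lw ρ P) := by
    rw [ZZ, ZZ, mul_sum]; exact sum_le_sum fun Y _ => (hw Y).2
  have p1 := ZZ_lw_pos h0 P
  have p2 := ZZ_lw_pos h0 (bp P u v k)
  have p3 := wt_lw_pos h0 P X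
  have p4 := wt_lw_pos h0 (bp P u v k) X
  unfold mu
  rw [← mul_div_assoc, ← mul_div_assoc, div_le_div_iff₀ p1 p2, div_le_div_iff₀ p2 p1]
  constructor
  · calc _ ≤ wt (lw ρ (bp P u v k)) X * (ρ ^ (2 * k) * ZZ (lw ρ P)) := mul_le_mul (hw X).1 hZ2 p2.le p4.le
      _ = _ := by ring
  · exact mul_le_mul (hw X).2 hZ1 p1.le (by positivity)

theorem xm_cmp (hS : 0 < S) (P : V → V → ℤ) (huv : u ≠ v) {k : ℕ} (hk : k ≤ S) (a b : V) :
    xm (lw (rho S) P) a b ≤ 10102 / 10000 * xm (lw (rho S) (bp P u v k)) a b ∧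
      xm (lw (rho S) (bp P u v k)) a b ≤ 10102 / 10000 * xm (lw (rho S) P) a b := by
  have h1 := (one_lt_rho hS).le
  have h0 : 0 < rho S := one_pos.trans_le h1
  have hr : rho S ^ (2 * k) ≤ 10102 / 10000 := (pow_le_pow_right₀ h1 (by omega)).trans (theta_mem hS).2
  have hm : ∀ (Q : V → V → ℤ) (X : PM V), 0 ≤ mu (lw (rho S) Q) X := fun Q X =>
    haveI : Nonempty (PM V) := ⟨X⟩
    (div_pos (wt_lw_pos h0 Q X) (ZZ_lw_pos h0 Q)).le
  simp only [xm, mul_sum]
  constructor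
  · refine sum_le_sum fun X _ => ?_
    split_ifs
    · exact (mu_cmp h1 P huv k X).1.trans (mul_le_mul_of_nonneg_right hr (hm _ X))
    · simp
  · refine sum_le_sum fun X _ => ?_
    split_ifs
    · exact (mu_cmp h1 P huv k X).2.trans (mul_le_mul_of_nonneg_right hr (hm _ X))
    · simp

theorem xm_cmp' (hS : 0 < S) (P : V → V → ℤ) (huv : u ≠ v) {k : ℕ} (hk : k ≤ S) (a b : V) :
    xm (lw (rho S) P) a b ≤ 10102 / 10000 * xm (lw (rho S) (bp P u v (-k))) a b := by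
  have := (xm_cmp hS (bp P u v (-k)) huv hk a b).2
  rwa [bp_bp, neg_add_cancel, bp_zero] at this

theorem mu_bp (hS : 0 < S) (huv : u ≠ v) {k : ℤ} (hk : k = 1 ∨ k = -1) (X : PM V) :
    |mu (lw (rho S) P) X - mu (lw (rho S) (bp P u v k)) X| ≤ 3 / (200 * S) * mu (lw (rho S) (bp P u v k)) X := by
  have : Nonempty (PM V) := ⟨X⟩
  have h1 := (one_lt_rho hS).le
  have h0 : 0 < rho S := one_pos.trans_le h1
  have hc : mu (lw (rho S) P) X ≤ rho S ^ 2 * mu (lw (rho S) (bp P u v k)) X ∧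
      mu (lw (rho S) (bp P u v k)) X ≤ rho S ^ 2 * mu (lw (rho S) P) X := by
    rcases hk with rfl | rfl
    · simpa using mu_cmp h1 P huv 1 X
    · have := mu_cmp h1 (bp P u v (-1)) huv 1 X
      rw [bp_bp, Nat.cast_one, neg_add_cancel, bp_zero] at this
      exact this.symm
  have hr : rho S ^ 2 ≤ 1 + 3 / (200 * S) := by
    have hS' : (1 : ℝ) ≤ S := by exact_mod_cast hS
    have a0 : (0 : ℝ) ≤ 1 / (200 * S) := by positivity
    have a1 : (1 : ℝ) / (200 * S) ≤ 1 := by rw [div_le_one (by positivity)]; linarith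
    have e : (3 : ℝ) / (200 * S) = 3 * (1 / (200 * S)) := by ring
    unfold rho; rw [e]; nlinarith
  have p1 : 0 < mu (lw (rho S) P) X := div_pos (wt_lw_pos h0 _ X) (ZZ_lw_pos h0 _)
  have p2 : 0 < mu (lw (rho S) (bp P u v k)) X := div_pos (wt_lw_pos h0 _ X) (ZZ_lw_pos h0 _)
  have a3 : (0 : ℝ) ≤ 3 / (200 * S) := by positivity
  have q1 := hc.1.trans (mul_le_mul_of_nonneg_right hr p2.le)
  have q2 := hc.2.trans (mul_le_mul_of_nonneg_right hr p1.le)
  rw [abs_le]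
  constructor
  · rcases le_total (mu (lw (rho S) P) X) (mu (lw (rho S) (bp P u v k)) X) with h | h
    · nlinarith [mul_le_mul_of_nonneg_left h a3]
    · nlinarith [mul_nonneg a3 p2.le]
  · linarith

theorem dd_pos (hz : Sz V s S) : 0 < dd s := by
  have : (100 : ℝ) ≤ s := by exact_mod_cast hz.big
  unfold dd; positivity

theorem dd_le (hz : Sz V s S) (a : V) : 3 * dd s ≤ 1 / (Fintype.card V : ℝ) := by
  have h1 : (100 : ℝ) ≤ s := by exact_mod_cast hz.big
  have h2 : (Fintype.card V : ℝ) ≤ s := by exact_mod_cast hz.card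
  have h3 : (0 : ℝ) < Fintype.card V := by exact_mod_cast Fintype.card_pos_iff.2 ⟨a⟩
  unfold dd
  rw [mul_one_div, div_le_div_iff₀ (by positivity) h3]
  nlinarith

theorem good_aux (hz : Sz V s S) (hP : Sym P) {P0 : V → V → ℤ} {c : V → V → ℕ} (h0 : Sym P0)
    (hc : ∀ u v, P u v = P0 u v + S * c u v) (h20 : ∀ u v, c u v ≤ 20)
    (hx : ∀ u v, u ≠ v → 18 / 10 * dd s ≤ xm (lw (rho S) P0) u v)
    (hZ : ZZ (lw (rho S) P) ≤ ZZ (lw (rho S) P0) * (1 + dd s / 40) ^ (∑ u, ∑ v, c u v)) {a b : V} (hab : a ≠ b) :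
    c b a = c a b ∧ 18 / 10 * dd s * (101 / 100) ^ c a b ≤ xm (lw (rho S) P) a b * (10051 / 10000) := by
  have := hz.ne
  have h1 := (one_lt_rho hz.pos).le
  have hρ : 0 < rho S := one_pos.trans_le h1
  have hd := dd_pos hz
  have hcs : c b a = c a b := by
    have e1 := hc a b
    rw [hP a b, hc b a, h0 b a, add_right_inj] at e1
    have : (S : ℤ) ≠ 0 := by exact_mod_cast hz.pos.ne'
    exact_mod_cast mul_left_cancel₀ this e1
  refine ⟨hcs, ?_⟩
  have hw : ∀ X : PM V, X.1 a = b → (101 / 100) ^ c a b * wt (lw (rho S) P0) X ≤ wt (lw (rho S) P) X := by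
    intro X hX
    have e : wt (lw (rho S) P) X = rho S ^ (∑ w, S * c w (X.1 w)) * wt (lw (rho S) P0) X := by
      rw [← prod_pow_eq_pow_sum, wt, wt, ← prod_mul_distrib]
      refine prod_congr rfl fun w _ => ?_
      unfold lw
      rw [hc, zpow_add₀ hρ.ne', ← Nat.cast_mul, zpow_natCast, mul_comm]
    rw [e]
    refine mul_le_mul_of_nonneg_right ?_ (wt_lw_pos hρ _ X).le
    refine (pow_le_pow_left₀ (by norm_num) (theta_mem hz.pos).1 _).trans ?_
    rw [← pow_mul]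
    refine pow_le_pow_right₀ h1 (le_trans ?_ (sum_le_sum_of_subset (subset_univ {a, b})))
    rw [sum_pair hab, hX, X.symm hX, hcs]
    exact le_of_eq (by ring)
  have h2 : (101 / 100) ^ c a b * (xm (lw (rho S) P0) a b * ZZ (lw (rho S) P0)) ≤
      xm (lw (rho S) P) a b * ZZ (lw (rho S) P) := by
    rw [xm_mul_ZZ hρ, xm_mul_ZZ hρ, mul_sum]
    refine sum_le_sum fun X _ => ?_
    split_ifs with hX
    · exact hw X hX
    · simp
  have h3 : (1 + dd s / 40) ^ (∑ u, ∑ v, c u v) ≤ 10051 / 10000 := by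
    have hs : ∑ u, ∑ v, c u v ≤ 20 * s ^ 2 := by
      calc _ ≤ ∑ _u : V, ∑ _v : V, 20 := sum_le_sum fun _ _ => sum_le_sum fun _ _ => h20 _ _
        _ = 20 * Fintype.card V ^ 2 := by simp; ring
        _ ≤ _ := Nat.mul_le_mul_left _ (Nat.pow_le_pow_left hz.card 2)
    have hs0 : (100 : ℝ) ≤ s := by exact_mod_cast hz.big
    calc _ ≤ (1 + dd s / 40) ^ (20 * s ^ 2) := pow_le_pow_right₀ (by linarith) hs
      _ ≤ Real.exp (dd s / 40) ^ (20 * s ^ 2) :=
          pow_le_pow_left₀ (by linarith) (by linarith [Real.add_one_le_exp (dd s / 40)]) _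
      _ = Real.exp (1 / 200) := by
          rw [← Real.exp_nat_mul]; congr 1; unfold dd; push_cast; field_simp; norm_num
      _ ≤ 1 / (1 - 1 / 200) := Real.exp_bound_div_one_sub_of_interval (by norm_num) (by norm_num)
      _ ≤ _ := by norm_num
  have p0 := ZZ_lw_pos hρ P0
  have p1 := xm_nonneg (wt_lw hρ hP) a b
  refine le_of_mul_le_mul_right ?_ p0
  calc 18 / 10 * dd s * (101 / 100) ^ c a b * ZZ (lw (rho S) P0)
      = (101 / 100) ^ c a b * (18 / 10 * dd s * ZZ (lw (rho S) P0)) := by ring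
    _ ≤ (101 / 100) ^ c a b * (xm (lw (rho S) P0) a b * ZZ (lw (rho S) P0)) :=
        mul_le_mul_of_nonneg_left (mul_le_mul_of_nonneg_right (hx a b hab) p0.le) (by positivity)
    _ ≤ xm (lw (rho S) P) a b * (ZZ (lw (rho S) P0) * (10051 / 10000)) :=
        h2.trans (mul_le_mul_of_nonneg_left (hZ.trans (mul_le_mul_of_nonneg_left h3 p0.le)) p1)
    _ = _ := by ring

theorem good_xm (hz : Sz V s S) (h : Good s S fl P) {a b : V} (hab : a ≠ b) : 17 / 10 * dd s ≤ xm (lw (rho S) P) a b := by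
  obtain ⟨P0, c, h0, hc, h20, hx, hZ⟩ := h.ex
  have h1 := (good_aux hz h.sym h0 hc h20 hx hZ hab).2
  have hd := dd_pos hz
  have h2 : (1 : ℝ) ≤ (101 / 100) ^ c a b := one_le_pow₀ (by norm_num)
  nlinarith

theorem sum_bp (P : V → V → ℤ) (huv : u ≠ v) (k : ℤ) :
    ∑ a, ∑ b, (if a ≠ b then (bp P u v k a b : ℝ) else 0) =
      (∑ a, ∑ b, if a ≠ b then (P a b : ℝ) else 0) + 2 * k := by
  have : ∀ a b, (if a ≠ b then (bp P u v k a b : ℝ) else 0) = (if a ≠ b then (P a b : ℝ) else 0) +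
      ((if a = u then if b = v then (k : ℝ) else 0 else 0) + if a = v then if b = u then (k : ℝ) else 0 else 0) := by
    intro a b
    unfold bp
    by_cases h1 : a = u
    · subst h1
      by_cases h2 : b = v
      · subst h2; simp [huv]
      · simp [h2, huv]
    · by_cases h2 : a = v
      · subst h2
        by_cases h3 : b = u
        · subst h3; simp [h1]
        · simp [h1, h3]
      · simp [h1, h2]
  simp only [this, sum_add_distrib, sum_ite_irrel, sum_ite_eq', mem_univ, if_true, sum_const_zero]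
  ring

theorem Phi_bp (hz : Sz V s S) (P : V → V → ℤ) (huv : u ≠ v) (k : ℤ) :
    Phi s S (bp P u v k) ≤ Phi s S P + xm (lw (rho S) P) u v * (rho S ^ (2 * k) - 1)
      - 3 * dd s * (Real.log (rho S) * (2 * k)) := by
  have := hz.ne
  have hρ : 0 < rho S := one_pos.trans (one_lt_rho hz.pos)
  have p0 := ZZ_lw_pos hρ P
  have p1 := ZZ_lw_pos hρ (bp P u v k)
  rw [ZZ_bp hρ huv] at p1
  have p2 := (mul_pos_iff_of_pos_left p0).1 p1
  unfold Phi
  rw [sum_bp P huv, ZZ_bp hρ huv, Real.log_mul p0.ne' p2.ne']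
  have := Real.log_le_sub_one_of_pos p2
  linarith

theorem log_theta (h : 0 < S) : 99 / 10000 ≤ Real.log (rho S) * (2 * S) ∧ Real.log (rho S) * (2 * S) ≤ 102 / 10000 := by
  have e : Real.log (rho S) * (2 * S) = Real.log (rho S ^ (2 * S)) := by rw [Real.log_pow]; push_cast; ring
  obtain ⟨h1, h2⟩ := theta_mem h
  rw [e]
  constructor
  · refine le_trans ?_ (Real.log_le_log (by norm_num) h1)
    have := Real.one_sub_inv_le_log_of_pos (x := 101 / 100) (by norm_num)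
    norm_num at this ⊢; linarith
  · have := Real.log_le_sub_one_of_pos (x := rho S ^ (2 * S)) (by linarith)
    linarith

theorem up_step (hz : Sz V s S) (hf : Sym fl) (h : Good s S fl P) (huv : u ≠ v)
    (hx : xm (lw (rho S) P) u v ≤ 21 / 10 * dd s) :
    Good s S fl (bp P u v S) ∧ Phi s S (bp P u v S) ≤ Phi s S P - dd s / 200 ∧
      ∀ k : ℕ, k ≤ S → ∀ a b, a ≠ b → dd s ≤ xm (lw (rho S) (bp P u v k)) a b := by
  have := hz.ne
  obtain ⟨P0, c, h0, hc, h20, hx0, hZ⟩ := h.ex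
  have hd := dd_pos hz
  have hρ : 0 < rho S := one_pos.trans (one_lt_rho hz.pos)
  obtain ⟨hcs, h1⟩ := good_aux hz h.sym h0 hc h20 hx0 hZ huv
  obtain ⟨t1, t2⟩ := theta_mem hz.pos
  have eθ : rho S ^ (2 * (S : ℤ)) = rho S ^ (2 * S) := by
    rw [show (2 * (S : ℤ)) = ((2 * S : ℕ) : ℤ) by push_cast; rfl, zpow_natCast]
  have hx0' := xm_nonneg (wt_lw hρ h.sym) u v
  have hy : xm (lw (rho S) P) u v * (rho S ^ (2 * (S : ℤ)) - 1) ≤ 21 / 10 * dd s * (102 / 10000) := by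
    rw [eθ]; exact mul_le_mul hx (by linarith) (by linarith) (by positivity)
  have hlt : c u v < 20 := by
    refine lt_of_le_of_ne (h20 u v) fun e => ?_
    rw [e] at h1
    norm_num at h1
    nlinarith
  refine ⟨⟨h.sym.bp u v S, fun a b hab => ?_, P0,
    fun a b => if (a = u ∧ b = v) ∨ (a = v ∧ b = u) then c a b + 1 else c a b, h0, fun a b => ?_, fun a b => ?_, hx0, ?_⟩,
    ?_, fun k hk a b hab => ?_⟩
  · obtain ⟨g1, g2⟩ := h.ge a b hab
    unfold bp
    split_ifs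
    · exact ⟨by omega, by rw [add_sub_right_comm]; exact dvd_add g2 dvd_rfl⟩
    · exact ⟨g1, g2⟩
  · unfold bp
    beta_reduce
    split_ifs
    · rw [hc]; push_cast; ring
    · exact hc a b
  · beta_reduce
    split_ifs with hh
    · rcases hh with ⟨rfl, rfl⟩ | ⟨rfl, rfl⟩
      · exact hlt
      · rw [hcs]; exact hlt
    · exact h20 a b
  · have hs : ∑ a, ∑ b, c a b < ∑ a, ∑ b, if (a = u ∧ b = v) ∨ (a = v ∧ b = u) then c a b + 1 else c a b := by
      have hle : ∀ a b, c a b ≤ if (a = u ∧ b = v) ∨ (a = v ∧ b = u) then c a b + 1 else c a b := fun a b => by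
        split_ifs <;> omega
      exact sum_lt_sum (fun a _ => sum_le_sum fun b _ => hle a b) ⟨u, mem_univ _,
        sum_lt_sum (fun b _ => hle u b) ⟨v, mem_univ _, by simp⟩⟩
    have p0 := ZZ_lw_pos hρ P0
    have p1 := ZZ_lw_pos hρ P
    rw [ZZ_bp hρ huv]
    calc _ ≤ ZZ (lw (rho S) P) * (1 + dd s / 40) := mul_le_mul_of_nonneg_left (by linarith) p1.le
      _ ≤ ZZ (lw (rho S) P0) * (1 + dd s / 40) ^ (∑ u, ∑ v, c u v) * (1 + dd s / 40) :=
          mul_le_mul_of_nonneg_right hZ (by linarith)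
      _ ≤ _ := by
          rw [mul_assoc, ← pow_succ]
          exact mul_le_mul_of_nonneg_left (pow_le_pow_right₀ (by linarith) hs) p0.le
  · have := Phi_bp hz P huv S
    have h3 := mul_le_mul_of_nonneg_left (log_theta hz.pos).1 (by linarith : 0 ≤ 3 * dd s)
    rw [Int.cast_natCast] at this
    linarith
  · have := (xm_cmp hz.pos P huv hk a b).1
    have := good_xm hz h hab
    linarith

theorem down_step (hz : Sz V s S) (hf : Sym fl) (h : Good s S fl P) (huv : u ≠ v)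
    (hall : ∀ a b, a ≠ b → 19 / 10 * dd s ≤ xm (lw (rho S) P) a b) (hx : 39 / 10 * dd s ≤ xm (lw (rho S) P) u v)
    (hfl : fl u v + S ≤ P u v) :
    Good s S fl (bp P u v (-S)) ∧ Phi s S (bp P u v (-S)) ≤ Phi s S P - dd s / 200 ∧
      ∀ k : ℕ, k ≤ S → ∀ a b, a ≠ b → dd s ≤ xm (lw (rho S) (bp P u v (-k))) a b := by
  have hd := dd_pos hz
  obtain ⟨t1, t2⟩ := theta_mem hz.pos
  refine ⟨⟨h.sym.bp u v _, fun a b hab => ?_, bp P u v (-S), fun _ _ => 0, h.sym.bp u v _, fun a b => by simp,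
    fun a b => Nat.zero_le _, fun a b hab => ?_, by simp⟩, ?_, fun k hk a b hab => ?_⟩
  · obtain ⟨g1, g2⟩ := h.ge a b hab
    unfold bp
    split_ifs with hh
    · refine ⟨?_, by rw [add_sub_right_comm]; exact dvd_add g2 (dvd_neg.2 dvd_rfl)⟩
      rcases hh with ⟨rfl, rfl⟩ | ⟨rfl, rfl⟩
      · omega
      · rw [hf, h.sym]; omega
    · exact ⟨g1, g2⟩
  · have := xm_cmp' hz.pos P huv le_rfl a b
    have := hall a b hab
    linarith
  · have := Phi_bp hz P huv (-S)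
    have h3 := mul_le_mul_of_nonneg_left (log_theta hz.pos).2 (by linarith : 0 ≤ 3 * dd s)
    have eθ : rho S ^ (2 * (-S : ℤ)) = (rho S ^ (2 * S))⁻¹ := by
      rw [show (2 * (-S : ℤ)) = -((2 * S : ℕ) : ℤ) by push_cast; ring, zpow_neg, zpow_natCast]
    have h4 : (rho S ^ (2 * S))⁻¹ ≤ (101 / 100)⁻¹ := inv_anti₀ (by norm_num) t1
    have h5 : 39 / 10 * dd s * (99 / 10000) ≤ xm (lw (rho S) P) u v * (1 - (rho S ^ (2 * S))⁻¹) :=
      mul_le_mul hx (by norm_num at h4 ⊢; linarith) (by norm_num) (by linarith)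
    rw [eθ] at this
    push_cast at this
    linarith
  · have := xm_cmp' hz.pos P huv hk a b
    have := hall a b hab
    linarith

theorem Phi_nonneg (hz : Sz V s S) (hf : ∀ u v, 0 ≤ fl u v) (h : Good s S fl P) : 0 ≤ Phi s S P := by
  have := hz.ne
  have h1 := one_lt_rho hz.pos
  have hρ : 0 < rho S := one_pos.trans h1
  have hl : 0 ≤ Real.log (rho S) := (Real.log_pos h1).le
  have hW : Wt (fun _ _ : V => (1 : ℝ)) := ⟨fun _ _ => one_pos, fun _ _ => rfl⟩
  have hX : ∀ X : PM V, Real.log (rho S) * ∑ w, (P w (X.1 w) : ℝ) ≤ Real.log (ZZ (lw (rho S) P)) := by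
    intro X
    refine le_trans (le_of_eq ?_) (Real.log_le_log (wt_lw_pos hρ P X)
      (single_le_sum (fun Y _ => (wt_lw_pos hρ P Y).le) (mem_univ X)))
    rw [wt, Real.log_prod (f := fun v => lw (rho S) P v (X.1 v)) fun w _ => (zpow_pos hρ _).ne', mul_sum]
    exact sum_congr rfl fun w _ => by unfold lw; rw [Real.log_zpow, mul_comm]
  have h2 : ∑ X : PM V, mu (fun _ _ => 1) X * (Real.log (rho S) * ∑ w, (P w (X.1 w) : ℝ)) ≤
      Real.log (ZZ (lw (rho S) P)) := by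
    refine (sum_le_sum fun X _ => mul_le_mul_of_nonneg_left (hX X) (mu_pos hW X).le).trans ?_
    rw [← sum_mul, sum_mu hW, one_mul]
  have h3 : ∑ X : PM V, mu (fun _ _ => 1) X * (Real.log (rho S) * ∑ w, (P w (X.1 w) : ℝ)) =
      Real.log (rho S) * ∑ w, ∑ z, xm (fun _ _ => 1) w z * (P w z : ℝ) := by
    simp only [xm, mul_sum, sum_mul]
    rw [sum_comm]
    refine sum_congr rfl fun w _ => ?_
    rw [sum_comm]
    refine sum_congr rfl fun X _ => ?_
    simp only [ite_mul, zero_mul, mul_ite, mul_zero, sum_ite_eq, mem_univ, if_true]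
    ring
  rw [Phi, sub_nonneg, mul_comm (3 * dd s), mul_assoc]
  refine le_trans (mul_le_mul_of_nonneg_left ?_ hl) (h3.ge.trans h2)
  rw [mul_sum]
  refine sum_le_sum fun w _ => ?_
  rw [mul_sum]
  refine sum_le_sum fun z _ => ?_
  split_ifs with hwz
  · have : (0 : ℝ) ≤ P w z := by exact_mod_cast (hf w z).trans (h.ge w z hwz).1
    exact mul_le_mul_of_nonneg_right ((dd_le hz w).trans (xm_init one_pos hwz)) this
  · rw [not_not] at hwz
    subst hwz
    simp [xm, PM.ne]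

theorem good_init (hz : Sz V s S) (hf : ∀ u v, fl u v = 0 ∨ fl u v = (200 * S * s ^ 2 : ℕ)) :
    Good s S fl (fun _ _ : V => (200 * S * s ^ 2 : ℕ)) ∧
      Phi s S (fun _ _ : V => (200 * S * s ^ 2 : ℕ)) ≤ 2 * s ^ 3 := by
  have := hz.ne
  have h1 := one_lt_rho hz.pos
  have hρ : 0 < rho S := one_pos.trans h1
  have hl : 0 ≤ Real.log (rho S) := (Real.log_pos h1).le
  have hd := dd_pos hz
  refine ⟨⟨fun _ _ => rfl, fun a b _ => ?_, fun _ _ => (200 * S * s ^ 2 : ℕ), fun _ _ => 0, fun _ _ => rfl,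
    fun _ _ => by simp, fun _ _ => Nat.zero_le _, fun a b hab => ?_, by simp⟩, ?_⟩
  · rcases hf a b with e | e <;> rw [e]
    · exact ⟨by positivity, ⟨200 * s ^ 2, by push_cast; ring⟩⟩
    · simp
  · have := xm_init (V := V) (zpow_pos hρ ((200 * S * s ^ 2 : ℕ) : ℤ)) hab
    have h2 := dd_le hz a
    exact le_trans (by linarith) this
  · have h2 : 0 ≤ 3 * dd s * Real.log (rho S) *
        ∑ u : V, ∑ v : V, if u ≠ v then (((200 * S * s ^ 2 : ℕ) : ℤ) : ℝ) else 0 :=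
      mul_nonneg (by positivity) (sum_nonneg fun _ _ => sum_nonneg fun _ _ => by split_ifs <;> positivity)
    have h3 : ZZ (lw (rho S) fun _ _ : V => ((200 * S * s ^ 2 : ℕ) : ℤ)) =
        Fintype.card (PM V) * rho S ^ (200 * S * s ^ 2 * Fintype.card V) := by
      simp only [ZZ, wt, lw, zpow_natCast, prod_const, sum_const, card_univ, nsmul_eq_mul, ← pow_mul]
    have hc : (0 : ℝ) < Fintype.card (PM V) := by exact_mod_cast Fintype.card_pos
    have hn : (Fintype.card V : ℝ) ≤ s := by exact_mod_cast hz.card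
    have hn0 : (0 : ℝ) ≤ Fintype.card V := Nat.cast_nonneg _
    have hs : (100 : ℝ) ≤ s := by exact_mod_cast hz.big
    have hS : (0 : ℝ) < S := by exact_mod_cast hz.pos
    have h4 : Real.log (Fintype.card (PM V)) ≤ s ^ 2 := by
      have : (Fintype.card (PM V) : ℝ) ≤ (Fintype.card V : ℝ) ^ Fintype.card V := by exact_mod_cast card_PM_le
      refine (Real.log_le_log hc this).trans ?_
      rw [Real.log_pow, sq]
      exact mul_le_mul hn ((Real.log_le_self hn0).trans hn) (Real.log_natCast_nonneg _) (by linarith)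
    have h5 : Real.log (rho S) ≤ 1 / (200 * S) := by
      have := Real.log_le_sub_one_of_pos hρ
      unfold rho at this ⊢; linarith
    have h6 : ((200 * S * s ^ 2 * Fintype.card V : ℕ) : ℝ) * Real.log (rho S) ≤ s ^ 2 * s := by
      refine (mul_le_mul_of_nonneg_left h5 (Nat.cast_nonneg _)).trans ?_
      have : ((200 * S * s ^ 2 * Fintype.card V : ℕ) : ℝ) * (1 / (200 * S)) = s ^ 2 * Fintype.card V := by
        push_cast; field_simp
      rw [this]
      exact mul_le_mul_of_nonneg_left hn (sq_nonneg _)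
    unfold Phi
    rw [h3, Real.log_mul hc.ne' (pow_pos hρ _).ne', Real.log_pow]
    nlinarith

end Crest.Agent.R304
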