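import Crest.Agent.R304.Alg
import Crest.Agent.R304.Tune

/-!
# R304: the sizes of the parameters

PLAN.  With `b = bz s ≥ 7`, `p = pw2 s = 2^b`: `s < p ≤ 2s`, `RR = p^194`, `rr = p^388`, `SS ≤ p^794`, `T0 ≤ p^8`, `8000 b ≤ p^3`, so `TT ≤ p^478`;
`2^BB = p^2000`.  `err_step`: `(r η)^2 = 9/(40000 SS s^18)`; `η * 2200 AA^2 / RR ≤ 33 / (SS s^20)`;
`(1 - 1/(8 r A))^TT ≤ exp (-1000 b) ≤ 2^(-1000 b) = p^(-1000)` (`Real.one_sub_le_exp_neg`-type bound, `2 ≤ e`); `TT / 2^BB ≤ p^(-1522)`;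
each of the four terms is at most a quarter of the bound.  Never let `norm_num`/`ring` expand `rr`, `SS`: generalise `p`, `s` first.
-/

set_option autoImplicit false
open Finset

namespace Crest.Agent.R304

variable {s n : ℕ}

theorem lt_pw2 (s : ℕ) : s < pw2 s := Nat.lt_size_self s

theorem pw2_le' (h : 0 < s) : pw2 s ≤ 2 * s := by
  unfold pw2 bz
  have h1 : 0 < Nat.size s := Nat.size_pos.2 h
  have h2 : 2 ^ (Nat.size s - 1) ≤ s := Nat.lt_size.1 (by omega)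
  calc 2 ^ Nat.size s = 2 * 2 ^ (Nat.size s - 1) := by
        rw [← pow_succ', Nat.sub_add_cancel h1]
    _ ≤ 2 * s := by omega

theorem pw2_le (s : ℕ) : pw2 s ≤ 2 * s + 1 := by
  rcases Nat.eq_zero_or_pos s with rfl | h
  · simp [pw2, bz]
  · have := pw2_le' h
    omega

theorem rr_eq (s : ℕ) : rr s = pw2 s ^ 388 := by
  unfold rr RR; rw [← pow_mul]

theorem two_pow_mul_bz (s k : ℕ) : 2 ^ (k * bz s) = pw2 s ^ k := by
  unfold pw2; rw [← pow_mul, mul_comm]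

theorem two_pow_b0 (s : ℕ) : 2 ^ b0 s = rr s * rr s * 2 ^ (2 * bz s) := by
  unfold b0
  rw [two_pow_mul_bz, two_pow_mul_bz, rr_eq, ← pow_add, ← pow_add]

theorem pw2_pos (s : ℕ) : 0 < pw2 s := Nat.two_pow_pos _

theorem rr_pos (s : ℕ) : 0 < rr s := by
  rw [rr_eq]; exact pow_pos (pw2_pos s) _

theorem four_le_rr (h : 100 ≤ s) : 4 ≤ rr s := by
  have h1 := lt_pw2 s
  rw [rr_eq]
  exact le_trans (by omega) (Nat.le_self_pow (by norm_num) _)

theorem SS_pos (h : 0 < s) : 0 < SS s :=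
  Nat.mul_pos (pow_pos h _) (pow_pos (rr_pos s) _)

theorem rq_cast (s : ℕ) : ((rq s : ℚ) : ℝ) = rho (SS s) := by
  unfold rq rho
  generalize SS s = x
  push_cast
  rfl

theorem dq_cast (s : ℕ) : ((dq s : ℚ) : ℝ) = dd s := by
  unfold dq dd
  push_cast
  rfl

theorem rq_pos (s : ℕ) : 0 < rq s := by
  unfold rq
  generalize SS s = x
  positivity

theorem AA_ge (h : 100 ≤ s) (hn : n ≤ s) :
    2 * (18 * (n : ℝ) ^ 23 * (2 * n / dd s) ^ 12) * 2 ^ (2 * bz s) ≤ AA s := by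
  have h1 : (100 : ℝ) ≤ s := by exact_mod_cast h
  have h2 : (n : ℝ) ≤ s := by exact_mod_cast hn
  have h3 : (2 : ℝ) ^ (2 * bz s) ≤ (2 * s) ^ 2 := by
    have : 2 ^ (2 * bz s) ≤ (2 * s) ^ 2 := by
      rw [two_pow_mul_bz]; exact Nat.pow_le_pow_left (pw2_le' (by omega)) _
    exact_mod_cast this
  have h0 : (0 : ℝ) ≤ n := Nat.cast_nonneg _
  have h00 : (0 : ℝ) ≤ (2 : ℝ) ^ (2 * bz s) := by positivity
  unfold AA dd
  push_cast
  generalize (2 : ℝ) ^ (2 * bz s) = w at h3 h00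
  generalize (s : ℝ) = x at *
  generalize (n : ℝ) = y at *
  have hx : 0 < x := by linarith
  have h4 : 2 * y / (1 / (100 * x ^ 2)) ≤ 2 * x ^ 4 := by
    rw [div_div_eq_mul_div, div_one]
    calc 2 * y * (100 * x ^ 2) ≤ 2 * x * (x * x ^ 2) := by gcongr
      _ = 2 * x ^ 4 := by ring
  have h5 : (589824 : ℝ) ≤ x ^ 14 := le_trans (by norm_num) (pow_le_pow_left₀ (by norm_num) h1 14)
  calc 2 * (18 * y ^ 23 * (2 * y / (1 / (100 * x ^ 2))) ^ 12) * w
      ≤ 2 * (18 * x ^ 23 * (2 * x ^ 4) ^ 12) * (2 * x) ^ 2 := by gcongr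
    _ = 589824 * x ^ 73 := by ring
    _ ≤ x ^ 14 * x ^ 73 := by gcongr
    _ = x ^ 87 := by ring

theorem r_eta (h : 100 ≤ s) : (rr s : ℝ) * (3 / (200 * SS s)) ≤ 1 := by
  have h1 : rr s ≤ SS s := by
    unfold SS
    exact le_trans (Nat.le_self_pow (by norm_num) _) (Nat.le_mul_of_pos_left _ (pow_pos (by omega) _))
  have h2 : (rr s : ℝ) ≤ SS s := by exact_mod_cast h1
  have h3 : (0 : ℝ) < SS s := by exact_mod_cast SS_pos (s := s) (by omega)
  generalize (rr s : ℝ) = r at *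
  generalize (SS s : ℝ) = S at *
  rw [← mul_div_assoc, div_le_one (by positivity)]
  linarith

theorem TT_le (h : 100 ≤ s) : TT s ≤ pw2 s ^ 478 := by
  have h1 := lt_pw2 s
  have h2 : bz s ≤ pw2 s := Nat.lt_two_pow_self.le
  have h3 : 8000 ≤ pw2 s ^ 2 := le_trans (by norm_num) (Nat.pow_le_pow_left (h.trans h1.le) 2)
  unfold TT AA
  rw [rr_eq]
  generalize pw2 s = p at *
  calc 8 * p ^ 388 * s ^ 87 * (1000 * bz s) = 8000 * bz s * p ^ 388 * s ^ 87 := by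
        generalize p ^ 388 = a; generalize s ^ 87 = b; ring
    _ ≤ p ^ 2 * p * p ^ 388 * p ^ 87 := by gcongr
    _ = p ^ 478 := by rw [← pow_succ, ← pow_add, ← pow_add]

theorem SS_le (s : ℕ) : SS s ≤ pw2 s ^ 794 := by
  have h1 := lt_pw2 s
  unfold SS
  rw [rr_eq]
  generalize pw2 s = p at *
  calc s ^ 18 * (p ^ 388) ^ 2 ≤ p ^ 18 * (p ^ 388) ^ 2 := by gcongr
    _ = p ^ 794 := by rw [← pow_mul, ← pow_add]

theorem decay {M k : ℕ} (hM : 0 < M) : (1 - 1 / (M : ℝ)) ^ (M * k) ≤ 1 / 2 ^ k := by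
  have h0 : (1 : ℝ) ≤ M := by exact_mod_cast hM
  have h1 : (0 : ℝ) ≤ 1 - 1 / (M : ℝ) := by
    rw [sub_nonneg, div_le_one (by linarith)]; exact h0
  have h2 : (1 - 1 / (M : ℝ)) ^ M ≤ 1 / 2 := by
    calc (1 - 1 / (M : ℝ)) ^ M ≤ Real.exp (-(1 / (M : ℝ))) ^ M :=
          pow_le_pow_left₀ h1 (Real.one_sub_le_exp_neg _) _
      _ = Real.exp (-1) := by
          rw [← Real.exp_nat_mul]; congr 1; field_simp
      _ ≤ 1 / 2 := by
          rw [Real.exp_neg, ← one_div]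
          exact one_div_le_one_div_of_le (by norm_num) (by linarith [Real.add_one_le_exp (1 : ℝ)])
  rw [pow_mul, ← one_div_pow]
  exact pow_le_pow_left₀ (pow_nonneg h1 _) h2 _

theorem err_step (h : 100 ≤ s) :
    ((rr s : ℝ) * (3 / (200 * SS s))) ^ 2 + 3 / (200 * SS s) *
      ((rr s + 2 * TT s) * (1 - 1 / (8 * rr s * AA s : ℝ)) ^ TT s + 2200 * (AA s : ℝ) ^ 2 / RR s) +
      TT s * (1 / 2 ^ BB s) ≤ 1 / (SS s * (s : ℝ) ^ 18) := by
  have hp := lt_pw2 s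
  have hp4 : 4 ≤ pw2 s := by omega
  have hT := TT_le h
  have hS := SS_le s
  have hs18 : s ^ 18 ≤ pw2 s ^ 18 := Nat.pow_le_pow_left hp.le _
  -- natural-number estimates
  have n1 : (rr s + 2 * TT s) * s ^ 18 ≤ pw2 s ^ 1000 := by
    have h1 : rr s ≤ pw2 s ^ 478 := by
      rw [rr_eq]; exact Nat.pow_le_pow_right (pw2_pos s) (by norm_num)
    calc (rr s + 2 * TT s) * s ^ 18 ≤ (pw2 s * pw2 s ^ 478) * pw2 s ^ 18 := by
          refine Nat.mul_le_mul ?_ hs18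
          calc rr s + 2 * TT s ≤ 4 * pw2 s ^ 478 := by omega
            _ ≤ _ := Nat.mul_le_mul_right _ hp4
      _ = pw2 s ^ 497 := by rw [← pow_succ', ← pow_add]
      _ ≤ _ := Nat.pow_le_pow_right (pw2_pos s) (by norm_num)
  have n2 : 132 * (AA s ^ 2 * s ^ 18) ≤ RR s := by
    have h3 : 132 ≤ pw2 s ^ 2 := le_trans (by norm_num) (Nat.pow_le_pow_left (h.trans hp.le) 2)
    unfold AA RR
    rw [← pow_mul, ← pow_add]
    calc 132 * s ^ (87 * 2 + 18) ≤ pw2 s ^ 2 * pw2 s ^ (87 * 2 + 18) :=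
          Nat.mul_le_mul h3 (Nat.pow_le_pow_left hp.le _)
      _ = _ := by rw [← pow_add]
  have n3 : 4 * (TT s * (SS s * s ^ 18)) ≤ 2 ^ BB s := by
    unfold BB
    rw [two_pow_mul_bz]
    calc 4 * (TT s * (SS s * s ^ 18)) ≤ pw2 s * (pw2 s ^ 478 * (pw2 s ^ 794 * pw2 s ^ 18)) := by gcongr
      _ = pw2 s ^ 1291 := by rw [← pow_add, ← pow_add, ← pow_succ']
      _ ≤ _ := Nat.pow_le_pow_right (pw2_pos s) (by norm_num)
  have n4 : rr s ^ 2 * s ^ 18 = SS s := by unfold SS; rw [mul_comm]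
  have d1 : (1 - 1 / (8 * rr s * AA s : ℝ)) ^ TT s ≤ 1 / (pw2 s : ℝ) ^ 1000 := by
    have hM : 0 < 8 * rr s * AA s :=
      Nat.mul_pos (Nat.mul_pos (by norm_num) (rr_pos s)) (pow_pos (by omega) _)
    have h1 := decay (k := 1000 * bz s) hM
    have h2 : ((2 : ℝ)) ^ (1000 * bz s) = (pw2 s : ℝ) ^ 1000 := by
      exact_mod_cast two_pow_mul_bz s 1000
    rw [h2, Nat.cast_mul, Nat.cast_mul, Nat.cast_ofNat] at h1
    exact h1
  have r1 : ((rr s : ℝ) + 2 * TT s) * (s : ℝ) ^ 18 ≤ (pw2 s : ℝ) ^ 1000 := by exact_mod_cast n1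
  have r2 : 132 * ((AA s : ℝ) ^ 2 * (s : ℝ) ^ 18) ≤ RR s := by exact_mod_cast n2
  have r3 : 4 * ((TT s : ℝ) * (SS s * (s : ℝ) ^ 18)) ≤ 2 ^ BB s := by exact_mod_cast n3
  have r4 : (rr s : ℝ) ^ 2 * (s : ℝ) ^ 18 = SS s := by exact_mod_cast n4
  have p1 : (0 : ℝ) < SS s := by exact_mod_cast SS_pos (s := s) (by omega)
  have p2 : (0 : ℝ) < (s : ℝ) ^ 18 := by
    have : (0 : ℝ) < s := by exact_mod_cast (by omega : 0 < s)
    positivity
  have p3 : (0 : ℝ) < (pw2 s : ℝ) ^ 1000 := by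
    have : (0 : ℝ) < pw2 s := by exact_mod_cast pw2_pos s
    positivity
  have p4 : (0 : ℝ) < RR s := by exact_mod_cast (pow_pos (pw2_pos s) 194 : 0 < RR s)
  have p5 : (0 : ℝ) < 2 ^ BB s := by positivity
  have p6 : (0 : ℝ) ≤ (rr s : ℝ) + 2 * TT s := by positivity
  generalize (1 - 1 / (8 * rr s * AA s : ℝ)) ^ TT s = D at *
  generalize (rr s : ℝ) + 2 * TT s = Z at *
  generalize (pw2 s : ℝ) ^ 1000 = P at *
  generalize (2 : ℝ) ^ BB s = Q at *
  generalize (s : ℝ) ^ 18 = x at *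
  generalize (AA s : ℝ) ^ 2 = A at *
  generalize (rr s : ℝ) = r at *
  generalize (SS s : ℝ) = S at *
  generalize (TT s : ℝ) = T at *
  generalize (RR s : ℝ) = R at *
  have e1 : (r * (3 / (200 * S))) ^ 2 = 9 / 40000 * (1 / (S * x)) := by
    have : r ^ 2 = S / x := by rw [← r4]; field_simp
    rw [mul_pow, this]; field_simp; norm_num
  have e2 : Z * D ≤ 1 / x := by
    calc Z * D ≤ Z * (1 / P) := by gcongr
      _ ≤ 1 / x := by
        rw [mul_one_div, div_le_div_iff₀ p3 p2]; linarith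
  have e3 : 2200 * A / R ≤ 2200 / 132 * (1 / x) := by
    rw [mul_one_div, div_le_div_iff₀ p4 p2]; linarith
  have e4 : T * (1 / Q) ≤ 1 / 4 * (1 / (S * x)) := by
    rw [mul_one_div, mul_one_div, div_le_div_iff₀ p5 (by positivity)]; linarith
  have e5 : 3 / (200 * S) * (Z * D + 2200 * A / R) ≤ 3 / (200 * S) * (1 / x + 2200 / 132 * (1 / x)) := by
    gcongr
  have e6 : 3 / (200 * S) * (1 / x + 2200 / 132 * (1 / x)) = 53 / 200 * (1 / (S * x)) := by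
    field_simp; norm_num
  have e7 : 0 < 1 / (S * x) := by positivity
  linarith

theorem err_gen (h : 100 ≤ s) : (rr s : ℝ) * (s * s / 2 ^ BB s) ≤ 1 / (s : ℝ) ^ 10 := by
  have hp := lt_pw2 s
  have n1 : rr s * (s * s) * s ^ 10 ≤ 2 ^ BB s := by
    unfold BB
    rw [two_pow_mul_bz, rr_eq]
    calc pw2 s ^ 388 * (s * s) * s ^ 10 ≤ pw2 s ^ 388 * (pw2 s * pw2 s) * pw2 s ^ 10 := by gcongr
      _ = pw2 s ^ 400 := by rw [← pow_two, ← pow_add, ← pow_add]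
      _ ≤ _ := Nat.pow_le_pow_right (pw2_pos s) (by norm_num)
  have r1 : (rr s : ℝ) * (s * s) * (s : ℝ) ^ 10 ≤ 2 ^ BB s := by exact_mod_cast n1
  have p2 : (0 : ℝ) < s := by exact_mod_cast (by omega : 0 < s)
  rw [← mul_div_assoc, div_le_div_iff₀ (by positivity) (by positivity), one_mul]
  exact r1

theorem err_cheb (h : 100 ≤ s) : (s : ℝ) ^ 2 * (1 / (rr s * (1 / (s : ℝ) ^ 10) ^ 2)) ≤ 1 / (s : ℝ) ^ 10 := by
  have hp := lt_pw2 s
  have n1 : s ^ 32 ≤ rr s := by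
    rw [rr_eq]
    exact (Nat.pow_le_pow_left hp.le _).trans (Nat.pow_le_pow_right (pw2_pos s) (by norm_num))
  have r1 : (s : ℝ) ^ 32 ≤ rr s := by exact_mod_cast n1
  have p2 : (0 : ℝ) < s := by exact_mod_cast (by omega : 0 < s)
  have p3 : (0 : ℝ) < rr s := by exact_mod_cast rr_pos s
  generalize (rr s : ℝ) = r at *
  generalize (s : ℝ) = x at *
  calc x ^ 2 * (1 / (r * (1 / x ^ 10) ^ 2)) = x ^ 32 / r * (1 / x ^ 10) := by field_simp
    _ ≤ 1 * (1 / x ^ 10) := by gcongr; rwa [div_le_one p3]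
    _ = _ := one_mul _

theorem T0_big (h : 100 ≤ s) : 2 * (s : ℝ) ^ 3 < T0 s * (dd s / 200) := by
  have h1 : (100 : ℝ) ≤ s := by exact_mod_cast h
  unfold T0 dd
  push_cast
  generalize (s : ℝ) = x at *
  have hx : 0 < x := by linarith
  have h5 : (40000 : ℝ) < x ^ 3 := lt_of_lt_of_le (by norm_num) (pow_le_pow_left₀ (by norm_num) h1 3)
  calc 2 * x ^ 3 = 40000 * (x ^ 3 / 20000) := by ring
    _ < x ^ 3 * (x ^ 3 / 20000) := by gcongr
    _ = x ^ 8 * (1 / (100 * x ^ 2) / 200) := by field_simp; norm_num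

theorem xi_small (h : 100 ≤ s) : 1 / (s : ℝ) ^ 10 ≤ dd s / 10 := by
  have h1 : (100 : ℝ) ≤ s := by exact_mod_cast h
  unfold dd
  generalize (s : ℝ) = x at *
  have hx : 0 < x := by linarith
  have h5 : (1000 : ℝ) ≤ x ^ 8 := le_trans (by norm_num) (pow_le_pow_left₀ (by norm_num) h1 8)
  rw [div_div]
  refine one_div_le_one_div_of_le (by positivity) ?_
  calc 100 * x ^ 2 * 10 = 1000 * x ^ 2 := by ring
    _ ≤ x ^ 8 * x ^ 2 := by gcongr
    _ = x ^ 10 := by ring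

/-- the accumulated relative error -/
theorem err_fin (h : 100 ≤ s) : 1 - 1 / (s : ℝ) ≤ (1 - 1 / (s : ℝ) ^ 10) ^ T0 s * (1 - 4 / (s : ℝ) ^ 10) ∧
    (1 + 1 / (s : ℝ) ^ 10) ^ T0 s * (1 + 4 / (s : ℝ) ^ 10) ≤ 1 + 1 / (s : ℝ) := by
  have h1 : (100 : ℝ) ≤ s := by exact_mod_cast h
  have hx : (0 : ℝ) < s := by linarith
  have hT : (T0 s : ℝ) * (1 / (s : ℝ) ^ 10) = (1 / (s : ℝ)) ^ 2 := by
    unfold T0; push_cast; field_simp
  have hy : 1 / (s : ℝ) ≤ 1 / 100 := one_div_le_one_div_of_le (by norm_num) h1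
  have hy0 : 0 < 1 / (s : ℝ) := by positivity
  have hz : 1 / (s : ℝ) ^ 10 ≤ (1 / (s : ℝ)) ^ 2 := by
    rw [← one_div_pow]
    exact pow_le_pow_of_le_one hy0.le (by linarith) (by norm_num)
  have hz0 : 0 < 1 / (s : ℝ) ^ 10 := by positivity
  have e4 : 4 / (s : ℝ) ^ 10 = 4 * (1 / (s : ℝ) ^ 10) := by ring
  rw [e4]
  generalize 1 / (s : ℝ) ^ 10 = z at *
  generalize 1 / (s : ℝ) = y at *
  generalize T0 s = T at *
  have hyy : y ^ 2 ≤ y / 100 := by nlinarith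
  constructor
  · have h2 := one_add_mul_le_pow (a := -z) (by linarith) T
    rw [mul_neg, hT, ← sub_eq_add_neg, ← sub_eq_add_neg] at h2
    calc 1 - y ≤ (1 - y ^ 2) * (1 - 4 * z) := by nlinarith
      _ ≤ _ := by gcongr; linarith
  · have h2 : (1 + z) ^ T ≤ 1 + 2 * y ^ 2 := by
      calc (1 + z) ^ T ≤ Real.exp z ^ T :=
            pow_le_pow_left₀ (by linarith) (by linarith [Real.add_one_le_exp z]) _
        _ = Real.exp (y ^ 2) := by rw [← Real.exp_nat_mul, hT]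
        _ ≤ 1 + 2 * y ^ 2 := by
            have h3 := Real.abs_exp_sub_one_le (x := y ^ 2) (by
              rw [abs_of_nonneg (by positivity)]; linarith)
            rw [abs_of_nonneg (a := y ^ 2) (by positivity)] at h3
            linarith [le_abs_self (Real.exp (y ^ 2) - 1)]
    calc (1 + z) ^ T * (1 + 4 * z) ≤ (1 + 2 * y ^ 2) * (1 + 4 * z) := by gcongr
      _ ≤ (1 + y / 50) * (1 + y / 25) := by gcongr <;> linarith
      _ ≤ 1 + y := by nlinarith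

end Crest.Agent.R304
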