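import Mathlib

/-!
# R304: perfect matchings of a vertex set `W` in a multigraph, laws, and the odd-cut constraints

`ends : E → V × V` gives the endpoints of the edges.  `cut ends x S` is the `x`-weight of the edges with exactly one end
in `S`.

PLAN.  `cut_*`: termwise.  `sum_deg`: swap the sums; an edge with `x e ≠ 0` has two different ends in `W`, so it is
counted at exactly two `v ∈ W`.  `cut_ind`: `cut` of the indicator of `M` is the number of edges of `M` with exactly one
end in `S`; double counting `∑_{v ∈ S} #(edges of M at v) = |S|` gives `|S| = 2 #(inside) + #(crossing)`, so the number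
of crossing edges is odd, `≥ 1`; for `S = {v}` it is the number of edges at `v` (no loops).  `Law.feas`:
`x e = ∑ M, p M * chi M e` (`mrg_eq`), so `cut ends x S = ∑ M, p M * cut ends (chi M) S`; if `p M ≠ 0` and `e ∈ M` then
`x e ≥ p M > 0` (`Law.ne_zero`).  `Feas.even`: otherwise `S = W` has `cut = 0`.
-/

set_option autoImplicit false
set_option linter.unusedSectionVars false
open Finset

namespace Crest.Agent.R304

variable {V E : Type} [Fintype V] [DecidableEq V] [Fintype E] [DecidableEq E]

/-- weight of the edges with exactly one end in `S` -/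
def cut (ends : E → V × V) (x : E → ℝ) (S : Finset V) : ℝ :=
  ∑ e, if ((ends e).1 ∈ S ↔ (ends e).2 ∈ S) then 0 else x e

/-- every vertex of `W` lies on exactly one edge of `M` -/
def PMon (ends : E → V × V) (W : Finset V) (M : Finset E) : Prop :=
  ∀ w ∈ W, (M.filter fun e => (ends e).1 = w ∨ (ends e).2 = w).card = 1

/-- marginal of an edge -/
def mrg (p : Finset E → ℝ) (e : E) : ℝ := ∑ M ∈ univ.filter (fun M => e ∈ M), p M

/-- indicator vector -/
def chi (M : Finset E) (e : E) : ℝ := if e ∈ M then 1 else 0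

/-- `p` is a law on perfect matchings of `W` with marginals `x` -/
structure Law (ends : E → V × V) (W : Finset V) (p : Finset E → ℝ) (x : E → ℝ) : Prop where
  nonneg : ∀ M, 0 ≤ p M
  total : ∑ M, p M = 1
  pm : ∀ M, p M ≠ 0 → PMon ends W M
  marg : ∀ e, mrg p e = x e

/-- the edges of the support join two different vertices of `W` -/
def Supp (ends : E → V × V) (W : Finset V) (x : E → ℝ) : Prop :=
  ∀ e, x e ≠ 0 → (ends e).1 ∈ W ∧ (ends e).2 ∈ W ∧ (ends e).1 ≠ (ends e).2

/-- the constraints of the perfect matching polytope -/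
structure Feas (ends : E → V × V) (W : Finset V) (x : E → ℝ) : Prop where
  nonneg : ∀ e, 0 ≤ x e
  supp : Supp ends W x
  deg : ∀ v ∈ W, cut ends x {v} = 1
  odd : ∀ S ⊆ W, Odd S.card → 1 ≤ cut ends x S

/-- entropy of a law -/
noncomputable def ent (p : Finset E → ℝ) : ℝ := ∑ M, Real.negMulLog (p M)

variable {ends : E → V × V} {W : Finset V} {x : E → ℝ} {p : Finset E → ℝ}

theorem cut_add (x y : E → ℝ) (S : Finset V) : cut ends (x + y) S = cut ends x S + cut ends y S := by
  unfold cut
  rw [← sum_add_distrib]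
  refine sum_congr rfl fun e _ => ?_
  split_ifs <;> simp

theorem cut_sub (x y : E → ℝ) (S : Finset V) : cut ends (x - y) S = cut ends x S - cut ends y S := by
  unfold cut
  rw [← sum_sub_distrib]
  refine sum_congr rfl fun e _ => ?_
  split_ifs <;> simp

theorem cut_smul (t : ℝ) (x : E → ℝ) (S : Finset V) : cut ends (t • x) S = t * cut ends x S := by
  unfold cut
  rw [mul_sum]
  refine sum_congr rfl fun e _ => ?_
  split_ifs <;> simp

theorem cut_sum {ι : Type} (s : Finset ι) (c : ι → ℝ) (y : ι → E → ℝ) (S : Finset V) :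
    cut ends (fun e => ∑ i ∈ s, c i * y i e) S = ∑ i ∈ s, c i * cut ends (y i) S := by
  unfold cut
  simp only [mul_sum]
  rw [sum_comm]
  refine sum_congr rfl fun e _ => ?_
  split_ifs <;> simp

theorem cut_nonneg (h : ∀ e, 0 ≤ x e) (S : Finset V) : 0 ≤ cut ends x S := by
  unfold cut
  refine sum_nonneg fun e _ => ?_
  split_ifs
  · exact le_rfl
  · exact h e

theorem cut_mono {y : E → ℝ} (h : ∀ e, x e ≤ y e) (S : Finset V) : cut ends x S ≤ cut ends y S := by
  unfold cut
  refine sum_le_sum fun e _ => ?_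
  split_ifs
  · exact le_rfl
  · exact h e

theorem cut_sdiff (h : Supp ends W x) (S : Finset V) : cut ends x (W \ S) = cut ends x S := by
  unfold cut
  refine sum_congr rfl fun e _ => ?_
  by_cases hx : x e = 0
  · simp [hx]
  · obtain ⟨h1, h2, -⟩ := h e hx
    have : ((ends e).1 ∈ W \ S ↔ (ends e).2 ∈ W \ S) ↔ ((ends e).1 ∈ S ↔ (ends e).2 ∈ S) := by
      simp only [mem_sdiff, h1, h2, true_and]
      exact not_iff_not
    simp only [this]

theorem cut_inter (h : Supp ends W x) (S : Finset V) : cut ends x (S ∩ W) = cut ends x S := by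
  unfold cut
  refine sum_congr rfl fun e _ => ?_
  by_cases hx : x e = 0
  · simp [hx]
  · obtain ⟨h1, h2, -⟩ := h e hx
    have : ((ends e).1 ∈ S ∩ W ↔ (ends e).2 ∈ S ∩ W) ↔ ((ends e).1 ∈ S ↔ (ends e).2 ∈ S) := by
      simp only [mem_inter, h1, h2, and_true]
    simp only [this]

private theorem cut_single (h : Supp ends W x) (v : V) :
    cut ends x {v} = ∑ e, ((if (ends e).1 = v then x e else 0) + (if (ends e).2 = v then x e else 0)) := by
  unfold cut
  refine sum_congr rfl fun e _ => ?_
  by_cases hx : x e = 0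
  · simp [hx]
  · obtain ⟨-, -, h3⟩ := h e hx
    simp only [mem_singleton]
    by_cases h1 : (ends e).1 = v <;> by_cases h2 : (ends e).2 = v
    · exact absurd (h1.trans h2.symm) h3
    · simp [h1, h2]
    · simp [h1, h2]
    · simp [h1, h2]

private theorem sum_cut_single (h : Supp ends W x) (S : Finset V) :
    ∑ v ∈ S, cut ends x {v} =
      2 * (∑ e, if (ends e).1 ∈ S ∧ (ends e).2 ∈ S then x e else 0) + cut ends x S := by
  simp only [cut_single h]
  rw [sum_comm]
  unfold cut
  rw [mul_sum, ← sum_add_distrib]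
  refine sum_congr rfl fun e _ => ?_
  rw [sum_add_distrib, sum_ite_eq, sum_ite_eq]
  by_cases h1 : (ends e).1 ∈ S <;> by_cases h2 : (ends e).2 ∈ S <;> simp [h1, h2]
  ring

private theorem cut_self (h : Supp ends W x) : cut ends x W = 0 := by
  unfold cut
  refine sum_eq_zero fun e _ => ?_
  by_cases hx : x e = 0
  · simp [hx]
  · obtain ⟨h1, h2, -⟩ := h e hx
    simp [h1, h2]

theorem sum_deg (h : Supp ends W x) : ∑ v ∈ W, cut ends x {v} = 2 * ∑ e, x e := by
  rw [sum_cut_single h, cut_self h, add_zero]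
  congr 1
  refine sum_congr rfl fun e _ => ?_
  by_cases hx : x e = 0
  · simp [hx]
  · obtain ⟨h1, h2, -⟩ := h e hx
    simp [h1, h2]

theorem mrg_eq (p : Finset E → ℝ) (e : E) : mrg p e = ∑ M, p M * chi M e := by
  unfold mrg chi
  rw [sum_filter]
  refine sum_congr rfl fun M _ => ?_
  split_ifs <;> simp

private theorem sum_ite_chi (M : Finset E) (P : E → Prop) [DecidablePred P] :
    (∑ e, if P e then chi M e else 0) = ((M.filter P).card : ℝ) := by
  rw [card_eq_sum_ones, Nat.cast_sum, sum_filter, ← sum_subset (subset_univ M)]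
  · refine sum_congr rfl fun e he => ?_
    simp [chi, he]
  · intro e _ he
    simp [chi, he]

theorem cut_ind {M : Finset E} (hM : PMon ends W M) (hs : Supp ends W (chi M)) :
    (∀ v ∈ W, cut ends (chi M) {v} = 1) ∧ ∀ S ⊆ W, Odd S.card → 1 ≤ cut ends (chi M) S := by
  have hdeg : ∀ v ∈ W, cut ends (chi M) {v} = 1 := by
    intro v hv
    have h1 := hM v hv
    have h2 : cut ends (chi M) {v} = ∑ e, if ((ends e).1 = v ∨ (ends e).2 = v) then chi M e else 0 := by
      rw [cut_single hs]
      refine sum_congr rfl fun e _ => ?_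
      by_cases hx : chi M e = 0
      · simp [hx]
      · obtain ⟨-, -, h3⟩ := hs e hx
        by_cases h1 : (ends e).1 = v <;> by_cases h2 : (ends e).2 = v
        · exact absurd (h1.trans h2.symm) h3
        · simp [h1, h2]
        · simp [h1, h2]
        · simp [h1, h2]
    rw [h2, sum_ite_chi, h1]
    simp
  refine ⟨hdeg, fun S hS hodd => ?_⟩
  have h1 := sum_cut_single hs S
  rw [sum_congr rfl fun v hv => hdeg v (hS hv), sum_ite_chi] at h1
  have h2 : cut ends (chi M) S = ((M.filter fun e => ¬ ((ends e).1 ∈ S ↔ (ends e).2 ∈ S)).card : ℝ) := by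
    rw [← sum_ite_chi]
    unfold cut
    refine sum_congr rfl fun e _ => ?_
    split_ifs <;> rfl
  rw [h2] at h1 ⊢
  simp only [sum_const, nsmul_eq_mul, mul_one] at h1
  have h3 : S.card = 2 * (M.filter fun e => (ends e).1 ∈ S ∧ (ends e).2 ∈ S).card +
      (M.filter fun e => ¬ ((ends e).1 ∈ S ↔ (ends e).2 ∈ S)).card := by
    exact_mod_cast h1
  obtain ⟨k, hk⟩ := hodd
  have h4 : 1 ≤ (M.filter fun e => ¬ ((ends e).1 ∈ S ↔ (ends e).2 ∈ S)).card := by omega
  exact_mod_cast h4

theorem Law.ne_zero (h : Law ends W p x) {M : Finset E} (hM : p M ≠ 0) {e : E} (he : e ∈ M) : x e ≠ 0 := by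
  have h1 : p M ≤ mrg p e := by
    unfold mrg
    exact single_le_sum (f := p) (fun N _ => h.nonneg N) (by simp [he])
  have h2 : 0 < p M := lt_of_le_of_ne (h.nonneg M) (Ne.symm hM)
  rw [h.marg] at h1
  exact (lt_of_lt_of_le h2 h1).ne' 

theorem Law.mem_of_one (h : Law ends W p x) {M : Finset E} (hM : p M ≠ 0) {e : E} (he : x e = 1) : e ∈ M := by
  by_contra hn
  have h1 := sum_filter_add_sum_filter_not univ (fun N : Finset E => e ∈ N) p
  have h2 : p M ≤ ∑ N ∈ univ.filter (fun N : Finset E => ¬ e ∈ N), p N :=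
    single_le_sum (f := p) (fun N _ => h.nonneg N) (by simp [hn])
  have h3 : 0 < p M := lt_of_le_of_ne (h.nonneg M) (Ne.symm hM)
  have h4 := h.marg e
  unfold mrg at h4
  rw [h4, h.total, he] at h1
  linarith

theorem Law.le_one (h : Law ends W p x) (e : E) : 0 ≤ x e ∧ x e ≤ 1 := by
  rw [← h.marg e, ← h.total]
  unfold mrg
  exact ⟨sum_nonneg fun N _ => h.nonneg N,
    sum_le_sum_of_subset_of_nonneg (filter_subset _ _) fun N _ _ => h.nonneg N⟩

theorem Law.feas (h : Law ends W p x) (hs : Supp ends W x) : Feas ends W x := by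
  have hx : x = fun e => ∑ M, p M * chi M e := by
    funext e
    rw [← h.marg e, mrg_eq]
  have hc : ∀ S, cut ends x S = ∑ M, p M * cut ends (chi M) S := by
    intro S
    rw [← cut_sum, ← hx]
  have hsM : ∀ M, p M ≠ 0 → Supp ends W (chi M) := by
    intro M hM e he
    refine hs e (h.ne_zero hM ?_)
    by_contra hn
    exact he (by simp [chi, hn])
  refine ⟨fun e => (h.le_one e).1, hs, fun v hv => ?_, fun S hS hodd => ?_⟩
  · rw [hc, ← h.total]
    refine sum_congr rfl fun M _ => ?_
    by_cases hM : p M = 0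
    · simp [hM]
    · rw [(cut_ind (h.pm M hM) (hsM M hM)).1 v hv, mul_one]
  · rw [hc, ← h.total]
    refine sum_le_sum fun M _ => ?_
    by_cases hM : p M = 0
    · simp [hM]
    · exact le_mul_of_one_le_right (h.nonneg M) ((cut_ind (h.pm M hM) (hsM M hM)).2 S hS hodd)

theorem Law.mix {q : Finset E → ℝ} {y : E → ℝ} (h : Law ends W p x) (h' : Law ends W q y) {a b : ℝ}
    (ha : 0 ≤ a) (hb : 0 ≤ b) (hab : a + b = 1) : Law ends W (a • p + b • q) (a • x + b • y) := by
  refine ⟨fun M => ?_, ?_, fun M hM => ?_, fun e => ?_⟩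
  · exact add_nonneg (mul_nonneg ha (h.nonneg M)) (mul_nonneg hb (h'.nonneg M))
  · simp only [Pi.add_apply, Pi.smul_apply, smul_eq_mul]
    rw [sum_add_distrib, ← mul_sum, ← mul_sum, h.total, h'.total]
    linarith
  · by_cases h1 : p M = 0
    · refine h'.pm M fun h2 => hM ?_
      simp [h1, h2]
    · exact h.pm M h1
  · simp only [Pi.add_apply, Pi.smul_apply, smul_eq_mul]
    rw [← h.marg e, ← h'.marg e]
    unfold mrg
    simp only [Pi.add_apply, Pi.smul_apply, smul_eq_mul]
    rw [sum_add_distrib, ← mul_sum, ← mul_sum]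

theorem law_single {M : Finset E} (hM : PMon ends W M) :
    Law ends W (fun N => if N = M then 1 else 0) (chi M) := by
  refine ⟨fun N => ?_, ?_, fun N hN => ?_, fun e => ?_⟩
  · split_ifs <;> norm_num
  · simp
  · by_cases h1 : N = M
    · rw [h1]; exact hM
    · simp [h1] at hN
  · rw [mrg_eq]
    simp

theorem Feas.even (h : Feas ends W x) : Even W.card := by
  by_contra hn
  have h1 := h.odd W subset_rfl (Nat.not_even_iff_odd.1 hn)
  rw [cut_self h.supp] at h1
  linarith

theorem Feas.le_one (h : Feas ends W x) (e : E) : x e ≤ 1 := by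
  by_cases hx : x e = 0
  · rw [hx]; exact zero_le_one
  · obtain ⟨h1, -, h3⟩ := h.supp e hx
    rw [← h.deg _ h1]
    unfold cut
    have h4 := single_le_sum (s := univ) (f := fun f => if ((ends f).1 ∈ ({(ends e).1} : Finset V) ↔
        (ends f).2 ∈ ({(ends e).1} : Finset V)) then 0 else x f) (fun f _ => by
          split_ifs
          · exact le_rfl
          · exact h.nonneg f) (mem_univ e)
    refine le_trans (le_of_eq ?_) h4
    simp [h3.symm]

theorem Feas.sum (h : Feas ends W x) : 2 * ∑ e, x e = W.card := by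
  rw [← sum_deg h.supp, sum_congr rfl fun v hv => h.deg v hv]
  simp

theorem ent_nonneg (h : Law ends W p x) : 0 ≤ ent p := by
  unfold ent
  refine sum_nonneg fun M _ => Real.negMulLog_nonneg (h.nonneg M) ?_
  rw [← h.total]
  exact single_le_sum (f := p) (fun N _ => h.nonneg N) (mem_univ M)

end Crest.Agent.R304
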