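import Mathlib

/-!
# R304: weighted `L²` norms and sums over a product law

PLAN.  `abs_ip_le`: Cauchy-Schwarz (`Finset.sum_mul_sq_le_sq_mul_sq` with `√(m y) * f y`, or `Finset.inner_mul_le_norm_mul_norm`-style
`sum_sq_le_sum_mul_sum_of_sq_eq_mul`).  `nr_add_le` from it.  `mn_int`: the key tool, integrating out the coordinate `i`
(the map `(M, x) ↦ (update M i x, M i)` is an involution of `(Fin r → X) × X` that preserves `pw μ M * μ x`; `Finset.prod_update_of_mem`,
or `Fin.insertNth`/`Equiv.funSplitAt`).  `mn_one`, `mn_two`, `mn_three`: integrate out one coordinate after the other.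
`nr_S1`, `nr_S2`: `nr_sum_le`.  `nr_S2'`, `nr_S3`: expand `ip (S w) (S w)` into a double sum over index tuples; every term is at most
`nr w ^ 2` (`abs_ip_le`); for `nr_S2'` a term with `{i,j}` disjoint from `{k,l}` vanishes (integrate out `i`, then `j`), at most `4 r^3`
terms remain; for `nr_S3` a term vanishes unless each of `i, j, k` is among `i', j', k'` (integrate out the missing one), so at most
`27 r^3` terms remain.  `prod_expand`: `Finset.abs_prod_one_add_sub..` by induction on the index set: the error is at most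
`(1+η)^r - 1 - rη ≤ exp (rη) - 1 - rη ≤ (rη)^2` (`Real.abs_exp_sub_one_sub_id_le`).  `cheb_pw`: the variance of `S1 φ` is at most `r`
(off-diagonal terms vanish by `mn_two`), Markov.
-/

set_option autoImplicit false
set_option linter.unusedSectionVars false
open Finset

namespace Crest.Agent.R304

section
variable {Y : Type} [Fintype Y]

def mn (m f : Y → ℝ) : ℝ := ∑ y, m y * f y
def ip (m f g : Y → ℝ) : ℝ := ∑ y, m y * (f y * g y)
noncomputable def nr (m f : Y → ℝ) : ℝ := √(ip m f f)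

/-- a positive probability vector -/
structure Pr (m : Y → ℝ) : Prop where
  pos : ∀ y, 0 < m y
  total : ∑ y, m y = 1

variable {m : Y → ℝ}

theorem ip_comm (m f g : Y → ℝ) : ip m f g = ip m g f := by
  unfold ip
  exact sum_congr rfl fun y _ => by ring

theorem nr_nonneg (m f : Y → ℝ) : 0 ≤ nr m f := Real.sqrt_nonneg _

theorem nr_sq (h : Pr m) (f : Y → ℝ) : nr m f ^ 2 = ip m f f := by
  exact Real.sq_sqrt (sum_nonneg fun y _ => mul_nonneg (h.pos y).le (mul_self_nonneg _))

theorem abs_ip_le (h : Pr m) (f g : Y → ℝ) : |ip m f g| ≤ nr m f * nr m g := by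
  have h1 := Finset.sum_mul_sq_le_sq_mul_sq univ (fun y => √(m y) * f y) (fun y => √(m y) * g y)
  have h2 : ∀ a b : Y → ℝ, ∑ y, (√(m y) * a y) * (√(m y) * b y) = ip m a b := fun a b => by
    unfold ip
    refine sum_congr rfl fun y _ => ?_
    rw [mul_mul_mul_comm, Real.mul_self_sqrt (h.pos y).le]
  simp only [sq] at h1
  rw [h2, h2, h2, ← sq] at h1
  refine abs_le_of_sq_le_sq' ?_ (mul_nonneg (nr_nonneg _ _) (nr_nonneg _ _)) |> abs_le.2
  rw [mul_pow, nr_sq h, nr_sq h]
  exact h1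

theorem nr_add_le (h : Pr m) (f g : Y → ℝ) : nr m (fun y => f y + g y) ≤ nr m f + nr m g := by
  refine Real.sqrt_le_iff.2 ⟨add_nonneg (nr_nonneg _ _) (nr_nonneg _ _), ?_⟩
  have h1 : ip m (fun y => f y + g y) (fun y => f y + g y) = ip m f f + 2 * ip m f g + ip m g g := by
    unfold ip
    rw [mul_sum, ← sum_add_distrib, ← sum_add_distrib]
    exact sum_congr rfl fun y _ => by ring
  rw [h1, add_sq, nr_sq h, nr_sq h]
  linarith [(abs_le.1 (abs_ip_le h f g)).2]

theorem nr_sub_le (h : Pr m) (f g : Y → ℝ) : nr m (fun y => f y - g y) ≤ nr m f + nr m g := by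
  refine Real.sqrt_le_iff.2 ⟨add_nonneg (nr_nonneg _ _) (nr_nonneg _ _), ?_⟩
  have h1 : ip m (fun y => f y - g y) (fun y => f y - g y) = ip m f f - 2 * ip m f g + ip m g g := by
    unfold ip
    rw [mul_sum, ← sum_sub_distrib, ← sum_add_distrib]
    exact sum_congr rfl fun y _ => by ring
  rw [h1, add_sq, nr_sq h, nr_sq h]
  linarith [(abs_le.1 (abs_ip_le h f g)).1]

theorem nr_mul (h : Pr m) (c : ℝ) (f : Y → ℝ) : nr m (fun y => c * f y) = |c| * nr m f := by
  have h1 : ip m (fun y => c * f y) (fun y => c * f y) = c ^ 2 * ip m f f := by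
    unfold ip
    rw [mul_sum]
    exact sum_congr rfl fun y _ => by ring
  unfold nr
  rw [h1, Real.sqrt_mul (sq_nonneg c), Real.sqrt_sq_eq_abs]

theorem nr_sum_le (h : Pr m) {ι : Type} (S : Finset ι) (f : ι → Y → ℝ) :
    nr m (fun y => ∑ i ∈ S, f i y) ≤ ∑ i ∈ S, nr m (f i) := by
  classical
  induction S using Finset.induction_on with
  | empty => simp [nr, ip]
  | insert a S ha ih =>
    simp only [sum_insert ha]
    exact (nr_add_le h _ _).trans (by linarith)

theorem nr_le_of_abs (h : Pr m) {f : Y → ℝ} {c : ℝ} (hf : ∀ y, |f y| ≤ c) : nr m f ≤ c := by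
  have hne : Nonempty Y := by
    by_contra hn
    have := h.total
    rw [not_nonempty_iff] at hn
    simp at this
  obtain ⟨y0⟩ := hne
  have hc : 0 ≤ c := (abs_nonneg _).trans (hf y0)
  refine Real.sqrt_le_iff.2 ⟨hc, ?_⟩
  calc ip m f f ≤ ∑ y, m y * c ^ 2 := sum_le_sum fun y _ => by
        refine mul_le_mul_of_nonneg_left ?_ (h.pos y).le
        rw [← sq, ← sq_abs]
        exact pow_le_pow_left₀ (abs_nonneg _) (hf y) 2
    _ = c ^ 2 := by rw [← sum_mul, h.total, one_mul]

theorem nr_le_of_sq (m : Y → ℝ) {f : Y → ℝ} {c : ℝ} (hc : 0 ≤ c) (hf : ip m f f ≤ c ^ 2) : nr m f ≤ c := by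
  exact Real.sqrt_le_iff.2 ⟨hc, hf⟩

end

variable {X : Type} [Fintype X] [DecidableEq X] {μ : X → ℝ} {r : ℕ}

def m2 (μ : X → ℝ) (a : X × X) : ℝ := μ a.1 * μ a.2
def m3 (μ : X → ℝ) (a : X × X × X) : ℝ := μ a.1 * (μ a.2.1 * μ a.2.2)
/-- the product law -/
def pw (μ : X → ℝ) (M : Fin r → X) : ℝ := ∏ i, μ (M i)

def S1 (u : X → ℝ) (M : Fin r → X) : ℝ := ∑ i, u (M i)
def S2 (w : X × X → ℝ) (M : Fin r → X) : ℝ := ∑ i, ∑ j, if i ≠ j then w (M i, M j) else 0
def S3 (z : X × X × X → ℝ) (M : Fin r → X) : ℝ :=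
  ∑ i, ∑ j, ∑ k, if i ≠ j ∧ k ≠ i ∧ k ≠ j then z (M i, M j, M k) else 0

/-- all conditional means vanish -/
def Deg2 (μ : X → ℝ) (w : X × X → ℝ) : Prop :=
  (∀ y, ∑ x, μ x * w (x, y) = 0) ∧ ∀ x, ∑ y, μ y * w (x, y) = 0
def Deg3 (μ : X → ℝ) (z : X × X × X → ℝ) : Prop :=
  (∀ y t, ∑ x, μ x * z (x, y, t) = 0) ∧ (∀ x t, ∑ y, μ y * z (x, y, t) = 0) ∧ ∀ x y, ∑ t, μ t * z (x, y, t) = 0

theorem Pr.m2 (h : Pr μ) : Pr (m2 μ) := by
  refine ⟨fun a => mul_pos (h.pos _) (h.pos _), ?_⟩
  simp only [R304.m2, Fintype.sum_prod_type, ← mul_sum, h.total, mul_one]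

theorem Pr.m3 (h : Pr μ) : Pr (m3 μ) := by
  refine ⟨fun a => mul_pos (h.pos _) (mul_pos (h.pos _) (h.pos _)), ?_⟩
  simp only [R304.m3, Fintype.sum_prod_type, ← mul_sum, h.total, mul_one]

theorem Pr.pw (h : Pr μ) : Pr (pw μ : (Fin r → X) → ℝ) := by
  refine ⟨fun M => prod_pos fun i _ => h.pos _, ?_⟩
  have := Fintype.sum_pow μ r
  rw [h.total, one_pow] at this
  exact this.symm

theorem sum_pw (μ : X → ℝ) (r : ℕ) : ∑ M : Fin r → X, pw μ M = (∑ x, μ x) ^ r := by
  exact (Fintype.sum_pow μ r).symm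

namespace PopA

theorem pw_update (μ : X → ℝ) (M : Fin r → X) (i : Fin r) (x : X) :
    pw μ (Function.update M i x) * μ (M i) = pw μ M * μ x := by
  unfold pw
  rw [← mul_prod_erase univ _ (mem_univ i), ← mul_prod_erase univ (fun j => μ (M j)) (mem_univ i)]
  have : ∏ j ∈ univ.erase i, μ (Function.update M i x j) = ∏ j ∈ univ.erase i, μ (M j) :=
    prod_congr rfl fun j hj => by rw [Function.update_of_ne (mem_erase.1 hj).1]
  rw [this, Function.update_self]
  ring

theorem mn_const {Y : Type} [Fintype Y] {m : Y → ℝ} (h : Pr m) (c : ℝ) : mn m (fun _ => c) = c := by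
  unfold mn
  rw [← sum_mul, h.total, one_mul]

theorem ip_eq_mn {Y : Type} [Fintype Y] (m f g : Y → ℝ) : ip m f g = mn m (fun y => f y * g y) := rfl

theorem ip_sum {Y ι : Type} [Fintype Y] [Fintype ι] (m : Y → ℝ) (f : ι → Y → ℝ) :
    ip m (fun y => ∑ a, f a y) (fun y => ∑ a, f a y) = ∑ a, ∑ b, ip m (f a) (f b) := by
  unfold ip
  simp only [sum_mul_sum]
  simp only [mul_sum]
  rw [sum_comm]
  exact sum_congr rfl fun a _ => sum_comm

theorem nr_zero {Y : Type} [Fintype Y] (m : Y → ℝ) : nr m (fun _ => 0) = 0 := by simp [nr, ip]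

end PopA
open PopA

theorem mn_int (h : Pr μ) (i : Fin r) (G : (Fin r → X) → ℝ) :
    mn (pw μ) G = mn (pw μ) (fun M => ∑ x, μ x * G (Function.update M i x)) := by
  have h1 : ∑ p : (Fin r → X) × X, pw μ p.1 * μ p.2 * G p.1 =
      ∑ p : (Fin r → X) × X, pw μ p.1 * μ p.2 * G (Function.update p.1 i p.2) := by
    have hinv : Function.Involutive fun p : (Fin r → X) × X => (Function.update p.1 i p.2, p.1 i) := fun p => by
      simp
    rw [← Equiv.sum_comp hinv.toPerm]
    refine sum_congr rfl fun p _ => ?_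
    simp only [Function.Involutive.coe_toPerm]
    rw [pw_update]
  simp only [Fintype.sum_prod_type] at h1
  unfold mn
  calc ∑ M, pw μ M * G M = ∑ M, ∑ x, pw μ M * μ x * G M := sum_congr rfl fun M _ => by
        rw [← sum_mul, ← mul_sum, h.total, mul_one]
    _ = _ := h1
    _ = _ := sum_congr rfl fun M _ => by
        rw [mul_sum]
        exact sum_congr rfl fun x _ => by ring

theorem mn_one (h : Pr μ) (i : Fin r) (u : X → ℝ) : mn (pw μ) (fun M : Fin r → X => u (M i)) = mn μ u := by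
  rw [mn_int h i]
  simp only [Function.update_self]
  exact mn_const h.pw _

theorem mn_two (h : Pr μ) {i j : Fin r} (hij : i ≠ j) (w : X × X → ℝ) :
    mn (pw μ) (fun M : Fin r → X => w (M i, M j)) = mn (m2 μ) w := by
  rw [mn_int h i]
  simp only [Function.update_self, Function.update_of_ne hij.symm]
  rw [mn_one h j fun y => ∑ x, μ x * w (x, y)]
  simp only [mn, m2, Fintype.sum_prod_type, mul_sum]
  rw [sum_comm]
  exact sum_congr rfl fun x _ => sum_congr rfl fun y _ => by ring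

theorem mn_three (h : Pr μ) {i j k : Fin r} (hij : i ≠ j) (hki : k ≠ i) (hkj : k ≠ j) (z : X × X × X → ℝ) :
    mn (pw μ) (fun M : Fin r → X => z (M i, M j, M k)) = mn (m3 μ) z := by
  rw [mn_int h i]
  simp only [Function.update_self, Function.update_of_ne hij.symm, Function.update_of_ne hki]
  rw [mn_two h hkj.symm fun a => ∑ x, μ x * z (x, a.1, a.2)]
  unfold mn
  rw [Fintype.sum_prod_type (f := fun a : X × X × X => m3 μ a * z a), sum_comm]
  refine sum_congr rfl fun a _ => ?_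
  rw [mul_sum]
  exact sum_congr rfl fun x _ => by simp only [m2, m3]; ring

namespace PopA

theorem nr_one (h : Pr μ) (i : Fin r) (u : X → ℝ) : nr (pw μ) (fun M : Fin r → X => u (M i)) = nr μ u := by
  unfold nr
  rw [ip_eq_mn, ip_eq_mn, mn_one h i fun x => u x * u x]

theorem nr_two (h : Pr μ) (i j : Fin r) (w : X × X → ℝ) :
    nr (pw μ) (fun M : Fin r → X => if i ≠ j then w (M i, M j) else 0) ≤ nr (m2 μ) w := by
  by_cases hij : i ≠ j
  · simp only [if_pos hij]
    unfold nr
    rw [ip_eq_mn, ip_eq_mn, mn_two h hij fun x => w x * w x]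
  · simp only [if_neg hij, nr_zero, nr_nonneg]

theorem nr_three (h : Pr μ) (i j k : Fin r) (z : X × X × X → ℝ) :
    nr (pw μ) (fun M : Fin r → X => if i ≠ j ∧ k ≠ i ∧ k ≠ j then z (M i, M j, M k) else 0) ≤ nr (m3 μ) z := by
  by_cases hij : i ≠ j ∧ k ≠ i ∧ k ≠ j
  · simp only [if_pos hij]
    unfold nr
    rw [ip_eq_mn, ip_eq_mn, mn_three h hij.1 hij.2.1 hij.2.2 fun x => z x * z x]
  · simp only [if_neg hij, nr_zero, nr_nonneg]

theorem ip_le_sq {Y : Type} [Fintype Y] {m : Y → ℝ} (h : Pr m) {f g : Y → ℝ} {c : ℝ} (hf : nr m f ≤ c)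
    (hg : nr m g ≤ c) : ip m f g ≤ c ^ 2 := by
  refine (le_abs_self _).trans ((abs_ip_le h f g).trans ?_)
  rw [sq]
  exact mul_le_mul hf hg (nr_nonneg _ _) ((nr_nonneg _ _).trans hf)

theorem ip_two_zero (h : Pr μ) {w : X × X → ℝ} (hw : mn (m2 μ) w = 0) {i j k l : Fin r} (hik : k ≠ i) (hil : l ≠ i)
    (hjk : k ≠ j) (hjl : l ≠ j) :
    ip (pw μ) (fun M : Fin r → X => if i ≠ j then w (M i, M j) else 0)
      (fun M : Fin r → X => if k ≠ l then w (M k, M l) else 0) = 0 := by
  by_cases hij : i ≠ j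
  · simp only [if_pos hij]
    rw [ip_eq_mn, mn_int h i]
    simp only [Function.update_self, Function.update_of_ne hij.symm, Function.update_of_ne hik,
      Function.update_of_ne hil]
    rw [mn_int h j]
    simp only [Function.update_self, Function.update_of_ne hjk, Function.update_of_ne hjl]
    have : ∀ c : ℝ, ∑ y, μ y * ∑ x, μ x * (w (x, y) * c) = 0 := fun c => by
      have h2 : ∑ y, μ y * ∑ x, μ x * (w (x, y) * c) = mn (m2 μ) w * c := by
        simp only [mn, m2, Fintype.sum_prod_type, mul_sum, sum_mul]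
        rw [sum_comm]
        exact sum_congr rfl fun x _ => sum_congr rfl fun y _ => by ring
      rw [h2, hw, zero_mul]
    simp only [this]
    exact mn_const h.pw _
  · simp [if_neg hij, ip]

theorem sum_ind_le (a b c : Fin r) : ∑ i : Fin r, (if i = a ∨ i = b ∨ i = c then (1 : ℝ) else 0) ≤ 3 := by
  calc ∑ i : Fin r, (if i = a ∨ i = b ∨ i = c then (1 : ℝ) else 0)
      ≤ ∑ i : Fin r, ((if i = a then (1 : ℝ) else 0) + (if i = b then (1 : ℝ) else 0) + (if i = c then (1 : ℝ) else 0)) :=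
        sum_le_sum fun i _ => by
          by_cases h1 : i = a <;> by_cases h2 : i = b <;> by_cases h3 : i = c <;> simp [h1, h2, h3] <;>
            split_ifs <;> norm_num
    _ = 3 := by simp [sum_add_distrib]; norm_num

theorem prod_aux {ι : Type} {η : ℝ} (hη : 0 ≤ η) (h : ι → ℝ) (hh : ∀ i, |h i| ≤ η) (S : Finset ι) :
    |∏ i ∈ S, (1 + h i) - 1| ≤ (1 + η) ^ #S - 1 ∧
      |∏ i ∈ S, (1 + h i) - 1 - ∑ i ∈ S, h i| ≤ (1 + η) ^ #S - 1 - #S * η := by
  classical
  induction S using Finset.induction_on with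
  | empty => simp
  | insert a S ha ih =>
    obtain ⟨h1, h2⟩ := ih
    rw [prod_insert ha, sum_insert ha, card_insert_of_notMem ha, pow_succ]
    set P := ∏ i ∈ S, (1 + h i)
    set Q := (1 + η) ^ #S
    have h3 : |h a * (P - 1)| ≤ η * (Q - 1) := by
      rw [abs_mul]
      exact mul_le_mul (hh a) h1 (abs_nonneg _) hη
    have h4 := abs_le.1 (hh a)
    rw [abs_le] at h1 h2 h3
    push_cast
    constructor <;> rw [abs_le] <;> constructor <;> nlinarith

end PopA

theorem nr_S1 (h : Pr μ) (u : X → ℝ) : nr (pw μ) (S1 u : (Fin r → X) → ℝ) ≤ r * nr μ u := by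
  refine (nr_sum_le h.pw univ fun i (M : Fin r → X) => u (M i)).trans ?_
  simp only [nr_one h, sum_const, card_univ, Fintype.card_fin, nsmul_eq_mul, le_refl]

theorem nr_S2 (h : Pr μ) (w : X × X → ℝ) : nr (pw μ) (S2 w : (Fin r → X) → ℝ) ≤ r ^ 2 * nr (m2 μ) w := by
  refine (nr_sum_le h.pw univ fun i (M : Fin r → X) => ∑ j, if i ≠ j then w (M i, M j) else 0).trans ?_
  calc _ ≤ ∑ i : Fin r, ∑ j : Fin r, nr (m2 μ) w := sum_le_sum fun i _ =>
        (nr_sum_le h.pw univ fun j (M : Fin r → X) => if i ≠ j then w (M i, M j) else 0).trans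
          (sum_le_sum fun j _ => nr_two h i j w)
    _ = _ := by simp only [sum_const, card_univ, Fintype.card_fin, nsmul_eq_mul]; ring

theorem nr_S2' (h : Pr μ) {w : X × X → ℝ} (hw : mn (m2 μ) w = 0) :
    nr (pw μ) (S2 w : (Fin r → X) → ℝ) ^ 2 ≤ 4 * r ^ 3 * nr (m2 μ) w ^ 2 := by
  have h1 : (S2 w : (Fin r → X) → ℝ) =
      fun M => ∑ p : Fin r × Fin r, if p.1 ≠ p.2 then w (M p.1, M p.2) else 0 := by
    funext M
    rw [S2, Fintype.sum_prod_type]
  rw [nr_sq h.pw, h1, ip_sum]
  have hN : 0 ≤ nr (m2 μ) w ^ 2 := sq_nonneg _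
  calc _ ≤ ∑ p : Fin r × Fin r, ∑ q : Fin r × Fin r, nr (m2 μ) w ^ 2 * ((if q.1 = p.1 then 1 else 0) +
          (if q.2 = p.1 then 1 else 0) + (if q.1 = p.2 then 1 else 0) + (if q.2 = p.2 then 1 else 0)) := by
        refine sum_le_sum fun p _ => sum_le_sum fun q _ => ?_
        by_cases hc : q.1 ≠ p.1 ∧ q.2 ≠ p.1 ∧ q.1 ≠ p.2 ∧ q.2 ≠ p.2
        · rw [ip_two_zero h hw hc.1 hc.2.1 hc.2.2.1 hc.2.2.2]
          positivity
        · refine (ip_le_sq h.pw (nr_two h _ _ w) (nr_two h _ _ w)).trans (le_mul_of_one_le_right hN ?_)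
          split_ifs <;> first | tauto | norm_num
    _ = _ := by
        simp only [← mul_sum, sum_add_distrib, Fintype.sum_prod_type]
        have e1 : ∀ x : Fin r, ∑ a : Fin r, ∑ _b : Fin r, (if a = x then (1 : ℝ) else 0) = r := fun x => by
          rw [sum_comm]
          simp
        simp only [e1]
        simp only [sum_const, card_univ, Fintype.card_fin, nsmul_eq_mul, ← mul_sum, sum_ite_eq', mem_univ, if_true]
        ring

theorem nr_S3 (h : Pr μ) {z : X × X × X → ℝ} (hz : Deg3 μ z) :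
    nr (pw μ) (S3 z : (Fin r → X) → ℝ) ^ 2 ≤ 27 * r ^ 3 * nr (m3 μ) z ^ 2 := by
  have h1 : (S3 z : (Fin r → X) → ℝ) = fun M => ∑ p : Fin r × Fin r × Fin r,
      if p.1 ≠ p.2.1 ∧ p.2.2 ≠ p.1 ∧ p.2.2 ≠ p.2.1 then z (M p.1, M p.2.1, M p.2.2) else 0 := by
    funext M
    simp only [S3, Fintype.sum_prod_type]
  rw [nr_sq h.pw, h1, ip_sum, sum_comm]
  have hN : 0 ≤ nr (m3 μ) z ^ 2 := sq_nonneg _
  calc _ ≤ ∑ q : Fin r × Fin r × Fin r, ∑ p : Fin r × Fin r × Fin r, nr (m3 μ) z ^ 2 *
          ((if p.1 = q.1 ∨ p.1 = q.2.1 ∨ p.1 = q.2.2 then 1 else 0) *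
          ((if p.2.1 = q.1 ∨ p.2.1 = q.2.1 ∨ p.2.1 = q.2.2 then 1 else 0) *
          (if p.2.2 = q.1 ∨ p.2.2 = q.2.1 ∨ p.2.2 = q.2.2 then 1 else 0))) := by
        refine sum_le_sum fun q _ => sum_le_sum fun p _ => ?_
        obtain ⟨i, j, k⟩ := p
        obtain ⟨a, b, c⟩ := q
        dsimp only
        by_cases hd : i ≠ j ∧ k ≠ i ∧ k ≠ j
        swap
        · simp only [if_neg hd, ip, zero_mul, mul_zero, sum_const_zero]
          positivity
        by_cases c1 : i = a ∨ i = b ∨ i = c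
        swap
        · rw [if_neg c1, zero_mul, mul_zero, ip_eq_mn, mn_int h i]
          push Not at c1
          simp only [if_pos hd, Function.update_self, Function.update_of_ne hd.1.symm, Function.update_of_ne hd.2.1,
            Function.update_of_ne c1.1.symm, Function.update_of_ne c1.2.1.symm, Function.update_of_ne c1.2.2.symm,
            ← mul_assoc, ← sum_mul, hz.1, zero_mul]
          exact (mn_const h.pw _).le
        by_cases c2 : j = a ∨ j = b ∨ j = c
        swap
        · rw [if_neg c2, zero_mul, mul_zero, mul_zero, ip_eq_mn, mn_int h j]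
          push Not at c2
          simp only [if_pos hd, Function.update_self, Function.update_of_ne hd.1, Function.update_of_ne hd.2.2,
            Function.update_of_ne c2.1.symm, Function.update_of_ne c2.2.1.symm, Function.update_of_ne c2.2.2.symm,
            ← mul_assoc, ← sum_mul, hz.2.1, zero_mul]
          exact (mn_const h.pw _).le
        by_cases c3 : k = a ∨ k = b ∨ k = c
        swap
        · rw [if_neg c3, mul_zero, mul_zero, mul_zero, ip_eq_mn, mn_int h k]
          push Not at c3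
          simp only [if_pos hd, Function.update_self, Function.update_of_ne hd.2.1.symm,
            Function.update_of_ne hd.2.2.symm,
            Function.update_of_ne c3.1.symm, Function.update_of_ne c3.2.1.symm, Function.update_of_ne c3.2.2.symm,
            ← mul_assoc, ← sum_mul, hz.2.2, zero_mul]
          exact (mn_const h.pw _).le
        rw [if_pos c1, if_pos c2, if_pos c3, mul_one, mul_one, mul_one]
        exact ip_le_sq h.pw (nr_three h _ _ _ z) (nr_three h _ _ _ z)
    _ ≤ ∑ q : Fin r × Fin r × Fin r, nr (m3 μ) z ^ 2 * 27 := by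
        refine sum_le_sum fun q _ => ?_
        rw [← mul_sum]
        refine mul_le_mul_of_nonneg_left ?_ hN
        have e : ∀ f : Fin r → ℝ, ∑ p : Fin r × Fin r × Fin r, f p.1 * (f p.2.1 * f p.2.2) =
            (∑ i, f i) * ((∑ i, f i) * ∑ i, f i) := fun f => by
          simp only [Fintype.sum_prod_type, ← mul_sum, ← sum_mul]
        rw [e fun i => if i = q.1 ∨ i = q.2.1 ∨ i = q.2.2 then (1 : ℝ) else 0]
        have h2 := sum_ind_le q.1 q.2.1 q.2.2
        have h3 : 0 ≤ ∑ i : Fin r, (if i = q.1 ∨ i = q.2.1 ∨ i = q.2.2 then (1 : ℝ) else 0) :=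
          sum_nonneg fun i _ => by split_ifs <;> norm_num
        generalize (∑ i : Fin r, (if i = q.1 ∨ i = q.2.1 ∨ i = q.2.2 then (1 : ℝ) else 0)) = t at h2 h3
        calc t * (t * t) ≤ (3 : ℝ) * (3 * 3) := by gcongr
          _ = 27 := by norm_num
    _ = _ := by
        simp only [sum_const, card_univ, Fintype.card_prod, Fintype.card_fin, nsmul_eq_mul]
        push_cast
        ring

theorem prod_expand {η : ℝ} (hη : 0 ≤ η) (hr : r * η ≤ 1) (h : Fin r → ℝ) (hh : ∀ i, |h i| ≤ η) :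
    |∏ i, (1 + h i) - 1 - ∑ i, h i| ≤ (r * η) ^ 2 := by
  have h1 := (prod_aux hη h hh univ).2
  rw [card_univ, Fintype.card_fin] at h1
  have h2 : (1 + η) ^ r ≤ Real.exp (r * η) := by
    rw [Real.exp_nat_mul]
    exact pow_le_pow_left₀ (by linarith) (by linarith [Real.add_one_le_exp η]) r
  have h3 := Real.abs_exp_sub_one_sub_id_le (x := r * η) (by rw [abs_of_nonneg (by positivity)]; exact hr)
  linarith [(abs_le.1 h3).2]

theorem cheb_pw (h : Pr μ) (hr : 0 < r) {φ : X → ℝ} (hφ : ∀ x, 0 ≤ φ x ∧ φ x ≤ 1) {ξ : ℝ} (hξ : 0 < ξ) :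
    mn (pw μ) (fun M : Fin r → X => if ξ < |S1 φ M / r - mn μ φ| then 1 else 0) ≤ 1 / (r * ξ ^ 2) := by
  have hr' : (0 : ℝ) < r := by exact_mod_cast hr
  have hm0 : 0 ≤ mn μ φ := sum_nonneg fun x _ => mul_nonneg (h.pos x).le (hφ x).1
  have hm1 : mn μ φ ≤ 1 := by
    rw [← mn_const h 1]
    exact sum_le_sum fun x _ => mul_le_mul_of_nonneg_left (hφ x).2 (h.pos x).le
  set ψ : X → ℝ := fun x => φ x - mn μ φ with hψ
  have hψ0 : ∑ x, μ x * ψ x = 0 := by
    simp only [hψ, mul_sub, sum_sub_distrib, ← sum_mul, h.total, one_mul]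
    exact sub_self _
  have hψ1 : nr μ ψ ≤ 1 := nr_le_of_abs h fun x => by
    rw [abs_le]
    constructor <;> simp only [hψ] <;> linarith [(hφ x).1, (hφ x).2]
  have hv : ip (pw μ) (S1 ψ : (Fin r → X) → ℝ) (S1 ψ) ≤ r := by
    have h1 : (S1 ψ : (Fin r → X) → ℝ) = fun M => ∑ i, ψ (M i) := rfl
    rw [h1, ip_sum]
    calc _ ≤ ∑ i : Fin r, ∑ j : Fin r, (if j = i then (1 : ℝ) else 0) := by
          refine sum_le_sum fun i _ => sum_le_sum fun j _ => ?_
          split_ifs with hij
          · have := ip_le_sq h.pw ((nr_one h i ψ).trans_le hψ1) ((nr_one h j ψ).trans_le hψ1)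
            rwa [one_pow] at this
          · rw [ip_eq_mn, mn_int h i]
            simp only [Function.update_self, Function.update_of_ne hij, ← mul_assoc, ← sum_mul, hψ0, zero_mul]
            exact (mn_const h.pw _).le
      _ = r := by simp
  have h2 : ∀ M : Fin r → X, S1 φ M / r - mn μ φ = S1 ψ M / r := fun M => by
    simp only [S1, hψ, sum_sub_distrib, sum_const, card_univ, Fintype.card_fin, nsmul_eq_mul]
    field_simp
  calc _ ≤ ∑ M : Fin r → X, pw μ M * (S1 ψ M * S1 ψ M) * (1 / (r * ξ) ^ 2) := by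
        refine sum_le_sum fun M _ => ?_
        rw [mul_assoc]
        refine mul_le_mul_of_nonneg_left ?_ (h.pw.pos M).le
        dsimp only
        split_ifs with hc
        · rw [h2, abs_div, abs_of_pos hr', lt_div_iff₀ hr'] at hc
          rw [mul_one_div, one_le_div (by positivity), ← sq, ← sq_abs (S1 ψ M)]
          exact pow_le_pow_left₀ (by positivity) (by linarith) 2
        · exact mul_nonneg (mul_self_nonneg _) (by positivity)
    _ = ip (pw μ) (S1 ψ : (Fin r → X) → ℝ) (S1 ψ) * (1 / (r * ξ) ^ 2) := by rw [← sum_mul]; rfl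
    _ ≤ r * (1 / (r * ξ) ^ 2) := mul_le_mul_of_nonneg_right hv (by positivity)
    _ = _ := by field_simp

end Crest.Agent.R304
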