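import Crest.Agent.R304.PopA

/-!
# R304: the operator of a family of pair moves and its components

PLAN.  `m2 a * min 1 (m2 (τ a) / m2 a) = min (m2 a) (m2 (τ a))`, and `∑ a, G a = ∑ a, G (τ θ a)` (an involution is a bijection).  Hence
`ip f (Dop g) = (1/2) avg_θ ∑_a min .. (f a - f (τ a)) (g a - g (τ a))`, which gives `ip_Dop`, `ip_Dop_self`, `mn_Dop` (`f = 1`).
`sq_Dop`: Jensen over `θ` and `α^2 ≤ α`.  `nr_Dop`: `nr (D g)^2 ≤ Dir g = 2 ip g (D g) ≤ 2 nr g * nr (D g)`.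
For `g` of mean zero the three parts `c1 g a.1`, `c2 g a.2`, `dg g a` are orthogonal, so
`nr μ (c1 g)^2 + nr μ (c2 g)^2 + nr (dg g)^2 = nr g ^2` (`pyth`).  `ip μ u (Aop u) = ip (sm u) (Dop (sm u)) = Dir / 2`,
`nr (Aop u)^2 ≤ 2 nr (Dop (sm u))^2 ≤ 2 Dir = 4 ip u (Aop u)`, so
`nr (u - s A u)^2 ≤ nr u ^2 - 2s(1-2s) ip u (A u) ≤ (1 - s/A) nr u^2 ≤ (1 - s/(2A))^2 nr u^2`.  `nr (sm u)^2 = 2 nr u ^2` for mean zero `u`,
so `nr (Bop u)^2 ≤ 8 nr u ^2`.  For the two-variable statements apply these to the slices `x ↦ v (x, y)`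
(`nr (m2 μ) v ^2 = ∑ y, μ y * nr μ (v (·,y))^2`); all operators are linear (`∑ y, μ y * Aop (v (·,y)) x = Aop (∑ y, μ y * v (·,y)) x = 0`).
-/

set_option autoImplicit false
set_option linter.unusedSectionVars false
open Finset

namespace Crest.Agent.R304

variable {X : Type} [Fintype X] [DecidableEq X]

noncomputable def Dop (μ : X → ℝ) (τ : ℕ → X × X → X × X) (β : ℕ) (g : X × X → ℝ) (a : X × X) : ℝ :=
  (∑ θ ∈ range (2 ^ β), min 1 (m2 μ (τ θ a) / m2 μ a) * (g a - g (τ θ a))) / 2 ^ β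

noncomputable def Dir (μ : X → ℝ) (τ : ℕ → X × X → X × X) (β : ℕ) (g : X × X → ℝ) : ℝ :=
  (∑ θ ∈ range (2 ^ β), ∑ a, min (m2 μ a) (m2 μ (τ θ a)) * (g a - g (τ θ a)) ^ 2) / 2 ^ β

def sm (u : X → ℝ) (a : X × X) : ℝ := u a.1 + u a.2
def c1 (μ : X → ℝ) (g : X × X → ℝ) (x : X) : ℝ := ∑ y, μ y * g (x, y)
def c2 (μ : X → ℝ) (g : X × X → ℝ) (y : X) : ℝ := ∑ x, μ x * g (x, y)
def dg (μ : X → ℝ) (g : X × X → ℝ) (a : X × X) : ℝ := g a - c1 μ g a.1 - c2 μ g a.2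
noncomputable def sy (w : X × X → ℝ) (a : X × X) : ℝ := (w a + w a.swap) / 2

noncomputable def Aop (μ : X → ℝ) (τ : ℕ → X × X → X × X) (β : ℕ) (u : X → ℝ) (x : X) : ℝ :=
  c1 μ (Dop μ τ β (sm u)) x + c2 μ (Dop μ τ β (sm u)) x
noncomputable def Bop (μ : X → ℝ) (τ : ℕ → X × X → X × X) (β : ℕ) (u : X → ℝ) : X × X → ℝ :=
  dg μ (Dop μ τ β (sm u))
noncomputable def A1 (μ : X → ℝ) (τ : ℕ → X × X → X × X) (β : ℕ) (w : X × X → ℝ) (a : X × X) : ℝ :=
  Aop μ τ β (fun x => w (x, a.2)) a.1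
noncomputable def Z3 (μ : X → ℝ) (τ : ℕ → X × X → X × X) (β : ℕ) (w : X × X → ℝ) (a : X × X × X) : ℝ :=
  Bop μ τ β (fun x => w (x, a.2.2)) (a.1, a.2.1)

/-- the standing hypotheses -/
structure Mv (μ : X → ℝ) (τ : ℕ → X × X → X × X) : Prop where
  pr : Pr μ
  inv : ∀ θ a, τ θ (τ θ a) = a

/-- the gap of the linearised dynamics -/
def HasGap (μ : X → ℝ) (τ : ℕ → X × X → X × X) (β : ℕ) (A : ℝ) : Prop :=
  ∀ u : X → ℝ, mn μ u = 0 → 2 * ip μ u u ≤ A * Dir μ τ β (sm u)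

variable {μ : X → ℝ} {τ : ℕ → X × X → X × X} {β : ℕ} {A s : ℝ}

namespace PopB

theorem mul_acc {Y : Type} [Fintype Y] {m : Y → ℝ} (h : Pr m) (a b : Y) :
    m a * min 1 (m b / m a) = min (m a) (m b) := by
  rw [mul_min_of_nonneg _ _ (h.pos a).le, mul_one, mul_div_cancel₀ _ (h.pos a).ne']

theorem acc_mem {Y : Type} [Fintype Y] {m : Y → ℝ} (h : Pr m) (a b : Y) :
    0 ≤ min 1 (m b / m a) ∧ min 1 (m b / m a) ≤ 1 :=
  ⟨le_min zero_le_one (div_nonneg (h.pos b).le (h.pos a).le), min_le_left _ _⟩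

theorem inv_form {Y : Type} [Fintype Y] {m : Y → ℝ} (h : Pr m) {T : Y → Y} (hT : ∀ a, T (T a) = a) (f g : Y → ℝ) :
    ∑ a, m a * (f a * (min 1 (m (T a) / m a) * (g a - g (T a)))) =
      (∑ a, min (m a) (m (T a)) * ((f a - f (T a)) * (g a - g (T a)))) / 2 := by
  have hinv : Function.Involutive T := hT
  have h1 : ∑ a, m a * (f a * (min 1 (m (T a) / m a) * (g a - g (T a)))) =
      ∑ a, min (m a) (m (T a)) * (f a * (g a - g (T a))) := sum_congr rfl fun a _ => by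
    rw [← mul_acc h]; ring
  have h2 : ∑ a, min (m a) (m (T a)) * (f a * (g a - g (T a))) =
      ∑ a, min (m a) (m (T a)) * (f (T a) * (g (T a) - g a)) := by
    rw [← Equiv.sum_comp hinv.toPerm]
    refine sum_congr rfl fun a _ => ?_
    simp only [Function.Involutive.coe_toPerm, hT]
    rw [min_comm]
  have h3 : ∑ a, min (m a) (m (T a)) * ((f a - f (T a)) * (g a - g (T a))) =
      ∑ a, min (m a) (m (T a)) * (f a * (g a - g (T a))) +
        ∑ a, min (m a) (m (T a)) * (f (T a) * (g (T a) - g a)) := by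
    rw [← sum_add_distrib]
    exact sum_congr rfl fun a _ => by ring
  rw [h1, h3, ← h2]
  ring

theorem ip_form (h : Mv μ τ) (f g : X × X → ℝ) : ip (m2 μ) f (Dop μ τ β g) =
    (∑ θ ∈ range (2 ^ β), ∑ a, min (m2 μ a) (m2 μ (τ θ a)) * ((f a - f (τ θ a)) * (g a - g (τ θ a)))) / 2 ^ β / 2 := by
  have h1 : ∀ θ ∈ range (2 ^ β), ∑ a, min (m2 μ a) (m2 μ (τ θ a)) * ((f a - f (τ θ a)) * (g a - g (τ θ a))) =
      2 * ∑ a, m2 μ a * (f a * (min 1 (m2 μ (τ θ a) / m2 μ a) * (g a - g (τ θ a)))) := fun θ _ => by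
    rw [inv_form h.pr.m2 (h.inv θ)]
    ring
  rw [sum_congr rfl h1, ← mul_sum, sum_comm]
  unfold ip Dop
  simp only [← mul_div_assoc, ← sum_div, ← mul_sum]
  ring

theorem ip_c1 (μ : X → ℝ) (u : X → ℝ) (g : X × X → ℝ) : ip (m2 μ) (fun a => u a.1) g = ip μ u (c1 μ g) := by
  simp only [ip, m2, c1, Fintype.sum_prod_type, mul_sum]
  exact sum_congr rfl fun x _ => sum_congr rfl fun y _ => by ring

theorem ip_c2 (μ : X → ℝ) (u : X → ℝ) (g : X × X → ℝ) : ip (m2 μ) (fun a => u a.2) g = ip μ u (c2 μ g) := by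
  simp only [ip, m2, c2, Fintype.sum_prod_type, mul_sum]
  rw [sum_comm]
  exact sum_congr rfl fun x _ => sum_congr rfl fun y _ => by ring

theorem mn_c1 (μ : X → ℝ) (g : X × X → ℝ) : mn μ (c1 μ g) = mn (m2 μ) g := by
  simp only [mn, m2, c1, Fintype.sum_prod_type, mul_sum]
  exact sum_congr rfl fun x _ => sum_congr rfl fun y _ => by ring

theorem mn_c2 (μ : X → ℝ) (g : X × X → ℝ) : mn μ (c2 μ g) = mn (m2 μ) g := by
  simp only [mn, m2, c2, Fintype.sum_prod_type, mul_sum]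
  rw [sum_comm]
  exact sum_congr rfl fun x _ => sum_congr rfl fun y _ => by ring

theorem ip_fst (h : Pr μ) (u : X → ℝ) : ip (m2 μ) (fun a => u a.1) (fun a => u a.1) = ip μ u u := by
  rw [ip_c1]
  congr 1
  funext x
  simp only [c1, ← sum_mul, h.total, one_mul]

theorem ip_snd (h : Pr μ) (u : X → ℝ) : ip (m2 μ) (fun a => u a.2) (fun a => u a.2) = ip μ u u := by
  rw [ip_c2]
  congr 1
  funext x
  simp only [c2, ← sum_mul, h.total, one_mul]

theorem ip_fst_snd (u : X → ℝ) {v : X → ℝ} (hv : mn μ v = 0) :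
    ip (m2 μ) (fun a => u a.1) (fun a => v a.2) = 0 := by
  rw [ip_c1]
  have : c1 μ (fun a => v a.2) = fun _ => 0 := funext fun _ => hv
  simp [this, ip]

theorem deg_dg (h : Pr μ) {g : X × X → ℝ} (hg : mn (m2 μ) g = 0) : Deg2 μ (dg μ g) := by
  have h1 : ∑ x, μ x * c1 μ g x = 0 := (mn_c1 μ g).trans hg
  have h2 : ∑ x, μ x * c2 μ g x = 0 := (mn_c2 μ g).trans hg
  refine ⟨fun y => ?_, fun x => ?_⟩
  · simp only [dg, mul_sub, sum_sub_distrib, h1, ← sum_mul, h.total, one_mul, sub_zero]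
    exact sub_self _
  · simp only [dg, mul_sub, sum_sub_distrib, h2, ← sum_mul, h.total, one_mul, sub_zero]
    exact sub_self _

theorem ip_slice2 (μ : X → ℝ) (v : X × X → ℝ) :
    ip (m2 μ) v v = ∑ y, μ y * ip μ (fun x => v (x, y)) (fun x => v (x, y)) := by
  simp only [ip, m2, Fintype.sum_prod_type, mul_sum]
  rw [sum_comm]
  exact sum_congr rfl fun x _ => sum_congr rfl fun y _ => by ring

theorem ip_slice3 (μ : X → ℝ) (z : X × X × X → ℝ) :
    ip (m3 μ) z z = ∑ t, μ t * ip (m2 μ) (fun a => z (a.1, a.2, t)) (fun a => z (a.1, a.2, t)) := by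
  simp only [ip, m2, m3, Fintype.sum_prod_type, mul_sum]
  rw [sum_comm (γ := X) (s := univ) (t := univ) (f := fun t x => ∑ y, μ t * (μ x * μ y * (z (x, y, t) * z (x, y, t))))]
  refine sum_congr rfl fun x _ => ?_
  rw [sum_comm]
  exact sum_congr rfl fun t _ => sum_congr rfl fun y _ => by ring

theorem sum_Dop {v : X × X → ℝ} (hv : ∀ x, ∑ y, μ y * v (x, y) = 0) (a : X × X) :
    ∑ y, μ y * Dop μ τ β (sm fun x => v (x, y)) a = 0 := by
  simp only [Dop, ← mul_div_assoc, ← sum_div, mul_sum]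
  rw [sum_comm, sum_eq_zero, zero_div]
  intro θ _
  have : ∀ y, μ y * (min 1 (m2 μ (τ θ a) / m2 μ a) * (sm (fun x => v (x, y)) a - sm (fun x => v (x, y)) (τ θ a))) =
      min 1 (m2 μ (τ θ a) / m2 μ a) * (μ y * v (a.1, y) + μ y * v (a.2, y) -
        (μ y * v ((τ θ a).1, y) + μ y * v ((τ θ a).2, y))) := fun y => by
    simp only [sm]; ring
  simp only [this, ← mul_sum, sum_sub_distrib, sum_add_distrib, hv]
  ring

theorem sum_c1 {G : X → X × X → ℝ} (hG : ∀ a, ∑ y, μ y * G y a = 0) (x : X) : ∑ y, μ y * c1 μ (G y) x = 0 := by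
  simp only [c1, mul_sum]
  rw [sum_comm]
  refine sum_eq_zero fun t _ => ?_
  simp only [mul_left_comm _ (μ t), ← mul_sum, hG, mul_zero]

theorem sum_c2 {G : X → X × X → ℝ} (hG : ∀ a, ∑ y, μ y * G y a = 0) (x : X) : ∑ y, μ y * c2 μ (G y) x = 0 := by
  simp only [c2, mul_sum]
  rw [sum_comm]
  refine sum_eq_zero fun t _ => ?_
  simp only [mul_left_comm _ (μ t), ← mul_sum, hG, mul_zero]

end PopB
open PopB

theorem ip_Dop (h : Mv μ τ) (f g : X × X → ℝ) : ip (m2 μ) f (Dop μ τ β g) = ip (m2 μ) (Dop μ τ β f) g := by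
  rw [ip_comm (m2 μ) (Dop μ τ β f), ip_form h, ip_form h]
  simp only [mul_comm (f _ - f _)]

theorem ip_Dop_self (h : Mv μ τ) (g : X × X → ℝ) : ip (m2 μ) g (Dop μ τ β g) = Dir μ τ β g / 2 := by
  rw [ip_form h, Dir]
  simp only [sq]

theorem mn_Dop (h : Mv μ τ) (g : X × X → ℝ) : mn (m2 μ) (Dop μ τ β g) = 0 := by
  have := ip_form (β := β) h (fun _ => 1) g
  simp only [sub_self, zero_mul, mul_zero, sum_const_zero, zero_div, ip, one_mul] at this
  exact this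

theorem sq_Dop (h : Mv μ τ) (g : X × X → ℝ) : nr (m2 μ) (Dop μ τ β g) ^ 2 ≤ Dir μ τ β g := by
  rw [nr_sq h.pr.m2, Dir, sum_comm, sum_div]
  refine sum_le_sum fun a _ => ?_
  have h1 := sq_sum_le_card_mul_sum_sq (s := range (2 ^ β))
    (f := fun θ => min 1 (m2 μ (τ θ a) / m2 μ a) * (g a - g (τ θ a)))
  rw [card_range] at h1
  push_cast at h1
  have h2 : ∑ θ ∈ range (2 ^ β), (min 1 (m2 μ (τ θ a) / m2 μ a) * (g a - g (τ θ a))) ^ 2 ≤
      ∑ θ ∈ range (2 ^ β), min 1 (m2 μ (τ θ a) / m2 μ a) * (g a - g (τ θ a)) ^ 2 := sum_le_sum fun θ _ => by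
    have h3 := acc_mem h.pr.m2 a (τ θ a)
    rw [mul_pow]
    exact mul_le_mul_of_nonneg_right (by nlinarith) (sq_nonneg _)
  have h3 : ∑ θ ∈ range (2 ^ β), min (m2 μ a) (m2 μ (τ θ a)) * (g a - g (τ θ a)) ^ 2 =
      m2 μ a * ∑ θ ∈ range (2 ^ β), min 1 (m2 μ (τ θ a) / m2 μ a) * (g a - g (τ θ a)) ^ 2 := by
    rw [mul_sum]
    exact sum_congr rfl fun θ _ => by rw [← mul_assoc, mul_acc h.pr.m2]
  rw [h3, mul_div_assoc, ← sq, Dop, div_pow]
  refine mul_le_mul_of_nonneg_left ?_ (h.pr.m2.pos a).le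
  rw [div_le_div_iff₀ (by positivity) (by positivity)]
  refine (mul_le_mul_of_nonneg_right (h1.trans (mul_le_mul_of_nonneg_left h2 (by positivity)))
    (by positivity)).trans_eq ?_
  ring

theorem nr_Dop (h : Mv μ τ) (g : X × X → ℝ) : nr (m2 μ) (Dop μ τ β g) ≤ 2 * nr (m2 μ) g := by
  have h1 := sq_Dop (β := β) h g
  have h2 := ip_Dop_self (β := β) h g
  have h3 := (abs_le.1 (abs_ip_le h.pr.m2 g (Dop μ τ β g))).2
  have h4 := nr_nonneg (m2 μ) g
  have h5 := nr_nonneg (m2 μ) (Dop μ τ β g)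
  by_contra hc
  push Not at hc
  nlinarith

theorem pyth (h : Pr μ) {g : X × X → ℝ} (hg : mn (m2 μ) g = 0) :
    nr μ (c1 μ g) ^ 2 + nr μ (c2 μ g) ^ 2 + nr (m2 μ) (dg μ g) ^ 2 = nr (m2 μ) g ^ 2 := by
  have e : ip (m2 μ) (dg μ g) (dg μ g) = ip (m2 μ) g g + ip (m2 μ) (fun a => c1 μ g a.1) (fun a => c1 μ g a.1) +
      ip (m2 μ) (fun a => c2 μ g a.2) (fun a => c2 μ g a.2) - 2 * ip (m2 μ) (fun a => c1 μ g a.1) g -
      2 * ip (m2 μ) (fun a => c2 μ g a.2) g + 2 * ip (m2 μ) (fun a => c1 μ g a.1) (fun a => c2 μ g a.2) := by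
    unfold ip
    simp only [mul_sum, ← sum_add_distrib, ← sum_sub_distrib]
    exact sum_congr rfl fun a _ => by simp only [dg]; ring
  rw [ip_fst h, ip_snd h, ip_fst_snd _ ((mn_c2 μ g).trans hg), ip_c1, ip_c2] at e
  rw [nr_sq h, nr_sq h, nr_sq h.m2, nr_sq h.m2, e]
  ring

theorem contr (h : Mv μ τ) (hA : 1 ≤ A) (hg : HasGap μ τ β A) (hs : 0 ≤ s) (hs' : s ≤ 1 / 4) {u : X → ℝ}
    (hu : mn μ u = 0) : mn μ (fun x => u x - s * Aop μ τ β u x) = 0 ∧
      nr μ (fun x => u x - s * Aop μ τ β u x) ≤ (1 - s / (2 * A)) * nr μ u := by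
  have hD := mn_Dop (β := β) h (sm u)
  have h1 : mn μ (Aop μ τ β u) = 0 := by
    have : mn μ (Aop μ τ β u) = mn μ (c1 μ (Dop μ τ β (sm u))) + mn μ (c2 μ (Dop μ τ β (sm u))) := by
      simp only [mn, Aop, mul_add, sum_add_distrib]
    rw [this, mn_c1, mn_c2, hD, add_zero]
  have h2 : ip μ u (Aop μ τ β u) = Dir μ τ β (sm u) / 2 := by
    rw [← ip_Dop_self h]
    have : ip μ u (Aop μ τ β u) = ip μ u (c1 μ (Dop μ τ β (sm u))) + ip μ u (c2 μ (Dop μ τ β (sm u))) := by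
      simp only [ip, Aop, mul_add, sum_add_distrib]
    rw [this, ← ip_c1, ← ip_c2]
    simp only [ip, sm, add_mul, mul_add, sum_add_distrib]
  have h3 : nr μ (Aop μ τ β u) ^ 2 ≤ 2 * Dir μ τ β (sm u) := by
    have a1 := nr_add_le h.pr (c1 μ (Dop μ τ β (sm u))) (c2 μ (Dop μ τ β (sm u)))
    have a2 := pyth h.pr hD
    have a3 := sq_Dop (β := β) h (sm u)
    have a4 := pow_le_pow_left₀ (nr_nonneg _ _) a1 2
    have a5 : Aop μ τ β u = fun y => c1 μ (Dop μ τ β (sm u)) y + c2 μ (Dop μ τ β (sm u)) y := rfl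
    rw [a5]
    nlinarith [sq_nonneg (nr μ (c1 μ (Dop μ τ β (sm u))) - nr μ (c2 μ (Dop μ τ β (sm u)))),
      sq_nonneg (nr (m2 μ) (dg μ (Dop μ τ β (sm u))))]
  refine ⟨?_, ?_⟩
  · have : mn μ (fun x => u x - s * Aop μ τ β u x) = mn μ u - s * mn μ (Aop μ τ β u) := by
      simp only [mn, mul_sum, ← sum_sub_distrib]
      exact sum_congr rfl fun x _ => by ring
    rw [this, hu, h1]
    ring
  · have hA0 : 0 < A := by linarith
    have hq : s / (2 * A) ≤ 1 := by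
      rw [div_le_one (by positivity)]
      linarith
    refine nr_le_of_sq _ (mul_nonneg (by linarith) (nr_nonneg _ _)) ?_
    have e : ip μ (fun x => u x - s * Aop μ τ β u x) (fun x => u x - s * Aop μ τ β u x) =
        ip μ u u - 2 * s * ip μ u (Aop μ τ β u) + s ^ 2 * ip μ (Aop μ τ β u) (Aop μ τ β u) := by
      unfold ip
      simp only [mul_sum, ← sum_add_distrib, ← sum_sub_distrib]
      exact sum_congr rfl fun a _ => by ring
    rw [e, h2, ← nr_sq h.pr (Aop μ τ β u), mul_pow, nr_sq h.pr u]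
    have h4 := hg u hu
    have h5 : 0 ≤ ip μ u u := by rw [← nr_sq h.pr]; positivity
    have h6 : 0 ≤ Dir μ τ β (sm u) := (sq_nonneg _).trans (sq_Dop h _)
    have h7 : s / (2 * A) * (2 * ip μ u u) ≤ s / 2 * Dir μ τ β (sm u) := by
      calc _ ≤ s / (2 * A) * (A * Dir μ τ β (sm u)) := mul_le_mul_of_nonneg_left h4 (by positivity)
        _ = _ := by field_simp
    have h8 : s ^ 2 * nr μ (Aop μ τ β u) ^ 2 ≤ s ^ 2 * (2 * Dir μ τ β (sm u)) :=
      mul_le_mul_of_nonneg_left h3 (sq_nonneg _)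
    have h9 : s ^ 2 * (2 * Dir μ τ β (sm u)) ≤ s / 2 * Dir μ τ β (sm u) := by
      nlinarith [mul_nonneg (mul_nonneg hs h6) (sub_nonneg.2 hs')]
    nlinarith [mul_nonneg (sq_nonneg (s / (2 * A))) h5]

theorem Bop_spec (h : Mv μ τ) {u : X → ℝ} (hu : mn μ u = 0) :
    Deg2 μ (Bop μ τ β u) ∧ nr (m2 μ) (Bop μ τ β u) ≤ 3 * nr μ u := by
  have hD := mn_Dop (β := β) h (sm u)
  refine ⟨deg_dg h.pr hD, ?_⟩
  have a2 := pyth h.pr hD
  have a3 := pow_le_pow_left₀ (nr_nonneg _ _) (nr_Dop (β := β) h (sm u)) 2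
  have a4 : nr (m2 μ) (sm u) ^ 2 = 2 * nr μ u ^ 2 := by
    have e : ip (m2 μ) (sm u) (sm u) = ip (m2 μ) (fun a => u a.1) (fun a => u a.1) +
        ip (m2 μ) (fun a => u a.2) (fun a => u a.2) + 2 * ip (m2 μ) (fun a => u a.1) (fun a => u a.2) := by
      unfold ip
      simp only [mul_sum, ← sum_add_distrib]
      exact sum_congr rfl fun a _ => by simp only [sm]; ring
    rw [nr_sq h.pr.m2, nr_sq h.pr, e, ip_fst h.pr, ip_snd h.pr, ip_fst_snd _ hu]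
    ring
  refine nr_le_of_sq _ (mul_nonneg (by norm_num) (nr_nonneg _ _)) ?_
  rw [← nr_sq h.pr.m2, Bop]
  nlinarith [sq_nonneg (nr μ (c1 μ (Dop μ τ β (sm u)))), sq_nonneg (nr μ (c2 μ (Dop μ τ β (sm u)))),
    sq_nonneg (nr μ u)]

theorem sy_spec (h : Pr μ) {w : X × X → ℝ} (hw : Deg2 μ w) : Deg2 μ (sy w) ∧ nr (m2 μ) (sy w) ≤ nr (m2 μ) w := by
  refine ⟨⟨fun y => ?_, fun x => ?_⟩, ?_⟩
  · simp only [sy, Prod.swap_prod_mk, ← mul_div_assoc, mul_add, ← sum_div, sum_add_distrib, hw.1, hw.2]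
    simp
  · simp only [sy, Prod.swap_prod_mk, ← mul_div_assoc, mul_add, ← sum_div, sum_add_distrib, hw.1, hw.2]
    simp
  · have h1 : sy w = fun a => (1 / 2 : ℝ) * (w a + w a.swap) := by
      funext a
      simp only [sy]
      ring
    have h2 : nr (m2 μ) (fun a => w a.swap) = nr (m2 μ) w := by
      unfold nr ip
      rw [← Equiv.sum_comp (Equiv.prodComm X X)]
      congr 1
      exact sum_congr rfl fun a _ => by simp [m2, mul_comm]
    rw [h1, nr_mul h.m2, abs_of_pos (by norm_num)]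
    have h3 := nr_add_le h.m2 w fun a => w a.swap
    linarith

theorem contr2 (h : Mv μ τ) (hA : 1 ≤ A) (hg : HasGap μ τ β A) (hs : 0 ≤ s) (hs' : s ≤ 1 / 4) {v : X × X → ℝ}
    (hv : Deg2 μ v) : Deg2 μ (fun a => v a - s * A1 μ τ β v a) ∧
      nr (m2 μ) (fun a => v a - s * A1 μ τ β v a) ≤ (1 - s / (2 * A)) * nr (m2 μ) v := by
  refine ⟨⟨fun y => (contr h hA hg hs hs' (u := fun x => v (x, y)) (hv.1 y)).1, fun x => ?_⟩, ?_⟩
  · have h1 := sum_c1 (sum_Dop (τ := τ) (β := β) hv.2) x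
    have h2 := sum_c2 (sum_Dop (τ := τ) (β := β) hv.2) x
    simp only [A1, Aop, mul_sub, mul_left_comm _ s, mul_add, sum_sub_distrib, sum_add_distrib, ← mul_sum, hv.2, h1, h2]
    ring
  · have hA0 : 0 < A := by linarith
    have hq : s / (2 * A) ≤ 1 := by
      rw [div_le_one (by positivity)]
      linarith
    refine nr_le_of_sq _ (mul_nonneg (by linarith) (nr_nonneg _ _)) ?_
    rw [mul_pow, nr_sq h.pr.m2, ip_slice2, ip_slice2, mul_sum]
    refine sum_le_sum fun y _ => ?_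
    rw [mul_left_comm]
    refine mul_le_mul_of_nonneg_left ?_ (h.pr.pos y).le
    have h1 := pow_le_pow_left₀ (nr_nonneg _ _) (contr h hA hg hs hs' (u := fun x => v (x, y)) (hv.1 y)).2 2
    rw [mul_pow, nr_sq h.pr, nr_sq h.pr] at h1
    exact h1

theorem Z3_spec (h : Mv μ τ) {v : X × X → ℝ} (hv : Deg2 μ v) :
    Deg3 μ (Z3 μ τ β v) ∧ nr (m3 μ) (Z3 μ τ β v) ≤ 3 * nr (m2 μ) v := by
  refine ⟨⟨fun y t => (Bop_spec h (u := fun x => v (x, t)) (hv.1 t)).1.1 y,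
    fun x t => (Bop_spec h (u := fun x => v (x, t)) (hv.1 t)).1.2 x, fun x y => ?_⟩, ?_⟩
  · have h0 := sum_Dop (τ := τ) (β := β) hv.2 (x, y)
    have h1 := sum_c1 (sum_Dop (τ := τ) (β := β) hv.2) x
    have h2 := sum_c2 (sum_Dop (τ := τ) (β := β) hv.2) y
    simp only [Z3, Bop, dg, mul_sub, sum_sub_distrib, h0, h1, h2]
    ring
  · refine nr_le_of_sq _ (mul_nonneg (by norm_num) (nr_nonneg _ _)) ?_
    rw [mul_pow, nr_sq h.pr.m2, ip_slice3, ip_slice2, mul_sum]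
    refine sum_le_sum fun t _ => ?_
    rw [mul_left_comm]
    refine mul_le_mul_of_nonneg_left ?_ (h.pr.pos t).le
    have h1 := pow_le_pow_left₀ (nr_nonneg _ _) (Bop_spec (β := β) h (u := fun x => v (x, t)) (hv.1 t)).2 2
    rw [mul_pow, nr_sq h.pr.m2, nr_sq h.pr] at h1
    exact h1

end Crest.Agent.R304
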