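import Crest.Agent.R304.PopB
import Crest.Agent.R309.Chain

/-!
# R304: the population kernel

PLAN.  `sum_code`: `k ↦ (k % r, k / r % r, k / r / r)` is a bijection from `range (r * r * N)` (apply twice
`∑ k ∈ range (r * N), G (k % r) (k / r) = ∑ i ∈ range r, ∑ q ∈ range N, G i q`, e.g. `Finset.sum_nbij'` or `Nat.divModEquiv`/`finProdFinEquiv`).
`Pop_eq`: unfold `Lk`, `Pk`; for `i ≠ j`, `pw (up M i j a) / pw M = m2 a / m2 (M i, M j)` and `up M i j (M i, M j) = M`.
`ip_Pop`: for fixed `i ≠ j`, `θ` the map `M ↦ up M i j (τ θ (M i, M j))` is an involution `T` and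
`pw M * min 1 (pw (T M) / pw M) = min (pw M) (pw (T M))` is symmetric (it is easier to work with `prp M k`, an involution for every `k`, and
`Lk`).  `nr_Pop`: Jensen `(Pop g M)^2 ≤ Pop (g^2) M` (a convex combination) and `mn (Pop f) = mn f`.
`Pop_S1`: `S1 u (up M i j a) = sm u a + (a constant)`, `Dop` kills constants, `Dop (sm u) a = c1 .. a.1 + c2 .. a.2 + Bop u a`;
`∑ i, ∑ j, if i ≠ j then f i else 0 = (r-1) ∑ i, f i`.
`Pop_S2`: with `v = sy w` (symmetric) `S2 w = S2 v` and `S2 v (up M i j a) = 2 v a + 2 ∑_{k ≠ i,j} sm (v (·, M k)) a + (a constant)`; `Dop` is linear;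
`∑_{i ≠ j, k ∉ {i,j}} f i k = (r-2) ∑_{i ≠ k} f i k`, the same for `f j k`.
-/

set_option autoImplicit false
set_option linter.unusedSectionVars false
open Finset Crest.Agent.R309

namespace Crest.Agent.R304

variable {X : Type} [Fintype X] [DecidableEq X]

/-- replace two members of the population -/
def up {r : ℕ} (M : Fin r → X) (i j : Fin r) (a : X × X) : Fin r → X :=
  Function.update (Function.update M i a.1) j a.2

/-- the proposal coded by `k` -/
def prp (τ : ℕ → X × X → X × X) (r : ℕ) (M : Fin r → X) (k : ℕ) : Fin r → X :=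
  if h : 0 < r then
    if k % r = k / r % r then M else
      up M ⟨k % r, Nat.mod_lt _ h⟩ ⟨k / r % r, Nat.mod_lt _ h⟩
        (τ (k / r / r) (M ⟨k % r, Nat.mod_lt _ h⟩, M ⟨k / r % r, Nat.mod_lt _ h⟩))
  else M

/-- the ideal lazy kernel on populations -/
noncomputable def Pop (μ : X → ℝ) (τ : ℕ → X × X → X × X) (r b0 : ℕ) : ((Fin r → X) → ℝ) → (Fin r → X) → ℝ :=
  Lk (prp τ r) b0 (fun x y => min 1 (pw μ y / pw μ x))

variable {μ : X → ℝ} {τ : ℕ → X × X → X × X} {β r b0 : ℕ}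

namespace PopC

theorem sum_code1 (hr : 0 < r) (N : ℕ) (H : Fin r → ℕ → ℝ) :
    ∑ k ∈ range (r * N), H ⟨k % r, Nat.mod_lt _ hr⟩ (k / r) = ∑ i, ∑ q ∈ range N, H i q := by
  induction N with
  | zero => simp
  | succ N ih =>
    rw [Nat.mul_succ, sum_range_add, ih]
    simp only [sum_range_succ, sum_add_distrib]
    congr 1
    rw [sum_range fun x => H ⟨(r * N + x) % r, Nat.mod_lt _ hr⟩ ((r * N + x) / r)]
    refine sum_congr rfl fun i _ => ?_
    congr 1
    · ext
      simp [Nat.mod_eq_of_lt i.2]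
    · rw [Nat.mul_add_div hr, Nat.div_eq_of_lt i.2, add_zero]

theorem up_fst {M : Fin r → X} {i j : Fin r} (hij : i ≠ j) (a : X × X) : up M i j a i = a.1 := by
  simp [up, Function.update_of_ne hij]

theorem up_snd (M : Fin r → X) (i j : Fin r) (a : X × X) : up M i j a j = a.2 := by simp [up]

theorem up_other {M : Fin r → X} {i j k : Fin r} (hi : k ≠ i) (hj : k ≠ j) (a : X × X) : up M i j a k = M k := by
  simp [up, Function.update_of_ne hi, Function.update_of_ne hj]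

theorem up_self (M : Fin r → X) (i j : Fin r) : up M i j (M i, M j) = M := by simp [up]

theorem up_up (M : Fin r → X) (i j : Fin r) (a b : X × X) : up (up M i j a) i j b = up M i j b := by
  funext k
  simp only [up, Function.update_apply]
  split_ifs <;> rfl

theorem pw_up (h : Pr μ) (M : Fin r → X) {i j : Fin r} (hij : i ≠ j) (a : X × X) :
    pw μ (up M i j a) / pw μ M = m2 μ a / m2 μ (M i, M j) := by
  have h1 := PopA.pw_update μ (Function.update M i a.1) j a.2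
  have h2 := PopA.pw_update μ M i a.1
  rw [Function.update_of_ne hij.symm] at h1
  rw [div_eq_div_iff (h.pw.pos M).ne' (h.m2.pos _).ne']
  simp only [m2, up]
  linear_combination μ (M i) * h1 + μ a.2 * h2

theorem Pop_def (G : (Fin r → X) → ℝ) (M : Fin r → X) : Pop μ τ r b0 G M = G M -
    (∑ k ∈ range (2 ^ b0), min 1 (pw μ (prp τ r M k) / pw μ M) * (G M - G (prp τ r M k))) / 2 ^ b0 / 2 := by
  have : ∀ k ∈ range (2 ^ b0), min 1 (pw μ (prp τ r M k) / pw μ M) * G (prp τ r M k) +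
      (1 - min 1 (pw μ (prp τ r M k) / pw μ M)) * G M =
      G M - min 1 (pw μ (prp τ r M k) / pw μ M) * (G M - G (prp τ r M k)) := fun k _ => by ring
  simp only [Pop, Lk, Pk]
  rw [sum_congr rfl this, sum_sub_distrib, sum_const, card_range, nsmul_eq_mul]
  push_cast
  field_simp
  ring

theorem split2 {i j : Fin r} (hij : i ≠ j) (f : Fin r → ℝ) :
    ∑ k, f k = f i + f j + ∑ k, if k ≠ i ∧ k ≠ j then f k else 0 := by
  have : ∀ k, f k = (if k = i then f k else 0) + (if k = j then f k else 0) + if k ≠ i ∧ k ≠ j then f k else 0 :=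
    fun k => by
      by_cases h1 : k = i
      · subst h1
        simp [hij]
      · by_cases h2 : k = j
        · subst h2
          simp [h1]
        · simp [h1, h2]
  rw [sum_congr rfl fun k _ => this k]
  simp only [sum_add_distrib, sum_ite_eq', mem_univ, if_true]

theorem cnt1 (i : Fin r) (c : ℝ) : ∑ j, (if i ≠ j then c else 0) = (r - 1) * c := by
  have : ∀ j, (if i ≠ j then c else 0) = c - if i = j then c else 0 := fun j => by
    by_cases h : i = j <;> simp [h]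
  simp only [this, sum_sub_distrib, sum_const, card_univ, Fintype.card_fin, nsmul_eq_mul, sum_ite_eq, mem_univ, if_true]
  ring

theorem cnt2 (f : Fin r → Fin r → ℝ) : ∑ i, ∑ j, ∑ k, (if i ≠ j ∧ k ≠ i ∧ k ≠ j then f i k else 0) =
    (r - 2) * ∑ i, ∑ k, if i ≠ k then f i k else 0 := by
  rw [mul_sum]
  refine sum_congr rfl fun i _ => ?_
  rw [sum_comm, mul_sum]
  refine sum_congr rfl fun k _ => ?_
  by_cases hik : i = k
  · simp [hik]
  · have h1 := split2 hik fun _ => f i k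
    simp only [sum_const, card_univ, Fintype.card_fin, nsmul_eq_mul] at h1
    have h2 : ∀ j, (if i ≠ j ∧ k ≠ i ∧ k ≠ j then f i k else 0) = if j ≠ i ∧ j ≠ k then f i k else 0 := fun j =>
      if_congr ⟨fun h => ⟨h.1.symm, h.2.2.symm⟩, fun h => ⟨h.1.symm, Ne.symm hik, h.2.symm⟩⟩ rfl rfl
    rw [sum_congr rfl fun j _ => h2 j, if_pos hik]
    linarith

theorem cnt3 (f : Fin r → Fin r → ℝ) : ∑ i, ∑ j, ∑ k, (if i ≠ j ∧ k ≠ i ∧ k ≠ j then f j k else 0) =
    (r - 2) * ∑ i, ∑ k, if i ≠ k then f i k else 0 := by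
  rw [← cnt2, sum_comm]
  exact sum_congr rfl fun i _ => sum_congr rfl fun j _ => sum_congr rfl fun k _ =>
    if_congr ⟨fun h => ⟨h.1.symm, h.2.2, h.2.1⟩, fun h => ⟨h.1.symm, h.2.2, h.2.1⟩⟩ rfl rfl

theorem S1_up (u : X → ℝ) (M : Fin r → X) {i j : Fin r} (hij : i ≠ j) (a : X × X) :
    S1 u (up M i j a) = sm u a + ∑ k, if k ≠ i ∧ k ≠ j then u (M k) else 0 := by
  rw [S1, split2 hij, up_fst hij, up_snd, sm]
  congr 1
  refine sum_congr rfl fun k _ => ?_
  split_ifs with hk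
  · rw [up_other hk.1 hk.2]
  · rfl

theorem S2_up {v : X × X → ℝ} (hv : ∀ x y, v (x, y) = v (y, x)) (M : Fin r → X) {i j : Fin r} (hij : i ≠ j)
    (a : X × X) : S2 v (up M i j a) =
      2 * v a + 2 * (∑ k, if k ≠ i ∧ k ≠ j then sm (fun x => v (x, M k)) a else 0) +
        ∑ k, if k ≠ i ∧ k ≠ j then (∑ l, if l ≠ i ∧ l ≠ j then (if k ≠ l then v (M k, M l) else 0) else 0) else 0 := by
  have h1 : ∑ l, (if i ≠ l then v (up M i j a i, up M i j a l) else 0) =
      v a + ∑ k, if k ≠ i ∧ k ≠ j then v (a.1, M k) else 0 := by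
    rw [split2 hij, if_neg (not_not.2 rfl), if_pos hij, up_fst hij, up_snd, zero_add]
    congr 1
    refine sum_congr rfl fun k _ => ?_
    split_ifs with hk h2
    · rw [up_other hk.1 hk.2]
    · exact absurd hk.1.symm h2
    · rfl
  have h2 : ∑ l, (if j ≠ l then v (up M i j a j, up M i j a l) else 0) =
      v a + ∑ k, if k ≠ i ∧ k ≠ j then v (a.2, M k) else 0 := by
    rw [split2 hij, if_neg (not_not.2 rfl), if_pos hij.symm, up_fst hij, up_snd, add_zero, hv]
    congr 1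
    refine sum_congr rfl fun k _ => ?_
    split_ifs with hk h2
    · rw [up_other hk.1 hk.2]
    · exact absurd hk.2.symm h2
    · rfl
  have h3 : ∀ k, (if k ≠ i ∧ k ≠ j then ∑ l, (if k ≠ l then v (up M i j a k, up M i j a l) else 0) else 0) =
      (if k ≠ i ∧ k ≠ j then sm (fun x => v (x, M k)) a else 0) +
      if k ≠ i ∧ k ≠ j then (∑ l, if l ≠ i ∧ l ≠ j then (if k ≠ l then v (M k, M l) else 0) else 0) else 0 :=
    fun k => by
      split_ifs with hk
      · rw [split2 hij, if_pos hk.1, if_pos hk.2, up_fst hij, up_snd, up_other hk.1 hk.2, hv (M k), hv (M k)]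
        congr 1
        refine sum_congr rfl fun l _ => ?_
        split_ifs with hl h2
        · rw [up_other hl.1 hl.2]
        · rfl
        · rfl
      · simp
  have h4 : ∑ k, (if k ≠ i ∧ k ≠ j then sm (fun x => v (x, M k)) a else 0) =
      (∑ k, if k ≠ i ∧ k ≠ j then v (a.1, M k) else 0) + ∑ k, if k ≠ i ∧ k ≠ j then v (a.2, M k) else 0 := by
    rw [← sum_add_distrib]
    refine sum_congr rfl fun k _ => ?_
    split_ifs
    · rfl
    · simp
  rw [S2, split2 hij, h1, h2, sum_congr rfl fun k _ => h3 k, sum_add_distrib, h4]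
  ring

theorem Dop_const (g : X × X → ℝ) (c : ℝ) (b : X × X) : Dop μ τ β (fun a => g a + c) b = Dop μ τ β g b := by
  simp only [Dop, add_sub_add_right_eq_sub]

theorem Dop_lin (v : X × X → ℝ) (p : Fin r → Prop) [DecidablePred p] (G : Fin r → X × X → ℝ) (b : X × X) :
    Dop μ τ β (fun a => 2 * v a + 2 * ∑ k, if p k then G k a else 0) b =
      2 * Dop μ τ β v b + 2 * ∑ k, if p k then Dop μ τ β (G k) b else 0 := by
  have h1 : ∀ k, (if p k then Dop μ τ β (G k) b else 0) = (∑ θ ∈ range (2 ^ β), min 1 (m2 μ (τ θ b) / m2 μ b) *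
      ((if p k then G k b else 0) - if p k then G k (τ θ b) else 0)) / 2 ^ β := fun k => by
    split_ifs
    · rfl
    · simp
  simp only [h1, ← sum_div]
  rw [sum_comm]
  simp only [Dop, ← mul_div_assoc, ← add_div, mul_sum (range _), ← sum_add_distrib, ← mul_sum univ, sum_sub_distrib]
  congr 1
  exact sum_congr rfl fun θ _ => by ring

theorem Dop_sm (u : X → ℝ) (x y : X) : Dop μ τ β (sm u) (x, y) =
    c1 μ (Dop μ τ β (sm u)) x + c2 μ (Dop μ τ β (sm u)) y + Bop μ τ β u (x, y) := by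
  simp only [Bop, dg]
  ring

theorem S2_sy (w : X × X → ℝ) : (S2 w : (Fin r → X) → ℝ) = S2 (sy w) := by
  funext M
  have h1 : ∑ i, ∑ j, (if i ≠ j then w (M i, M j) else 0) = ∑ i, ∑ j, (if i ≠ j then w (M j, M i) else 0) := by
    rw [sum_comm]
    exact sum_congr rfl fun i _ => sum_congr rfl fun j _ => if_congr ne_comm rfl rfl
  have h2 : S2 (sy w) M = (∑ i, ∑ j, (if i ≠ j then w (M i, M j) else 0) +
      ∑ i, ∑ j, (if i ≠ j then w (M j, M i) else 0)) / 2 := by
    simp only [S2, ← sum_add_distrib, sum_div]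
    refine sum_congr rfl fun i _ => sum_congr rfl fun j _ => ?_
    split_ifs
    · rfl
    · simp
  rw [h2, ← h1, S2]
  ring

end PopC
open PopC

theorem sum_code (hr : 0 < r) (N : ℕ) (G : Fin r → Fin r → ℕ → ℝ) :
    ∑ k ∈ range (r * r * N), G ⟨k % r, Nat.mod_lt _ hr⟩ ⟨k / r % r, Nat.mod_lt _ hr⟩ (k / r / r) =
      ∑ i, ∑ j, ∑ θ ∈ range N, G i j θ := by
  rw [mul_assoc, sum_code1 hr (r * N) fun i q => G i ⟨q % r, Nat.mod_lt _ hr⟩ (q / r)]
  exact sum_congr rfl fun i _ => sum_code1 hr N (G i)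

theorem prp_prp (h : Mv μ τ) (M : Fin r → X) (k : ℕ) : prp τ r (prp τ r M k) k = M := by
  by_cases hr : 0 < r
  · by_cases hk : k % r = k / r % r
    · simp [prp, hk]
    · have hij : (⟨k % r, Nat.mod_lt _ hr⟩ : Fin r) ≠ ⟨k / r % r, Nat.mod_lt _ hr⟩ := fun h => hk (congrArg Fin.val h)
      simp only [prp, dif_pos hr, if_neg hk]
      rw [up_up, up_fst hij, up_snd, Prod.mk.eta, h.inv, up_self]
  · simp [prp, hr]

theorem Pop_eq (h : Mv μ τ) (hb : 2 ^ b0 = r * r * 2 ^ β) (G : (Fin r → X) → ℝ) (M : Fin r → X) :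
    Pop μ τ r b0 G M = G M - 1 / (2 * (r : ℝ) ^ 2) *
      ∑ i, ∑ j, if i ≠ j then Dop μ τ β (fun a => G (up M i j a)) (M i, M j) else 0 := by
  have hr : 0 < r := by
    rcases Nat.eq_zero_or_pos r with h0 | h0
    · rw [h0] at hb
      simp at hb
    · exact h0
  have hr' : (0 : ℝ) < r := by exact_mod_cast hr
  have hb' : (2 : ℝ) ^ b0 = r * r * 2 ^ β := by exact_mod_cast hb
  have h1 := sum_code hr (2 ^ β) fun i j θ => if i ≠ j then min 1 (m2 μ (τ θ (M i, M j)) / m2 μ (M i, M j)) *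
    (G (up M i j (M i, M j)) - G (up M i j (τ θ (M i, M j)))) else 0
  have h2 : ∀ i j : Fin r, (if i ≠ j then Dop μ τ β (fun a => G (up M i j a)) (M i, M j) else 0) =
      (∑ θ ∈ range (2 ^ β), if i ≠ j then min 1 (m2 μ (τ θ (M i, M j)) / m2 μ (M i, M j)) *
        (G (up M i j (M i, M j)) - G (up M i j (τ θ (M i, M j)))) else 0) / 2 ^ β := fun i j => by
    split_ifs
    · rfl
    · simp
  simp only [h2, ← sum_div]
  rw [← h1, Pop_def, hb', hb]
  congr 1
  rw [sum_congr rfl (g := fun k => if (⟨k % r, Nat.mod_lt _ hr⟩ : Fin r) ≠ ⟨k / r % r, Nat.mod_lt _ hr⟩ then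
      min 1 (m2 μ (τ (k / r / r) (M ⟨k % r, Nat.mod_lt _ hr⟩, M ⟨k / r % r, Nat.mod_lt _ hr⟩)) /
        m2 μ (M ⟨k % r, Nat.mod_lt _ hr⟩, M ⟨k / r % r, Nat.mod_lt _ hr⟩)) *
        (G (up M ⟨k % r, Nat.mod_lt _ hr⟩ ⟨k / r % r, Nat.mod_lt _ hr⟩
          (M ⟨k % r, Nat.mod_lt _ hr⟩, M ⟨k / r % r, Nat.mod_lt _ hr⟩)) -
        G (up M ⟨k % r, Nat.mod_lt _ hr⟩ ⟨k / r % r, Nat.mod_lt _ hr⟩
          (τ (k / r / r) (M ⟨k % r, Nat.mod_lt _ hr⟩, M ⟨k / r % r, Nat.mod_lt _ hr⟩)))) else 0)]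
  · field_simp
  · intro k _
    by_cases hk : k % r = k / r % r
    · rw [if_neg (not_not.2 (Fin.ext hk))]
      simp [prp, hk]
    · have hij : (⟨k % r, Nat.mod_lt _ hr⟩ : Fin r) ≠ ⟨k / r % r, Nat.mod_lt _ hr⟩ := fun h => hk (congrArg Fin.val h)
      rw [if_pos hij, up_self]
      simp only [prp, dif_pos hr, if_neg hk]
      rw [pw_up h.pr M hij]

theorem Pop_lin (c : ℝ) (f g : (Fin r → X) → ℝ) (T : ℕ) :
    (Pop μ τ r b0)^[T] (fun M => f M - c * g M) = fun M => (Pop μ τ r b0)^[T] f M - c * (Pop μ τ r b0)^[T] g M := by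
  induction T with
  | zero => rfl
  | succ T ih =>
    simp only [Function.iterate_succ_apply', ih]
    funext M
    simp only [Pop_def]
    generalize (Pop μ τ r b0)^[T] f = F
    generalize (Pop μ τ r b0)^[T] g = G
    have : ∑ k ∈ range (2 ^ b0), min 1 (pw μ (prp τ r M k) / pw μ M) *
        (F M - c * G M - (F (prp τ r M k) - c * G (prp τ r M k))) =
        ∑ k ∈ range (2 ^ b0), min 1 (pw μ (prp τ r M k) / pw μ M) * (F M - F (prp τ r M k)) -
        c * ∑ k ∈ range (2 ^ b0), min 1 (pw μ (prp τ r M k) / pw μ M) * (G M - G (prp τ r M k)) := by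
      rw [mul_sum, ← sum_sub_distrib]
      exact sum_congr rfl fun k _ => by ring
    rw [this]
    ring

theorem Pop_bdd (h : Mv μ τ) {F : (Fin r → X) → ℝ} (hF : ∀ M, 0 ≤ F M ∧ F M ≤ 1) (T : ℕ) (M : Fin r → X) :
    0 ≤ (Pop μ τ r b0)^[T] F M ∧ (Pop μ τ r b0)^[T] F M ≤ 1 := by
  induction T generalizing M with
  | zero => exact hF M
  | succ T ih =>
    rw [Function.iterate_succ_apply']
    exact Lk_bdd (Ω := univ) (fun _ _ _ => mem_univ _) b0 (fun x _ y _ => PopB.acc_mem h.pr.pw x y)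
      (fun x _ => ih x) M (mem_univ _)

theorem ip_Pop (h : Mv μ τ) (f g : (Fin r → X) → ℝ) (T : ℕ) :
    ip (pw μ) f ((Pop μ τ r b0)^[T] g) = ip (pw μ) ((Pop μ τ r b0)^[T] f) g := by
  have key : ∀ f g : (Fin r → X) → ℝ, ip (pw μ) f (Pop μ τ r b0 g) = ip (pw μ) f g -
      (∑ k ∈ range (2 ^ b0), (∑ M, min (pw μ M) (pw μ (prp τ r M k)) *
        ((f M - f (prp τ r M k)) * (g M - g (prp τ r M k)))) / 2) / 2 ^ b0 / 2 := fun f g => by
    rw [← sum_congr rfl fun k _ => PopB.inv_form h.pr.pw (T := fun M => prp τ r M k) (fun M => prp_prp h M k) f g,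
      sum_comm]
    simp only [ip, Pop_def, sum_div univ, ← sum_sub_distrib, ← mul_sum]
    exact sum_congr rfl fun M _ => by ring
  have one : ∀ f g : (Fin r → X) → ℝ, ip (pw μ) f (Pop μ τ r b0 g) = ip (pw μ) (Pop μ τ r b0 f) g := fun f g => by
    rw [ip_comm _ (Pop μ τ r b0 f), key, key, ip_comm _ g f]
    simp only [mul_comm (f _ - f _)]
  induction T generalizing f with
  | zero => rfl
  | succ T ih => rw [Function.iterate_succ_apply', one, ih, Function.iterate_succ_apply]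

theorem mn_Pop (h : Mv μ τ) (g : (Fin r → X) → ℝ) (T : ℕ) : mn (pw μ) ((Pop μ τ r b0)^[T] g) = mn (pw μ) g := by
  have h1 : (Pop μ τ r b0)^[T] (fun _ => 1) = fun _ => 1 :=
    Function.iterate_fixed (funext fun M => Lk_const _ _ _ _ M) T
  have h2 := ip_Pop (b0 := b0) h (fun _ => 1) g T
  rw [h1] at h2
  simpa only [ip, one_mul, mn] using h2

theorem nr_Pop (h : Mv μ τ) (g : (Fin r → X) → ℝ) (T : ℕ) : nr (pw μ) ((Pop μ τ r b0)^[T] g) ≤ nr (pw μ) g := by
  have one : ∀ g : (Fin r → X) → ℝ, nr (pw μ) (Pop μ τ r b0 g) ≤ nr (pw μ) g := fun g => by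
    refine nr_le_of_sq _ (nr_nonneg _ _) ?_
    rw [nr_sq h.pr.pw, PopA.ip_eq_mn _ g g, ← mn_Pop (b0 := b0) h _ 1]
    refine sum_le_sum fun M _ => mul_le_mul_of_nonneg_left ?_ (h.pr.pw.pos M).le
    set c := Pop μ τ r b0 g M with hc
    have h1 := congrFun (Pop_lin (μ := μ) (τ := τ) (b0 := b0) (2 * c) (fun y => g y * g y) g 1) M
    have h2 := congrFun (Pop_lin (μ := μ) (τ := τ) (b0 := b0) (-c ^ 2) (fun y => g y * g y - 2 * c * g y)
      (fun _ => 1) 1) M
    rw [h1] at h2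
    simp only [Function.iterate_one] at h2 ⊢
    have h3 : Pop μ τ r b0 (fun _ => 1) M = 1 := Lk_const _ _ _ _ M
    have h4 : 0 ≤ Pop μ τ r b0 (fun y => g y * g y - 2 * c * g y - -c ^ 2 * 1) M := by
      have h5 : ∀ y, 0 ≤ g y * g y - 2 * c * g y - -c ^ 2 * 1 := fun y => by nlinarith [sq_nonneg (g y - c)]
      refine div_nonneg (add_nonneg (h5 M) (div_nonneg (sum_nonneg fun k _ => ?_) (by positivity))) (by norm_num)
      have h6 := PopB.acc_mem h.pr.pw M (prp τ r M k)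
      exact add_nonneg (mul_nonneg h6.1 (h5 _)) (mul_nonneg (sub_nonneg.2 h6.2) (h5 _))
    rw [h2, h3, ← hc] at h4
    nlinarith
  induction T with
  | zero => exact le_rfl
  | succ T ih => rw [Function.iterate_succ_apply']; exact (one _).trans ih

theorem Pop_S1 (h : Mv μ τ) (hb : 2 ^ b0 = r * r * 2 ^ β) (u : X → ℝ) (M : Fin r → X) :
    Pop μ τ r b0 (S1 u) M = S1 (fun x => u x - (r - 1 : ℝ) / (2 * r ^ 2) * Aop μ τ β u x) M -
      1 / (2 * (r : ℝ) ^ 2) * S2 (Bop μ τ β u) M := by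
  rw [Pop_eq h hb]
  have h1 : ∀ i j : Fin r, (if i ≠ j then Dop μ τ β (fun a => S1 u (up M i j a)) (M i, M j) else 0) =
      (if i ≠ j then c1 μ (Dop μ τ β (sm u)) (M i) else 0) + (if j ≠ i then c2 μ (Dop μ τ β (sm u)) (M j) else 0) +
        if i ≠ j then Bop μ τ β u (M i, M j) else 0 := fun i j => by
    by_cases hij : i ≠ j
    · simp only [if_pos hij, if_pos hij.symm, S1_up u M hij, Dop_const, Dop_sm]
    · simp only [if_neg hij, if_neg (mt Ne.symm hij), add_zero]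
  simp only [h1, sum_add_distrib]
  rw [sum_comm (f := fun i j => if j ≠ i then c2 μ (Dop μ τ β (sm u)) (M j) else 0)]
  simp only [cnt1, S1, S2, Aop, sum_sub_distrib, ← mul_sum, sum_add_distrib]
  ring

theorem Pop_S2 (h : Mv μ τ) (hb : 2 ^ b0 = r * r * 2 ^ β) (w : X × X → ℝ) (M : Fin r → X) :
    Pop μ τ r b0 (S2 w) M = S2 (fun a => sy w a - (r - 2 : ℝ) / r ^ 2 * A1 μ τ β (sy w) a) M -
      1 / (r : ℝ) ^ 2 * S2 (Dop μ τ β (sy w)) M - 1 / (r : ℝ) ^ 2 * S3 (Z3 μ τ β (sy w)) M := by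
  have hv : ∀ x y, sy w (x, y) = sy w (y, x) := fun x y => by simp only [sy, Prod.swap_prod_mk, add_comm]
  rw [S2_sy w, Pop_eq h hb]
  generalize sy w = v at hv ⊢
  have h1 : ∀ i j : Fin r, (if i ≠ j then Dop μ τ β (fun a => S2 v (up M i j a)) (M i, M j) else 0) =
      2 * (if i ≠ j then Dop μ τ β v (M i, M j) else 0) +
      2 * (∑ k, if i ≠ j ∧ k ≠ i ∧ k ≠ j then c1 μ (Dop μ τ β (sm fun x => v (x, M k))) (M i) else 0) +
      2 * (∑ k, if i ≠ j ∧ k ≠ i ∧ k ≠ j then c2 μ (Dop μ τ β (sm fun x => v (x, M k))) (M j) else 0) +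
      2 * ∑ k, if i ≠ j ∧ k ≠ i ∧ k ≠ j then Z3 μ τ β v (M i, M j, M k) else 0 := fun i j => by
    by_cases hij : i ≠ j
    · simp only [if_pos hij, S2_up hv M hij]
      rw [Dop_const, Dop_lin, add_assoc, add_assoc, ← mul_add 2 (∑ _, _), ← mul_add 2 (∑ _, _), ← sum_add_distrib,
        ← sum_add_distrib]
      congr 2
      refine sum_congr rfl fun k _ => ?_
      by_cases hk : k ≠ i ∧ k ≠ j
      · rw [if_pos hk, if_pos ⟨hij, hk⟩, if_pos ⟨hij, hk⟩, if_pos ⟨hij, hk⟩, Dop_sm, add_assoc]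
        rfl
      · rw [if_neg hk, if_neg (fun h => hk h.2), if_neg (fun h => hk h.2), if_neg (fun h => hk h.2)]
        simp
    · simp [hij]
  simp only [h1, sum_add_distrib, ← mul_sum]
  rw [cnt2 fun i k => c1 μ (Dop μ τ β (sm fun x => v (x, M k))) (M i),
    cnt3 fun j k => c2 μ (Dop μ τ β (sm fun x => v (x, M k))) (M j)]
  have h2 : S2 (fun a => v a - (r - 2 : ℝ) / r ^ 2 * A1 μ τ β v a) M = S2 v M - (r - 2 : ℝ) / r ^ 2 *
      ((∑ i : Fin r, ∑ k : Fin r, if i ≠ k then c1 μ (Dop μ τ β (sm fun x => v (x, M k))) (M i) else (0 : ℝ)) +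
        ∑ i : Fin r, ∑ k : Fin r, if i ≠ k then c2 μ (Dop μ τ β (sm fun x => v (x, M k))) (M i) else (0 : ℝ)) := by
    simp only [S2, ← sum_add_distrib, mul_sum, ← sum_sub_distrib]
    refine sum_congr rfl fun i _ => sum_congr rfl fun k _ => ?_
    split_ifs
    · rfl
    · simp
  rw [h2]
  simp only [S2, S3]
  ring

end Crest.Agent.R304
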