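import Crest.Agent.R304.Ring

/-!
# R304: a four-point inequality for the normalised edge probabilities

PLAN.  `xm x z * xm o y = ∑` of `mu F * mu I` over pairs with `F x = z`, `I o = y`.  Split according to `C = comp I F x`
(`exists_cy`: `c 0 = x`, `c (N-1) = z` since `F (c (N-1)) = c N = x`).
(1) `o ∉ C`: `(I,F) ↦ (mix C I F, mix C F I)` is injective (`mix_mix`, `comp_mix`), preserves the weight (`wt_mix`), and the first
component contains both edges, so the mass is `≤ m := mu {X | X x = z ∧ X o = y}`.  `X ↦ cj X z o` maps this set bijectively to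
`{X | X x = o ∧ X z = y}` (`cj_left`, `wt_cj`), so `m / (ℓ x z ℓ o y)^2 ≤ xm o x / (ℓ o x ℓ y z)^2 ≤ Wv o x * Wv y z / δ`.
(2),(3) `o ∈ C`: the edge `o y` of `I` is `(c (2i), c (2i+1))` with `0 ≤ 2i < N`, and `0 < i`, `2i+1 < N-1` by distinctness.  Put
`a = c (2i)`, `b = c (2i+1)`, `X = Ts F C N c (2i) (N-1)`, `Y = Ts I C N c 0 (2i+1)`.  Then `X a = z`, `Y x = b`, `X = F`, `Y = I` off `C`,
`{X v, Y v} = {F v, I v}` on `C \ {x,z,a,b}`, `I x = X x`, `I z = Y z`, `F a = Y a`, `F b = X b`.  These facts (a relation `R (I,F) (X,Y)`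
for fixed `a, b`) give `wt X wt Y (ℓ x z ℓ a b)^2 = wt I wt F (ℓ a z ℓ x b)^2` vertexwise, and determine `(I,F)` from `(X,Y)` (`dec`).
So the mass of the case `(a,b) = (o,y)` is `≤ xm o z * xm x y * (ℓ x z ℓ o y)^2 / (ℓ o z ℓ x y)^2`, and that of `(a,b) = (y,o)` is
`≤ xm y z * xm x o * (..)`.  (Sum over an injection: `Finset.sum_le_sum_of_subset_of_nonneg`, `Finset.sum_image`.)
-/

set_option autoImplicit false
set_option linter.unusedSectionVars false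
open Finset

namespace Crest.Agent.R304

variable {V : Type} [Fintype V] [DecidableEq V]

noncomputable def Wv (ℓ : V → V → ℝ) (u v : V) : ℝ := xm ℓ u v / ℓ u v ^ 2

theorem quad_inj {α β : Type} [DecidableEq β] (A : Finset α) (B : Finset β) (w : α → ℝ) (w' : β → ℝ)
    (hw' : ∀ b, 0 ≤ w' b) (R : α → β → Prop) (h1 : ∀ a ∈ A, ∃ b ∈ B, R a b ∧ w a ≤ w' b)
    (h2 : ∀ a a' b, R a b → R a' b → a = a') : ∑ a ∈ A, w a ≤ ∑ b ∈ B, w' b := by
  choose f hf using fun a : A => h1 a a.2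
  have hinj : Function.Injective f := fun a a' h =>
    Subtype.ext (h2 _ _ _ (hf a).2.1 (h ▸ (hf a').2.1))
  calc ∑ a ∈ A, w a = ∑ a : A, w a := (Finset.sum_coe_sort A w).symm
    _ ≤ ∑ a : A, w' (f a) := Finset.sum_le_sum fun a _ => (hf a).2.2
    _ = ∑ b ∈ univ.image f, w' b := (Finset.sum_image fun a _ a' _ h => hinj h).symm
    _ ≤ _ := by
        refine Finset.sum_le_sum_of_subset_of_nonneg (fun b hb => ?_) fun b _ _ => hw' b
        obtain ⟨a, -, rfl⟩ := Finset.mem_image.1 hb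
        exact (hf a).1

/-- the switch of the pair `(I,F)` along the cycle through `x` -/
structure QuadR (x z a b : V) (I F X Y : PM V) : Prop where
  hF : F.1 x = z
  hI : I.1 a = b
  hX : X.1 a = z
  hY : Y.1 x = b
  out : ∀ v, v ∉ comp I F x → X.1 v = F.1 v ∧ Y.1 v = I.1 v
  ins : ∀ v, v ≠ x → v ≠ z → v ≠ a → v ≠ b →
    (X.1 v = F.1 v ∧ Y.1 v = I.1 v) ∨ (X.1 v = I.1 v ∧ Y.1 v = F.1 v)
  hx : X.1 x = I.1 x
  hz : Y.1 z = I.1 z
  ha : Y.1 a = F.1 a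
  hb : X.1 b = F.1 b

theorem QuadR.dec {x z a b : V} {I F I' F' X Y : PM V} (h : QuadR x z a b I F X Y)
    (h' : QuadR x z a b I' F' X Y) : I = I' ∧ F = F' := by
  refine Crest.Agent.R304.dec (a := x) (h.hx.symm.trans h'.hx) (fun v _ _ => ?_) fun v h1 h2 => ?_
  · by_cases h1 : v = x
    · subst h1
      exact Or.inl ⟨h.hx.symm.trans h'.hx, h.hF.trans h'.hF.symm⟩
    by_cases h2 : v = z
    · subst h2
      exact Or.inl ⟨h.hz.symm.trans h'.hz, (F.symm h.hF).trans (F'.symm h'.hF).symm⟩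
    by_cases h3 : v = a
    · subst h3
      exact Or.inl ⟨h.hI.trans h'.hI.symm, h.ha.symm.trans h'.ha⟩
    by_cases h4 : v = b
    · subst h4
      exact Or.inl ⟨(I.symm h.hI).trans (I'.symm h'.hI).symm, h.hb.symm.trans h'.hb⟩
    rcases h.ins v h1 h2 h3 h4 with ⟨h5, h6⟩ | ⟨h5, h6⟩ <;>
      rcases h'.ins v h1 h2 h3 h4 with ⟨h7, h8⟩ | ⟨h7, h8⟩
    · exact Or.inl ⟨h6.symm.trans h8, h5.symm.trans h7⟩
    · exact Or.inr ⟨h6.symm.trans h8, h5.symm.trans h7⟩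
    · exact Or.inr ⟨h5.symm.trans h7, h6.symm.trans h8⟩
    · exact Or.inl ⟨h5.symm.trans h7, h6.symm.trans h8⟩
  · exact ⟨(h.out v h1).2.symm.trans (h'.out v h2).2, (h.out v h1).1.symm.trans (h'.out v h2).1⟩

theorem QuadR.wt {ℓ : V → V → ℝ} (hW : Wt ℓ) {x z a b : V} {I F X Y : PM V} (h : QuadR x z a b I F X Y)
    (hxz : x ≠ z) (hxa : x ≠ a) (hxb : x ≠ b) (hza : z ≠ a) (hzb : z ≠ b) (hab : a ≠ b) :
    wt ℓ X * wt ℓ Y * (ℓ x z * ℓ a b) ^ 2 = wt ℓ I * wt ℓ F * (ℓ a z * ℓ x b) ^ 2 := by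
  unfold Crest.Agent.R304.wt
  rw [← Finset.prod_mul_distrib, ← Finset.prod_mul_distrib,
    ← Finset.prod_mul_prod_compl ({x, z, a, b} : Finset V),
    ← Finset.prod_mul_prod_compl ({x, z, a, b} : Finset V) (fun v => ℓ v (I.1 v) * ℓ v (F.1 v))]
  have h1 : ∏ v ∈ ({x, z, a, b} : Finset V)ᶜ, ℓ v (X.1 v) * ℓ v (Y.1 v) =
      ∏ v ∈ ({x, z, a, b} : Finset V)ᶜ, ℓ v (I.1 v) * ℓ v (F.1 v) := by
    refine Finset.prod_congr rfl fun v hv => ?_
    simp only [Finset.mem_compl, Finset.mem_insert, Finset.mem_singleton, not_or] at hv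
    rcases h.ins v hv.1 hv.2.1 hv.2.2.1 hv.2.2.2 with ⟨h5, h6⟩ | ⟨h5, h6⟩
    · rw [h5, h6, mul_comm]
    · rw [h5, h6]
  have h2 : ∀ f : V → ℝ, ∏ v ∈ ({x, z, a, b} : Finset V), f v = f x * (f z * (f a * f b)) := by
    intro f
    rw [Finset.prod_insert (by simp [hxz, hxa, hxb]), Finset.prod_insert (by simp [hza, hzb]),
      Finset.prod_pair hab]
  rw [h1, h2, h2, h.hx, h.hY, h.hF, X.symm h.hX, h.hz, F.symm h.hF, h.hX, h.ha, h.hI, h.hb,
    Y.symm h.hY, I.symm h.hI, hW.symm z a, hW.symm z x, hW.symm b x, hW.symm b a]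
  ring

theorem quad_even {I F : PM V} {x z : V} {N : ℕ} {c : ℤ → V} (hC : Cy I F (comp I F x) N c) (h0 : c 0 = x)
    (hF : F.1 x = z) {p : ℤ} (hp : p % 2 = 0) (hp0 : 0 ≤ p) (hpN : p < N) (hpx : c p ≠ x)
    (hpz : c (p + 1) ≠ z) : ∃ X Y, QuadR x z (c p) (c (p + 1)) I F X Y := by
  have hL := hC.lp
  have hN : (N : ℤ) % 2 = 0 := by
    obtain ⟨k, hk⟩ := hC.even
    omega
  have back : ∀ (Z : PM V) (t : ℤ), Z.1 (c (t - 1)) = c (t - 1 + 1) → Z.1 (c t) = c (t - 1) := by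
    intro Z t h
    rw [sub_add_cancel] at h
    exact Z.symm h
  have I0 : ∀ t, t % 2 = 0 → I.1 (c t) = c (t + 1) := fun t ht => hC.ev t (Int.even_iff.2 ht)
  have F1 : ∀ t, t % 2 = 1 → F.1 (c t) = c (t + 1) := fun t ht => hC.od t (Int.odd_iff.2 ht)
  have I1 : ∀ t, t % 2 = 1 → I.1 (c t) = c (t - 1) := fun t ht => back I t (I0 _ (by omega))
  have F0 : ∀ t, t % 2 = 0 → F.1 (c t) = c (t - 1) := fun t ht => back F t (F1 _ (by omega))
  have hz : c (N - 1) = z := by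
    rw [← hF, ← h0, ← hL.per 0, F0 _ (by omega), zero_add]
  have hp1 : 0 < p := lt_of_le_of_ne hp0 fun h => hpx (h ▸ h0)
  have hp2 : p + 1 < N - 1 := by
    have : p + 1 ≠ N - 1 := fun h => hpz (h ▸ hz)
    omega
  obtain ⟨X, hX⟩ := exists_T (B := F) (p := p) (q := N - 1) hL (fun v hv => (closed_comp I F x v hv).2)
    (by omega) (by omega) (Int.odd_iff.2 (by omega))
  obtain ⟨Y, hY⟩ := exists_T (B := I) (p := 0) (q := p + 1) hL (fun v hv => (closed_comp I F x v hv).1)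
    (by omega) (by omega) (Int.odd_iff.2 (by omega))
  have X0 : ∀ t, 0 ≤ t → t < p → t % 2 = 0 → X.1 (c t) = c (t + 1) := by
    intro t h1 h2 h3
    have h4 := hX.outs (t + N) (by omega) (by omega) (Int.odd_iff.2 (by omega))
    rwa [hL.per, add_right_comm, hL.per] at h4
  have hX1 : ∀ t, 0 ≤ t → t < p → X.1 (c t) = I.1 (c t) := by
    intro t h1 h2
    rcases Int.emod_two_eq_zero_or_one t with h3 | h3
    · rw [X0 t h1 h2 h3, I0 t h3]
    · rw [I1 t h3, back X t (X0 _ (by omega) (by omega) (by omega))]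
  have hX2 : ∀ t, p < t → t < N - 1 → X.1 (c t) = F.1 (c t) := by
    intro t h1 h2
    rcases Int.emod_two_eq_zero_or_one t with h3 | h3
    · rw [F0 t h3, back X t (hX.ins _ (by omega) (by omega) (Int.odd_iff.2 (by omega)))]
    · rw [F1 t h3, hX.ins t h1 h2 (Int.odd_iff.2 (by omega))]
  have hY1 : ∀ t, 0 < t → t ≤ p → Y.1 (c t) = F.1 (c t) := by
    intro t h1 h2
    rcases Int.emod_two_eq_zero_or_one t with h3 | h3
    · rw [F0 t h3, back Y t (hY.ins _ (by omega) (by omega) (Int.odd_iff.2 (by omega)))]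
    · rw [F1 t h3, hY.ins t h1 (by omega) (Int.odd_iff.2 (by omega))]
  have hY2 : ∀ t, p + 1 < t → t < N → Y.1 (c t) = I.1 (c t) := by
    intro t h1 h2
    rcases Int.emod_two_eq_zero_or_one t with h3 | h3
    · rw [I0 t h3, hY.outs t h1 (by omega) (Int.odd_iff.2 (by omega))]
    · rw [I1 t h3, back Y t (hY.outs _ (by omega) (by omega) (Int.odd_iff.2 (by omega)))]
  refine ⟨X, Y, hF, I0 p hp, hX.chord.trans hz, h0 ▸ hY.chord, fun v hv => ⟨hX.out v hv, hY.out v hv⟩,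
    fun v h1 h2 h3 h4 => ?_, h0 ▸ hX1 0 le_rfl hp1, hz ▸ hY2 _ hp2 (by omega), hY1 p hp1 le_rfl,
    hX2 _ (by omega) hp2⟩
  by_cases hv : v ∈ comp I F x
  · obtain ⟨t, h5, h6, rfl⟩ := hL.win 0 hv
    have h7 : t ≠ 0 := fun h => h1 (h ▸ h0)
    have h8 : t ≠ N - 1 := fun h => h2 (h ▸ hz)
    have h9 : t ≠ p := fun h => h3 (h ▸ rfl)
    have h10 : t ≠ p + 1 := fun h => h4 (h ▸ rfl)
    rcases lt_or_gt_of_ne h9 with h11 | h11
    · exact Or.inr ⟨hX1 t h5 h11, hY1 t (by omega) h11.le⟩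
    · exact Or.inl ⟨hX2 t h11 (by omega), hY2 t (by omega) (by omega)⟩
  · exact Or.inl ⟨hX.out v hv, hY.out v hv⟩

theorem quad_ex {I F : PM V} {o x y z : V} (hox : o ≠ x) (hoz : o ≠ z) (hxy : x ≠ y) (hyz : y ≠ z)
    (hF : F.1 x = z) (hI : I.1 o = y) (ho : o ∈ comp I F x) :
    (∃ X Y, QuadR x z o y I F X Y) ∨ ∃ X Y, QuadR x z y o I F X Y := by
  obtain ⟨N, c, hC, h0, -⟩ := exists_cy I F x
  obtain ⟨t, h1, h2, rfl⟩ := hC.lp.win 0 ho
  rcases Int.emod_two_eq_zero_or_one t with h3 | h3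
  · have h4 : y = c (t + 1) := hI.symm.trans (hC.ev t (Int.even_iff.2 h3))
    subst h4
    exact Or.inl (quad_even hC h0 hF h3 h1 (by omega) hox hyz)
  · have h5 := hC.ev (t - 1) (Int.even_iff.2 (by omega))
    rw [sub_add_cancel] at h5
    have h4 : y = c (t - 1) := hI.symm.trans (I.symm h5)
    subst h4
    have h6 := quad_even hC h0 hF (p := t - 1) (by omega) (by omega) (by omega) hxy.symm
      (by rwa [sub_add_cancel])
    rw [sub_add_cancel] at h6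
    exact Or.inr h6

theorem quad_xm_mul (ℓ : V → V → ℝ) (u v u' v' : V) : xm ℓ u v * xm ℓ u' v' =
    ∑ a ∈ univ.filter fun a : PM V × PM V => a.1.1 u = v ∧ a.2.1 u' = v', mu ℓ a.1 * mu ℓ a.2 := by
  unfold xm
  rw [Finset.sum_mul_sum, Finset.sum_filter, Fintype.sum_prod_type]
  refine Finset.sum_congr rfl fun X _ => Finset.sum_congr rfl fun Y _ => ?_
  by_cases h1 : X.1 u = v <;> by_cases h2 : Y.1 u' = v' <;> simp [h1, h2]

theorem quad_mu {ℓ : V → V → ℝ} {I F X Y : PM V} {s t : ℝ} (ht : 0 < t)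
    (h : wt ℓ X * wt ℓ Y * s = wt ℓ I * wt ℓ F * t) : mu ℓ I * mu ℓ F = s / t * (mu ℓ X * mu ℓ Y) := by
  unfold mu
  have h1 : wt ℓ I * wt ℓ F = wt ℓ X * wt ℓ Y * s / t := by
    rw [h]
    field_simp
  rw [div_mul_div_comm, div_mul_div_comm, h1]
  ring

open Classical in
theorem quad_case {ℓ : V → V → ℝ} (hW : Wt ℓ) {x z a b : V}
    (hxz : x ≠ z) (hxa : x ≠ a) (hxb : x ≠ b) (hza : z ≠ a) (hzb : z ≠ b) (hab : a ≠ b) :
    ∑ q ∈ univ.filter fun q : PM V × PM V => ∃ X Y, QuadR x z a b q.1 q.2 X Y, mu ℓ q.1 * mu ℓ q.2 ≤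
      (ℓ x z * ℓ a b) ^ 2 * (Wv ℓ a z * Wv ℓ x b) := by
  have h1 := hW.pos a z
  have h2 := hW.pos x b
  have h3 : (ℓ x z * ℓ a b) ^ 2 * (Wv ℓ a z * Wv ℓ x b) =
      (ℓ x z * ℓ a b) ^ 2 / (ℓ a z * ℓ x b) ^ 2 * (xm ℓ a z * xm ℓ x b) := by
    unfold Wv
    field_simp
  rw [h3, quad_xm_mul, Finset.mul_sum]
  refine quad_inj _ _ _ _ (fun q => ?_) (fun q r => QuadR x z a b q.1 q.2 r.1 r.2) (fun q hq => ?_)
    fun q q' r h h' => Prod.ext (h.dec h').1 (h.dec h').2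
  · have := mu_pos hW q.1
    have := mu_pos hW q.2
    positivity
  · obtain ⟨X, Y, h⟩ := (Finset.mem_filter.1 hq).2
    exact ⟨(X, Y), Finset.mem_filter.2 ⟨Finset.mem_univ _, h.hX, h.hY⟩, h,
      (quad_mu (by positivity) (h.wt hW hxz hxa hxb hza hzb hab)).le⟩

theorem quad_out {ℓ : V → V → ℝ} (hW : Wt ℓ) {o x y z : V} (hox : o ≠ x) (hoz : o ≠ z) :
    ∑ q ∈ univ.filter fun q : PM V × PM V => q.2.1 x = z ∧ q.1.1 o = y ∧ o ∉ comp q.1 q.2 x,
      mu ℓ q.1 * mu ℓ q.2 ≤ (ℓ x z * ℓ o y) ^ 2 / (ℓ x o * ℓ z y) ^ 2 * xm ℓ x o := by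
  have h1 := hW.pos x o
  have h2 := hW.pos z y
  rcases isEmpty_or_nonempty (PM V) with hE | hE
  · simp [xm]
  have h3 : xm ℓ x o = ∑ a ∈ univ.filter fun a : PM V × PM V => a.1.1 x = o, mu ℓ a.1 * mu ℓ a.2 := by
    unfold xm
    rw [Finset.sum_filter, Fintype.sum_prod_type]
    refine Finset.sum_congr rfl fun X _ => ?_
    by_cases h : X.1 x = o
    · simp only [h, if_true]
      rw [← Finset.mul_sum, sum_mu hW, mul_one]
    · simp [h]
  rw [h3, Finset.mul_sum]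
  refine quad_inj _ _ _ _ (fun q => ?_) (fun q r => r = (cj (mix (comp q.1 q.2 x) q.1 q.2) z o,
    mix (comp q.1 q.2 x) q.2 q.1)) (fun q hq => ?_) fun q q' r h h' => ?_
  · have := mu_pos hW q.1
    have := mu_pos hW q.2
    positivity
  · obtain ⟨h4, h5, h6⟩ := (Finset.mem_filter.1 hq).2
    have hc := closed_comp q.1 q.2 x
    have h7 : (mix (comp q.1 q.2 x) q.1 q.2).1 x = z := by
      rw [mix_apply hc, if_pos (self_mem_comp _ _ _), h4]
    have h8 : (mix (comp q.1 q.2 x) q.1 q.2).1 o = y := by rw [mix_apply hc, if_neg h6, h5]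
    refine ⟨_, Finset.mem_filter.2 ⟨Finset.mem_univ _, (cj_left h7 h8 hox.symm hoz.symm).1⟩, rfl,
      (quad_mu (by positivity) ?_).le⟩
    rw [← wt_mix ℓ hc, mul_right_comm, wt_cj hW h7 h8 hox.symm hoz.symm]
    ring
  · have h4 := h.symm.trans h'
    have h5 : mix (comp q.1 q.2 x) q.2 q.1 = mix (comp q'.1 q'.2 x) q'.2 q'.1 := congrArg Prod.snd h4
    have h6 : mix (comp q.1 q.2 x) q.1 q.2 = mix (comp q'.1 q'.2 x) q'.1 q'.2 := by
      have h7 := congrArg (fun r : PM V × PM V => cj r.1 z o) h4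
      simpa only [cj_cj] using h7
    have hc := closed_comp q.1 q.2 x
    have hc' := closed_comp q'.1 q'.2 x
    have h7 : comp q.1 q.2 x = comp q'.1 q'.2 x := by
      rw [← comp_mix hc x, h5, h6, comp_mix hc' x]
    refine Prod.ext ?_ ?_
    · rw [← mix_mix hc, h5, h6, h7, mix_mix hc']
    · rw [← mix_mix hc.symm, h5, h6, h7, mix_mix hc'.symm]

theorem quad {ℓ : V → V → ℝ} (hW : Wt ℓ) {δ : ℝ} (hδ : 0 < δ) (hx : ∀ u v, u ≠ v → δ ≤ xm ℓ u v) {o x y z : V}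
    (hox : o ≠ x) (hoy : o ≠ y) (hoz : o ≠ z) (hxy : x ≠ y) (hxz : x ≠ z) (hyz : y ≠ z) :
    Wv ℓ x z * Wv ℓ o y ≤ Wv ℓ x y * Wv ℓ o z + (1 + 1 / δ) * (Wv ℓ o x * Wv ℓ y z) := by
  classical
  set w : PM V × PM V → ℝ := fun q => mu ℓ q.1 * mu ℓ q.2 with hw
  have hw0 : ∀ q, 0 ≤ w q := fun q => (mul_pos (mu_pos hW _) (mu_pos hW _)).le
  have hun : ∀ A B : Finset (PM V × PM V), ∑ q ∈ A ∪ B, w q ≤ ∑ q ∈ A, w q + ∑ q ∈ B, w q := by
    intro A B
    rw [← Finset.sum_union_inter]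
    linarith [Finset.sum_nonneg (s := A ∩ B) fun q _ => hw0 q]
  have h1 := quad_out hW (y := y) hox hoz
  have h2 := quad_case hW hxz hox.symm hxy hoz.symm hyz.symm hoy
  have h3 := quad_case hW hxz hxy hox.symm hyz.symm hoz.symm hoy.symm
  have h4 : xm ℓ o y * xm ℓ x z ≤ _ := (quad_xm_mul ℓ o y x z).le.trans
    ((Finset.sum_le_sum_of_subset_of_nonneg (t := (univ.filter fun q : PM V × PM V =>
        q.2.1 x = z ∧ q.1.1 o = y ∧ o ∉ comp q.1 q.2 x) ∪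
      ((univ.filter fun q : PM V × PM V => ∃ X Y, QuadR x z o y q.1 q.2 X Y) ∪
      (univ.filter fun q : PM V × PM V => ∃ X Y, QuadR x z y o q.1 q.2 X Y))) (fun q hq => by
        obtain ⟨h5, h6⟩ := (Finset.mem_filter.1 hq).2
        simp only [Finset.mem_union, Finset.mem_filter, Finset.mem_univ, true_and]
        by_cases h7 : o ∈ comp q.1 q.2 x
        · exact Or.inr (quad_ex hox hoz hxy hyz h6 h5 h7)
        · exact Or.inl ⟨h6, h5, h7⟩) fun q _ _ => hw0 q).trans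
      ((hun _ _).trans (add_le_add h1 ((hun _ _).trans (add_le_add h2 h3)))))
  have p1 := hW.pos x z
  have p2 := hW.pos o y
  have p3 := hW.pos o x
  have p4 := hW.pos y z
  have h5 : (ℓ x z * ℓ o y) ^ 2 / (ℓ x o * ℓ z y) ^ 2 * xm ℓ x o ≤
      (ℓ x z * ℓ o y) ^ 2 * (1 / δ * (Wv ℓ o x * Wv ℓ y z)) := by
    have h6 : (ℓ x z * ℓ o y) ^ 2 * (1 / δ * (Wv ℓ o x * Wv ℓ y z)) =
        (ℓ x z * ℓ o y) ^ 2 / (ℓ x o * ℓ z y) ^ 2 * xm ℓ x o * (xm ℓ y z / δ) := by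
      unfold Wv
      rw [hW.symm x o, hW.symm z y, xm_symm x o]
      field_simp
    rw [h6]
    refine le_mul_of_one_le_right ?_ ((one_le_div hδ).2 (hx y z hyz))
    have := xm_nonneg hW x o
    positivity
  have h7 : Wv ℓ x o = Wv ℓ o x := by
    unfold Wv
    rw [hW.symm x o, xm_symm x o]
  rw [h7, hW.symm y o] at h4
  have h8 : xm ℓ o y * xm ℓ x z = (ℓ x z * ℓ o y) ^ 2 * (Wv ℓ x z * Wv ℓ o y) := by
    unfold Wv
    field_simp
  rw [h8] at h4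
  refine le_of_mul_le_mul_left ?_ (show 0 < (ℓ x z * ℓ o y) ^ 2 by positivity)
  linarith

end Crest.Agent.R304
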