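import Crest.Agent.R304.Edm
import Crest.Agent.R304.Ent2

/-!
# R304: almost feasible points and the lower bound for the weighted number of matchings

The edges are the pairs `(i,j)` with `i < j`; `E = Fin n × Fin n`, `ends = id`.

PLAN.  `repair`: for `m = 1` take `y = x` (`x (0,1) = 1`; or use the degree argument: both degrees are `x (0,1) = ∑ x = 1`).  For `n ≥ 4` let `d v = cut id x {v}`,
`∑ d = n` (`sum_deg`), so `-ε ≤ d v - 1 ≤ n ε`; `a v = 1/(2n-2) - (1-τ)(d v - 1)/(τ (n-2))`, `(5/6)/(2n-2) ≤ a v ≤ (7/6)/(2n-2)`, `∑ a = n/(2n-2)`;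
`y (i,j) = if i < j then a i + a j else 0`.  `cut id y S = ∑_{u ∈ S} ∑_{v ∉ S} (a u + a v)`; for `S = {v}` this is `∑ a + (n-2) a v`, which makes the degrees `1`.
For odd `S` with `|S| = 1` or `|Sᶜ| = 1` use the degree (`cut_sdiff`); otherwise `3 ≤ |S| ≤ n-3`, `|S| (n-|S|) ≥ 3(n-3)`, `cut y S ≥ 3/2`, and
`(1-τ)(1-ε) + 3τ/2 ≥ 1`.
`lower`: `edmonds`, `ent_bound`, `negMulLog (1-x) ≤ x` (`Real.one_sub_inv_le_log_of_pos` or `Real.negMulLog` convexity), `Feas.sum`.  For the law `q`:
`∑ e, x e * log (w e) = ∑ M, q M * log (∏ e ∈ M, w e)` (`mrg_eq`, `Law.ne_zero`), and Gibbs' inequality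
`∑ M, q M * log (W M / q M) ≤ log (∑_{q M ≠ 0} W M)` (`log t ≤ t - 1` applied to `W M / (q M * NN)`).
-/

set_option autoImplicit false
open Finset

namespace Crest.Agent.R304

variable {n m : ℕ}

/-- supported on the pairs `i < j` -/
def Up (x : Fin n × Fin n → ℝ) : Prop := ∀ e, x e ≠ 0 → e.1 < e.2

open Classical in
/-- the weighted number of perfect matchings -/
noncomputable def NN (w : Fin n × Fin n → ℝ) : ℝ :=
  ∑ M ∈ univ.filter (fun M : Finset (Fin n × Fin n) => PMon id univ M), ∏ e ∈ M, w e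

/-- the entropy functional -/
noncomputable def FF (w x : Fin n × Fin n → ℝ) : ℝ := ∑ e, x e * Real.log (w e) + ∑ e, Real.negMulLog (x e)

theorem cut_id_eq (z : Fin n × Fin n → ℝ) (S : Finset (Fin n)) :
    cut id z S = ∑ u ∈ S, ∑ v ∈ Sᶜ, (z (u, v) + z (v, u)) := by
  have e : ∀ f : Fin n → Fin n → ℝ, ∑ u ∈ S, ∑ v ∈ Sᶜ, f u v = ∑ u, ∑ v, if u ∈ S ∧ v ∉ S then f u v else 0 := by
    intro f
    rw [← sum_subset (subset_univ S) fun u _ hu => sum_eq_zero fun v _ => if_neg fun h => hu h.1]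
    refine sum_congr rfl fun u hu => ?_
    rw [← sum_subset (subset_univ Sᶜ) fun v _ hv => if_neg fun h => hv (mem_compl.2 h.2)]
    exact sum_congr rfl fun v hv => (if_pos ⟨hu, mem_compl.1 hv⟩).symm
  simp only [sum_add_distrib]
  rw [e, e, sum_comm (f := fun u v => if u ∈ S ∧ v ∉ S then z (v, u) else 0), ← sum_add_distrib, cut,
    Fintype.sum_prod_type]
  refine sum_congr rfl fun u _ => ?_
  rw [← sum_add_distrib]
  refine sum_congr rfl fun v _ => ?_
  by_cases h1 : u ∈ S <;> by_cases h2 : v ∈ S <;> simp [h1, h2]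

theorem Up.supp {x : Fin n × Fin n → ℝ} (h : Up x) : Supp id univ x :=
  fun e he => ⟨mem_univ _, mem_univ _, (h e he).ne⟩

theorem feas_of {z : Fin n × Fin n → ℝ} (h0 : ∀ e, 0 ≤ z e) (hu : Up z) (hd : ∀ v, cut id z {v} = 1)
    (ho : ∀ S : Finset (Fin n), Odd S.card → S.card ≠ 1 → Sᶜ.card ≠ 1 → 1 ≤ cut id z S) : Feas id univ z := by
  refine ⟨h0, hu.supp, fun v _ => hd v, fun S _ hS => ?_⟩
  by_cases h1 : S.card = 1
  · obtain ⟨v, rfl⟩ := card_eq_one.1 h1
    exact (hd v).ge
  by_cases h2 : Sᶜ.card = 1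
  · obtain ⟨v, hv⟩ := card_eq_one.1 h2
    rw [← cut_sdiff hu.supp S, ← compl_eq_univ_sdiff, hv]
    exact (hd v).ge
  exact ho S hS h1 h2

theorem repair (hn : n = 2 * m) (hm : 1 ≤ m) {x : Fin n × Fin n → ℝ} (h0 : ∀ e, 0 ≤ x e) (hu : Up x) (hs : ∑ e, x e = m)
    {ε τ : ℝ} (hε : 0 ≤ ε) (hτ : 0 < τ) (hτ1 : τ ≤ 1) (hετ : 18 * n * ε ≤ τ)
    (ho : ∀ S : Finset (Fin n), Odd S.card → 1 - ε ≤ cut id x S) :
    ∃ y : Fin n × Fin n → ℝ, (∀ e, 0 ≤ y e ∧ y e ≤ 1) ∧ Up y ∧ Feas id univ (fun e => (1 - τ) * x e + τ * y e) := by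
  have hsx := hu.supp
  have hcard : (univ : Finset (Fin n)).card = n := by simp
  have hsd : ∑ v, cut id x {v} = n := by
    rw [sum_deg hsx, hs, hn]; push_cast; ring
  rcases Nat.eq_or_lt_of_le hm with h1 | h1
  · -- two vertices
    subst h1
    subst hn
    have hd : ∀ v : Fin (2 * 1), cut id x {v} = 1 := by
      have e : cut id x {(1 : Fin (2 * 1))} = cut id x {(0 : Fin (2 * 1))} := by
        rw [← cut_sdiff hsx {0}]; congr 1
      have e2 : cut id x {(0 : Fin (2 * 1))} + cut id x {(1 : Fin (2 * 1))} = 2 := by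
        have := hsd
        rw [show (∑ v : Fin (2 * 1), cut id x {v}) = cut id x {(0 : Fin (2 * 1))} + cut id x {(1 : Fin (2 * 1))} from
          Fin.sum_univ_two _] at this
        simpa using this
      intro v
      fin_cases v
      · change cut id x {(0 : Fin (2 * 1))} = 1
        linarith
      · change cut id x {(1 : Fin (2 * 1))} = 1
        linarith
    refine ⟨x, fun e => ⟨h0 e, ?_⟩, hu, ?_⟩
    · have := single_le_sum (f := x) (fun e _ => h0 e) (mem_univ e)
      rw [hs] at this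
      simpa using this
    · have e : (fun e => (1 - τ) * x e + τ * x e) = x := by funext e; ring
      rw [e]
      refine feas_of h0 hu hd fun S hS h1 _ => ?_
      have := card_le_univ S
      obtain ⟨k, hk⟩ := hS
      simp only [Fintype.card_fin] at this
      omega
  · have hN : (4 : ℝ) ≤ n := by
      have : 4 ≤ n := by omega
      exact_mod_cast this
    obtain ⟨d, hd⟩ : ∃ d : Fin n → ℝ, d = fun v => cut id x {v} := ⟨_, rfl⟩
    have hd1 : ∀ v, 1 - ε ≤ d v := fun v => by rw [hd]; exact ho {v} (by simp)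
    have hsd' : ∑ v, d v = n := by rw [hd]; exact hsd
    have hd2 : ∀ v, d v - 1 ≤ n * ε := fun v => by
      have h2 := single_le_sum (f := fun v => d v - (1 - ε)) (fun v _ => sub_nonneg.2 (hd1 v)) (mem_univ v)
      rw [sum_sub_distrib, hsd', sum_const, hcard, nsmul_eq_mul] at h2
      linarith
    obtain ⟨a, ha⟩ : ∃ a : Fin n → ℝ, a = fun v => 1 / (2 * n - 2) - (1 - τ) * (d v - 1) / (τ * (n - 2)) := ⟨_, rfl⟩
    have hn2 : (0 : ℝ) < n - 2 := by linarith
    have hn1 : (0 : ℝ) < 2 * n - 2 := by linarith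
    have hab : ∀ v, |(1 - τ) * (d v - 1) / (τ * (n - 2))| ≤ 1 / 6 * (1 / (2 * n - 2)) := fun v => by
      have k1 : |d v - 1| ≤ n * ε := abs_le.2 ⟨by have := hd1 v; nlinarith, hd2 v⟩
      have k2 : |(1 - τ) * (d v - 1)| ≤ τ / 18 := by
        rw [abs_mul, abs_of_nonneg (sub_nonneg.2 hτ1)]
        have := mul_le_mul (show 1 - τ ≤ 1 by linarith) k1 (abs_nonneg _) zero_le_one
        linarith
      rw [abs_div, abs_of_pos (mul_pos hτ hn2), div_le_iff₀ (mul_pos hτ hn2)]
      refine k2.trans ?_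
      rw [mul_one_div, div_mul_eq_mul_div, le_div_iff₀ hn1]
      have := mul_le_mul_of_nonneg_left hN hτ.le
      linarith
    have ha1 : ∀ v, 5 / 6 * (1 / (2 * n - 2)) ≤ a v := fun v => by
      have := (abs_le.1 (hab v)).2
      rw [ha]; linarith
    have ha2 : ∀ v, a v ≤ 7 / 6 * (1 / (2 * n - 2)) := fun v => by
      have := (abs_le.1 (hab v)).1
      rw [ha]; linarith
    have hq0 : (0 : ℝ) < 1 / (2 * n - 2) := by positivity
    have hq1 : (1 : ℝ) / (2 * n - 2) ≤ 1 / 6 := one_div_le_one_div_of_le (by norm_num) (by linarith)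
    have hsa : ∑ v, a v = n / (2 * n - 2) := by
      rw [ha, sum_sub_distrib, sum_const, ← sum_div, ← mul_sum, sum_sub_distrib, hsd', sum_const, hcard]
      simp only [nsmul_eq_mul]
      ring
    obtain ⟨y, hy⟩ : ∃ y : Fin n × Fin n → ℝ, y = fun e => if e.1 < e.2 then a e.1 + a e.2 else 0 := ⟨_, rfl⟩
    have hy0 : ∀ e, 0 ≤ y e ∧ y e ≤ 1 := fun e => by
      rw [hy]
      simp only
      split_ifs
      · have := ha1 e.1; have := ha1 e.2; have := ha2 e.1; have := ha2 e.2
        constructor <;> linarith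
      · exact ⟨le_rfl, zero_le_one⟩
    have hyu : Up y := fun e he => by
      by_contra h
      exact he (by rw [hy]; exact if_neg h)
    have hyc : ∀ S : Finset (Fin n), cut id y S = ∑ u ∈ S, ∑ v ∈ Sᶜ, (a u + a v) := fun S => by
      rw [cut_id_eq]
      refine sum_congr rfl fun u hu => sum_congr rfl fun v hv => ?_
      have huv : u ≠ v := fun h => (mem_compl.1 hv) (h ▸ hu)
      rw [hy]
      simp only
      rcases lt_or_gt_of_ne huv with h | h
      · rw [if_pos h, if_neg h.not_gt, add_zero]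
      · rw [if_neg h.not_gt, if_pos h, zero_add, add_comm]
    have hz : ∀ S : Finset (Fin n), cut id (fun e => (1 - τ) * x e + τ * y e) S =
        (1 - τ) * cut id x S + τ * cut id y S := fun S => by
      rw [← cut_smul, ← cut_smul, ← cut_add]; rfl
    refine ⟨y, hy0, hyu, feas_of (fun e => ?_) (fun e he => ?_) (fun v => ?_) fun S hS k1 k2 => ?_⟩
    · exact add_nonneg (mul_nonneg (sub_nonneg.2 hτ1) (h0 e)) (mul_nonneg hτ.le (hy0 e).1)
    · by_contra h
      have e1 : x e = 0 := by by_contra k; exact h (hu e k)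
      have e2 : y e = 0 := by by_contra k; exact h (hyu e k)
      exact he (by simp only [e1, e2]; ring)
    · have e1 : ∑ u ∈ ({v} : Finset (Fin n))ᶜ, a u = n / (2 * n - 2) - a v := by
        rw [← hsa, ← sum_add_sum_compl {v} a, sum_singleton]; ring
      have e2 : ((({v} : Finset (Fin n))ᶜ).card : ℝ) = n - 1 := by
        rw [card_compl, card_singleton, Fintype.card_fin, Nat.cast_sub (by omega), Nat.cast_one]
      have e3 : cut id x {v} = d v := by rw [hd]
      rw [hz, hyc, sum_singleton, sum_add_distrib, e1, sum_const, nsmul_eq_mul, e2, e3, ha]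
      have := hτ.ne'
      have := hn2.ne'
      have := hn1.ne'
      have : (n : ℝ) - 1 ≠ 0 := by linarith
      field_simp
      ring
    · have c1 : S.card + Sᶜ.card = n := by rw [card_add_card_compl, Fintype.card_fin]
      obtain ⟨k, hk⟩ := hS
      have c2 : 3 ≤ S.card := by omega
      have c3 : 3 ≤ Sᶜ.card := by omega
      have c2' : (3 : ℝ) ≤ S.card := by exact_mod_cast c2
      have c3' : (3 : ℝ) ≤ Sᶜ.card := by exact_mod_cast c3
      have c1' : (S.card : ℝ) + Sᶜ.card = n := by exact_mod_cast c1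
      have e1 : (S.card : ℝ) * (Sᶜ.card * (5 / 3 * (1 / (2 * n - 2)))) ≤ cut id y S := by
        rw [hyc, ← nsmul_eq_mul, ← nsmul_eq_mul, ← sum_const, ← sum_const]
        refine sum_le_sum fun u _ => sum_le_sum fun v _ => ?_
        have := ha1 u; have := ha1 v
        linarith
      have e2 : 3 / 2 ≤ (S.card : ℝ) * (Sᶜ.card * (5 / 3 * (1 / (2 * n - 2)))) := by
        rw [mul_one_div, ← mul_div_assoc, ← mul_div_assoc, le_div_iff₀ hn1]
        have := mul_nonneg (sub_nonneg.2 c2') (sub_nonneg.2 c3')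
        linarith
      have e3 := mul_le_mul_of_nonneg_left (ho S ⟨k, hk⟩) (sub_nonneg.2 hτ1)
      have e4 := mul_le_mul_of_nonneg_left (e2.trans e1) hτ.le
      have e5 := mul_le_mul_of_nonneg_right hN hε
      have e6 := mul_nonneg hτ.le hε
      rw [hz]
      linarith

theorem lower (hn : n = 2 * m) (hm : 1 ≤ m) {w x : Fin n × Fin n → ℝ} (hw0 : ∀ e, 0 ≤ w e) (hw : ∀ e, x e ≠ 0 → 0 < w e)
    (hx : Feas id univ x) : FF w x - 2 * m ≤ Real.log (NN w) := by
  classical
  obtain ⟨p, hp⟩ := edmonds hx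
  obtain ⟨q, hq, he⟩ := ent_bound hm (by simp [hn]) hp hx.supp
  have hm' : (1 : ℝ) ≤ m := by exact_mod_cast hm
  have hsx : ∑ e, x e = m := by
    have := hx.sum
    rw [card_univ, Fintype.card_fin] at this
    have e : (n : ℝ) = 2 * m := by exact_mod_cast hn
    linarith
  have b0 : 0 ≤ ∑ e, Real.negMulLog (1 - x e) :=
    sum_nonneg fun e _ => Real.negMulLog_nonneg (sub_nonneg.2 (hx.le_one e)) (by have := hx.nonneg e; linarith)
  have b1 : ∑ e, Real.negMulLog (1 - x e) ≤ m := by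
    rw [← hsx]
    refine sum_le_sum fun e _ => ?_
    have := Real.negMulLog_le_one_sub_self (sub_nonneg.2 (hx.le_one e))
    linarith
  have b2 : (2 - 2 / (m : ℝ)) * ∑ e, Real.negMulLog (1 - x e) ≤ 2 * m := by
    have : (0 : ℝ) ≤ 2 / m := by positivity
    have := mul_nonneg this b0
    linarith
  have hW : ∀ M, q M ≠ 0 → 0 < ∏ e ∈ M, w e := fun M hM => prod_pos fun e he => hw e (hq.ne_zero hM he)
  have hW0 : ∀ M : Finset (Fin n × Fin n), 0 ≤ ∏ e ∈ M, w e := fun M => prod_nonneg fun e _ => hw0 e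
  have e1 : ∑ e, x e * Real.log (w e) = ∑ M, q M * Real.log (∏ e ∈ M, w e) := by
    simp only [← hq.marg, mrg_eq, sum_mul]
    rw [sum_comm]
    refine sum_congr rfl fun M _ => ?_
    by_cases hM : q M = 0
    · simp [hM]
    · rw [Real.log_prod fun e he => (hw e (hq.ne_zero hM he)).ne']
      simp only [mul_assoc, ← mul_sum, chi, ite_mul, one_mul, zero_mul, sum_ite_mem, univ_inter]
  have hle : ∑ M, (if q M ≠ 0 then ∏ e ∈ M, w e else 0) ≤ NN w := by
    rw [NN, sum_filter]
    refine sum_le_sum fun M _ => ?_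
    by_cases hM : q M = 0
    · rw [if_neg (not_not.2 hM)]
      split_ifs
      · exact hW0 M
      · exact le_rfl
    · rw [if_pos hM, if_pos (hq.pm M hM)]
  have hN : 0 < NN w := by
    obtain ⟨M, hM⟩ : ∃ M, q M ≠ 0 := by
      by_contra h
      push Not at h
      have := hq.total
      simp [h] at this
    refine lt_of_lt_of_le ?_ hle
    refine lt_of_lt_of_le ?_ (single_le_sum (f := fun M => if q M ≠ 0 then ∏ e ∈ M, w e else 0)
      (fun M _ => by split_ifs; exacts [hW0 M, le_rfl]) (mem_univ M))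
    rw [if_pos hM]
    exact hW M hM
  have g : ∀ M, q M * Real.log (∏ e ∈ M, w e) + Real.negMulLog (q M) ≤
      q M * Real.log (NN w) + (if q M ≠ 0 then ∏ e ∈ M, w e else 0) / NN w - q M := fun M => by
    by_cases hM : q M = 0
    · simp [hM]
    · have hq0 : 0 < q M := lt_of_le_of_ne (hq.nonneg M) (Ne.symm hM)
      have k := Real.log_le_sub_one_of_pos (div_pos (hW M hM) (mul_pos hq0 hN))
      rw [Real.log_div (hW M hM).ne' (mul_pos hq0 hN).ne', Real.log_mul hq0.ne' hN.ne'] at k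
      have k2 := mul_le_mul_of_nonneg_left k hq0.le
      have k3 : q M * ((∏ e ∈ M, w e) / (q M * NN w)) = (∏ e ∈ M, w e) / NN w := by field_simp
      rw [if_pos hM, Real.negMulLog]
      linarith
  have g2 := sum_le_sum fun M (_ : M ∈ univ) => g M
  rw [sum_add_distrib, sum_sub_distrib, sum_add_distrib, ← sum_mul, ← sum_div, hq.total] at g2
  have g3 := (div_le_one hN).2 hle
  unfold FF
  unfold ent at he
  linarith

end Crest.Agent.R304
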