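import Crest.Agent.R304.PM

/-!
# R304: the matchings of a cycle with one chord

`IsT B C N c p q X`: `X` is `B` outside the cycle, contains the chord `c p – c q`, and matches the two remaining paths.

PLAN.  `exists_T`: for `v ∈ C` let `pos v ∈ [p, p+N)` be the index with `c (pos v) = v` (reduce any index mod `N`; unique by
`inj`), `π t = if t = p then q else if t = q then p else if t < q then (if Odd (t-p) then t+1 else t-1) else
(if Odd (t-q) then t+1 else t-1)`, an involution without fixed points of `[p,p+N)` (`omega`), `X v = c (π (pos v))` on `C`,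
`B v` outside.  `IsT.unique`: every `v ∈ C` is `c t` with `t ∈ [p,p+N)`, and `X (c t)` is determined (for the even offsets use
`PM.symm` at `t-1`).  `shift`, `turn`, `rev`: reindex, `c (t + N) = c t`.  `comp_arc`: `comp_sub`, and induction along the arc
with `closed_comp`.
-/

set_option autoImplicit false
set_option linter.unusedSectionVars false
open Finset

namespace Crest.Agent.R304

variable {V : Type} [Fintype V] [DecidableEq V]

/-- a cyclic parametrisation of `C` of even length -/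
structure Lp (C : Finset V) (N : ℕ) (c : ℤ → V) : Prop where
  even : Even N
  pos : 0 < N
  inj : ∀ s t, c s = c t ↔ (N : ℤ) ∣ s - t
  mem : ∀ v, v ∈ C ↔ ∃ t, c t = v

/-- an alternating cycle of length at least four, without orientation -/
structure Rg (I F : PM V) (C : Finset V) (N : ℕ) (c : ℤ → V) : Prop extends Lp C N c where
  four : 4 ≤ N
  nb : ∀ t, (I.1 (c t) = c (t + 1) ∧ F.1 (c t) = c (t - 1)) ∨ (I.1 (c t) = c (t - 1) ∧ F.1 (c t) = c (t + 1))

structure IsT (B : PM V) (C : Finset V) (N : ℕ) (c : ℤ → V) (p q : ℤ) (X : PM V) : Prop where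
  out : ∀ v, v ∉ C → X.1 v = B.1 v
  chord : X.1 (c p) = c q
  ins : ∀ t, p < t → t < q → Odd (t - p) → X.1 (c t) = c (t + 1)
  outs : ∀ t, q < t → t < p + N → Odd (t - q) → X.1 (c t) = c (t + 1)

open Classical in
noncomputable def Ts (B : PM V) (C : Finset V) (N : ℕ) (c : ℤ → V) (p q : ℤ) : PM V :=
  if h : ∃ X, IsT B C N c p q X then h.choose else B

variable {I F B : PM V} {C : Finset V} {N : ℕ} {c : ℤ → V} {p q : ℤ}

theorem Cy.lp (h : Cy I F C N c) : Lp C N c := ⟨h.even, h.pos, h.inj, h.mem⟩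

theorem Cy.nb' (h : Cy I F C N c) (t : ℤ) :
    (I.1 (c t) = c (t + 1) ∧ F.1 (c t) = c (t - 1)) ∨ (I.1 (c t) = c (t - 1) ∧ F.1 (c t) = c (t + 1)) := by
  rcases Int.even_or_odd t with ht | ht
  · refine Or.inl ⟨h.ev t ht, F.symm ?_⟩
    have := h.od (t - 1) (ht.sub_odd odd_one)
    rwa [sub_add_cancel] at this
  · refine Or.inr ⟨I.symm ?_, h.od t ht⟩
    have := h.ev (t - 1) (ht.sub_odd odd_one)
    rwa [sub_add_cancel] at this

theorem Cy.rg (h : Cy I F C N c) (h4 : 4 ≤ N) : Rg I F C N c := by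
  exact { h.lp with four := h4, nb := h.nb' }

theorem Lp.per (h : Lp C N c) (t : ℤ) : c (t + N) = c t := by
  exact (h.inj _ _).2 ⟨1, by ring⟩

theorem Lp.ne (h : Lp C N c) {s t : ℤ} (h1 : s < t) (h2 : t < s + N) : c s ≠ c t := by
  intro e
  obtain ⟨k, hk⟩ := (h.inj _ _).1 e
  have hN : (0 : ℤ) < N := by exact_mod_cast h.pos
  rcases le_or_gt 0 k with h0 | h0
  · nlinarith [mul_nonneg hN.le h0]
  · have : k ≤ -1 := by omega
    nlinarith

theorem Lp.win (h : Lp C N c) (p : ℤ) {v : V} (hv : v ∈ C) : ∃ t, p ≤ t ∧ t < p + N ∧ c t = v := by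
  obtain ⟨t, rfl⟩ := (h.mem v).1 hv
  have hN : (0 : ℤ) < N := by exact_mod_cast h.pos
  refine ⟨p + (t - p) % N, ?_, ?_, (h.inj _ _).2 ⟨-((t - p) / N), ?_⟩⟩
  · linarith [Int.emod_nonneg (t - p) hN.ne']
  · linarith [Int.emod_lt_of_pos (t - p) hN]
  · have := Int.emod_add_mul_ediv (t - p) N
    linarith

theorem Lp.rev (h : Lp C N c) : Lp C N (fun t => c (-t)) := by
  refine ⟨h.even, h.pos, fun s t => ?_, fun v => ?_⟩
  · rw [h.inj, ← dvd_neg]
    have : -(-s - -t) = s - t := by ring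
    rw [this]
  · rw [h.mem]
    constructor
    · rintro ⟨t, rfl⟩; exact ⟨-t, by simp⟩
    · rintro ⟨t, rfl⟩; exact ⟨-t, rfl⟩

theorem Rg.rev (h : Rg I F C N c) : Rg I F C N (fun t => c (-t)) := by
  refine { h.toLp.rev with four := h.four, nb := fun t => ?_ }
  have e1 : -(t + 1) = -t - 1 := by ring
  have e2 : -(t - 1) = -t + 1 := by ring
  simp only [e1, e2]
  rcases h.nb (-t) with h1 | h1
  · exact Or.inr h1
  · exact Or.inl h1

theorem Rg.closed (h : Rg I F C N c) : Closed I F C := by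
  intro v hv
  obtain ⟨t, rfl⟩ := (h.mem v).1 hv
  rcases h.nb t with ⟨h1, h2⟩ | ⟨h1, h2⟩ <;> rw [h1, h2] <;>
    exact ⟨(h.mem _).2 ⟨_, rfl⟩, (h.mem _).2 ⟨_, rfl⟩⟩

/-- the partner index -/
def tpi (p q t : ℤ) : ℤ :=
  if t = p then q else if t = q then p else if t < q then (if (t - p) % 2 = 1 then t + 1 else t - 1)
    else (if (t - q) % 2 = 1 then t + 1 else t - 1)

theorem tpi_spec {n : ℤ} (hn : n % 2 = 0) (h1 : p < q) (h2 : q < p + n) (ho : (q - p) % 2 = 1) {t : ℤ}
    (ht1 : p ≤ t) (ht2 : t < p + n) :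
    p ≤ tpi p q t ∧ tpi p q t < p + n ∧ tpi p q t ≠ t ∧ tpi p q (tpi p q t) = t := by
  unfold tpi
  split_ifs <;> omega

theorem Lp.eq_of_win (h : Lp C N c) {s t : ℤ} (hs1 : p ≤ s) (hs2 : s < p + N) (ht1 : p ≤ t) (ht2 : t < p + N)
    (e : c s = c t) : s = t := by
  rcases lt_trichotomy s t with h1 | h1 | h1
  · exact absurd e (h.ne h1 (by omega))
  · exact h1
  · exact absurd e.symm (h.ne h1 (by omega))

theorem Lp.mod_two (h : Lp C N c) : (N : ℤ) % 2 = 0 := by
  obtain ⟨k, hk⟩ := h.even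
  omega

theorem IsT.val {X : PM V} (hX : IsT B C N c p q X) (h1 : p < q) {t : ℤ}
    (ht1 : p ≤ t) (ht2 : t < p + N) : X.1 (c t) = c (tpi p q t) := by
  unfold tpi
  split_ifs with a1 a2 a3 a4 a5
  · rw [a1]; exact hX.chord
  · rw [a2]; exact X.symm hX.chord
  · exact hX.ins t (by omega) a3 (Int.odd_iff.2 a4)
  · refine X.symm ?_
    have := hX.ins (t - 1) (by omega) (by omega) (Int.odd_iff.2 (by omega))
    rwa [sub_add_cancel] at this
  · exact hX.outs t (by omega) ht2 (Int.odd_iff.2 a5)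
  · refine X.symm ?_
    have := hX.outs (t - 1) (by omega) (by omega) (Int.odd_iff.2 (by omega))
    rwa [sub_add_cancel] at this

theorem exists_T (h : Lp C N c) (hB : ∀ v ∈ C, B.1 v ∈ C) (h1 : p < q) (h2 : q < p + N) (ho : Odd (q - p)) :
    ∃ X, IsT B C N c p q X := by
  classical
  have ho' := Int.odd_iff.1 ho
  have hn := h.mod_two
  let pos : V → ℤ := fun v => if hv : v ∈ C then (h.win p hv).choose else 0
  have hpos : ∀ v ∈ C, p ≤ pos v ∧ pos v < p + N ∧ c (pos v) = v := by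
    intro v hv
    simp only [pos, dif_pos hv]
    exact (h.win p hv).choose_spec
  have hc : ∀ t, c t ∈ C := fun t => (h.mem _).2 ⟨t, rfl⟩
  have hpc : ∀ t, p ≤ t → t < p + N → pos (c t) = t := fun t a b =>
    h.eq_of_win (hpos _ (hc t)).1 (hpos _ (hc t)).2.1 a b (hpos _ (hc t)).2.2
  let f : V → V := fun v => if v ∈ C then c (tpi p q (pos v)) else B.1 v
  have hf : ∀ t, p ≤ t → t < p + N → f (c t) = c (tpi p q t) := by
    intro t a b
    simp only [f, if_pos (hc t), hpc t a b]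
  have hfo : ∀ v, v ∉ C → f v = B.1 v := fun v hv => by simp only [f, if_neg hv]
  refine ⟨⟨f, fun v => ?_⟩, hfo, ?_, fun t a b o => ?_, fun t a b o => ?_⟩
  · by_cases hv : v ∈ C
    · obtain ⟨t, a, b, rfl⟩ := h.win p hv
      obtain ⟨s1, s2, s3, s4⟩ := tpi_spec hn h1 h2 ho' a b
      rw [hf t a b, hf _ s1 s2, s4]
      exact ⟨rfl, fun e => s3 (h.eq_of_win s1 s2 a b e)⟩
    · have hv' : B.1 v ∉ C := fun h' => hv (by simpa [B.inv] using hB _ h')
      rw [hfo v hv, hfo _ hv']
      exact B.2 v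
  · show f (c p) = c q
    rw [hf p le_rfl (by omega)]; simp [tpi]
  · show f (c t) = c (t + 1)
    have o' := Int.odd_iff.1 o
    rw [hf t a.le (by omega)]
    unfold tpi
    rw [if_neg a.ne', if_neg b.ne, if_pos b, if_pos o']
  · show f (c t) = c (t + 1)
    have o' := Int.odd_iff.1 o
    rw [hf t (by omega) b]
    unfold tpi
    rw [if_neg (by omega), if_neg a.ne', if_neg (by omega), if_pos o']

theorem IsT.unique (h : Lp C N c) (h1 : p < q) (h2 : q < p + N) (ho : Odd (q - p)) {X X' : PM V}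
    (hX : IsT B C N c p q X) (hX' : IsT B C N c p q X') : X = X' := by
  refine PM.ext' fun v => ?_
  by_cases hv : v ∈ C
  · obtain ⟨t, a, b, rfl⟩ := h.win p hv
    rw [hX.val h1 a b, hX'.val h1 a b]
  · rw [hX.out v hv, hX'.out v hv]

theorem Ts_spec (h : Lp C N c) (hB : ∀ v ∈ C, B.1 v ∈ C) (h1 : p < q) (h2 : q < p + N) (ho : Odd (q - p)) :
    IsT B C N c p q (Ts B C N c p q) := by
  have hex := exists_T h hB h1 h2 ho
  unfold Ts
  rw [dif_pos hex]
  exact hex.choose_spec

theorem IsT.eq_Ts (h : Lp C N c) (h1 : p < q) (h2 : q < p + N) (ho : Odd (q - p)) {X : PM V}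
    (hX : IsT B C N c p q X) : X = Ts B C N c p q := by
  have hex : ∃ X, IsT B C N c p q X := ⟨X, hX⟩
  unfold Ts
  rw [dif_pos hex]
  exact IsT.unique h h1 h2 ho hX hex.choose_spec

theorem Ts_turn (h : Lp C N c) (hB : ∀ v ∈ C, B.1 v ∈ C) (h1 : p < q) (h2 : q < p + N) (ho : Odd (q - p)) :
    Ts B C N c q (p + N) = Ts B C N c p q := by
  have hX := Ts_spec h hB h1 h2 ho
  have ho' := Int.odd_iff.1 ho
  have hn := h.mod_two
  refine (IsT.eq_Ts h h2 (by omega) (Int.odd_iff.2 (by omega)) ⟨hX.out, ?_, hX.outs, fun t a b o => ?_⟩).symm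
  · rw [h.per]; exact PM.symm _ hX.chord
  · have o' := Int.odd_iff.1 o
    have := hX.ins (t - N) (by omega) (by omega) (Int.odd_iff.2 (by omega))
    rw [← h.per (t - N), ← h.per (t - N + 1)] at this
    have e1 : t - N + N = t := by ring
    have e2 : t - N + 1 + N = t + 1 := by ring
    rwa [e1, e2] at this

theorem Ts_rev (h : Lp C N c) (hB : ∀ v ∈ C, B.1 v ∈ C) (h1 : p < q) (h2 : q < p + N) (ho : Odd (q - p)) :
    Ts B C N (fun t => c (-t)) (-q) (-p) = Ts B C N c p q := by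
  have hX := Ts_spec h hB h1 h2 ho
  have ho' := Int.odd_iff.1 ho
  have hn := h.mod_two
  refine (IsT.eq_Ts h.rev (by omega) (by omega) (Int.odd_iff.2 (by omega))
    ⟨hX.out, ?_, fun t a b o => ?_, fun t a b o => ?_⟩).symm
  · simp only [neg_neg]; exact PM.symm _ hX.chord
  · have o' := Int.odd_iff.1 o
    refine PM.symm _ ?_
    have := hX.ins (-(t + 1)) (by omega) (by omega) (Int.odd_iff.2 (by omega))
    have e1 : -(t + 1) + 1 = -t := by ring
    rwa [e1] at this
  · have o' := Int.odd_iff.1 o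
    refine PM.symm _ ?_
    have := hX.outs (-(t + 1) + N) (by omega) (by omega) (Int.odd_iff.2 (by omega))
    have e1 : -(t + 1) + N + 1 = -t + N := by ring
    rwa [e1, h.per, h.per] at this

/-- the matching made of every other edge -/
theorem Ts_edge (h : Lp C N c) (hB : ∀ v ∈ C, B.1 v ∈ C) {t : ℤ} (ht : Even (t - p)) :
    (Ts B C N c p (p + 1)).1 (c t) = c (t + 1) := by
  have hn := h.mod_two
  have hN : (0 : ℤ) < N := by exact_mod_cast h.pos
  have hX := Ts_spec (p := p) (q := p + 1) h hB (by omega) (by omega) (Int.odd_iff.2 (by omega))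
  obtain ⟨s, a, b, e⟩ := h.win p ((h.mem _).2 ⟨t, rfl⟩)
  have hd := (h.inj _ _).1 e
  have e' : c (s + 1) = c (t + 1) := (h.inj _ _).2 (by simpa using hd)
  have hpar : (s - p) % 2 = 0 := by
    obtain ⟨k, hk⟩ := hd
    obtain ⟨m, hm⟩ := h.even
    have ht' := Int.even_iff.1 ht
    have : s - t = 2 * (m * k) := by rw [hk, hm]; push_cast; ring
    omega
  rw [← e, ← e']
  rcases eq_or_lt_of_le a with a' | a'
  · rw [← a']; exact hX.chord
  · exact hX.outs s (by omega) b (Int.odd_iff.2 (by omega))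

theorem Ts_edge_eq (h : Lp C N c) (hB : ∀ v ∈ C, B.1 v ∈ C) (he : Even (q - p)) :
    Ts B C N c q (q + 1) = Ts B C N c p (p + 1) := by
  have hn := h.mod_two
  have hN : (0 : ℤ) < N := by exact_mod_cast h.pos
  have he' := Int.even_iff.1 he
  refine PM.ext' fun v => ?_
  by_cases hv : v ∈ C
  · obtain ⟨t, rfl⟩ := (h.mem v).1 hv
    rcases Int.emod_two_eq_zero_or_one (t - p) with ht | ht
    · rw [Ts_edge h hB (Int.even_iff.2 ht), Ts_edge h hB (Int.even_iff.2 (by omega))]
    · have a1 := Ts_edge (p := p) (t := t - 1) h hB (Int.even_iff.2 (by omega))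
      have a2 := Ts_edge (p := q) (t := t - 1) h hB (Int.even_iff.2 (by omega))
      rw [sub_add_cancel] at a1 a2
      rw [PM.symm _ a1, PM.symm _ a2]
  · rw [(Ts_spec (p := p) (q := p + 1) h hB (by omega) (by omega) (Int.odd_iff.2 (by omega))).out v hv,
      (Ts_spec (p := q) (q := q + 1) h hB (by omega) (by omega) (Int.odd_iff.2 (by omega))).out v hv]

theorem Cy.Ts_zero (h : Cy I F C N c) : Ts I C N c 0 1 = I := by
  have hn := h.lp.mod_two
  have hN : (0 : ℤ) < N := by exact_mod_cast h.pos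
  refine (IsT.eq_Ts h.lp (by omega) (by omega) (by decide)
    ⟨fun _ _ => rfl, by simpa using h.ev 0 (by decide), fun t a b _ => by omega, fun t _ _ o => ?_⟩).symm
  have o' := Int.odd_iff.1 o
  exact h.ev t (Int.even_iff.2 (by omega))

theorem Cy.Ts_one (h : Cy I F C N c) : Ts I C N c 1 2 = mix C I F := by
  have hn := h.lp.mod_two
  have hN : (0 : ℤ) < N := by exact_mod_cast h.pos
  have hc : ∀ t, c t ∈ C := fun t => (h.mem _).2 ⟨t, rfl⟩
  have hcl : Closed I F C := by
    intro v hv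
    obtain ⟨t, rfl⟩ := (h.mem v).1 hv
    rcases h.nb' t with ⟨h1, h2⟩ | ⟨h1, h2⟩ <;> rw [h1, h2] <;> exact ⟨hc _, hc _⟩
  refine (IsT.eq_Ts h.lp (by omega) (by omega) (by decide)
    ⟨fun v hv => ?_, ?_, fun t a b _ => by omega, fun t _ _ o => ?_⟩).symm
  · rw [mix_apply hcl, if_neg hv]
  · rw [mix_apply hcl, if_pos (hc _)]
    simpa using h.od 1 odd_one
  · have o' := Int.odd_iff.1 o
    rw [mix_apply hcl, if_pos (hc _)]
    exact h.od t (Int.odd_iff.2 (by omega))

theorem comp_arc {X Y : PM V} (hpq : p ≤ q) (hc : Closed X Y ((Icc p q).image c))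
    (h : ∀ t, p ≤ t → t < q → X.1 (c t) = c (t + 1) ∨ Y.1 (c t) = c (t + 1)) :
    comp X Y (c p) = (Icc p q).image c := by
  refine Subset.antisymm (comp_sub hc (mem_image.2 ⟨p, mem_Icc.2 ⟨le_rfl, hpq⟩, rfl⟩)) ?_
  have key : ∀ t, p ≤ t → t ≤ q → c t ∈ comp X Y (c p) := by
    intro t ht
    induction t, ht using Int.le_induction with
    | base => exact fun _ => self_mem_comp X Y _
    | succ t ht ih =>
      intro htq
      have hm := closed_comp X Y (c p) _ (ih (by omega))
      rcases h t ht (by omega) with e | e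
      · exact e ▸ hm.1
      · exact e ▸ hm.2
  intro v hv
  obtain ⟨t, ht, rfl⟩ := mem_image.1 hv
  exact key t (mem_Icc.1 ht).1 (mem_Icc.1 ht).2

end Crest.Agent.R304
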