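import Crest.Agent.R304.Tune
import Crest.Prelude.Def_Matchings

/-!
# R304: the final state of the tuning; counting matchings

PLAN.  `card_PM_fin`: for a finite type `V` with `2m` elements, by induction on `m` (general `V`): fix `a`; `X ↦ X a`; for `b ≠ a` the fibre
`{X | X a = b}` is in bijection with `PM {v // v ≠ a ∧ v ≠ b}` (restrict / extend).  (Or: `Equiv.Perm` cycle types.)
`num_eq_card`: `X ↦ univ.image (fun v => s(v, X v))` is a bijection onto the edge sets counted by `numPerfectMatchings`; the inverse sends `v` to the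
other end (`Sym2.Mem.other`) of the unique edge containing `v`.  `num_odd`: a fixed-point-free involution needs an even number of points
(`Finset.sum_involution` in `ZMod 2`, or `Function.Involutive.card_fixedPoints`-type lemmas).
`stop`: call `X` low if `P v (X v) < fl v (X v) + S` for all `v`; then `P v (X v) = fl v (X v)` (`Good.ge`).  The matchings that are not low have
`mu`-mass at most `n^2 * 4.1 d ≤ 1/2` (union bound).  A low matching inside `G` has weight `ρ^(nL)`; a low matching not inside `G` has weight at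
most `ρ^((n-1) L)`, `ρ^L = (ρ^(200 S))^(s^2) ≥ 2^(s^2) ≥ n^n ≥ card (PM)` (`card_PM_le`).  So `ZZ / 2 ≤ ρ^(nL) (N + 1) ≤ 2 N ρ^(nL)`.
-/

set_option autoImplicit false
set_option linter.unusedSectionVars false
open Finset Crest.Matchings

namespace Crest.Agent.R304

/-- involutions whose set of non-fixed points is `W` -/
def PW {V : Type} [Fintype V] [DecidableEq V] (W : Finset V) : Finset (V → V) :=
  univ.filter fun f => ∀ v, f (f v) = v ∧ (f v = v ↔ v ∉ W)

theorem card_PW {V : Type} [Fintype V] [DecidableEq V] (m : ℕ) (W : Finset V) (hW : W.card = 2 * m) :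
    (PW W).card = ∏ i ∈ range m, (2 * i + 1) := by
  induction m generalizing W with
  | zero =>
    rw [card_eq_zero.1 hW, prod_range_zero, card_eq_one]
    refine ⟨id, ?_⟩
    ext f
    simp only [PW, mem_filter, mem_univ, true_and, notMem_empty, not_false_eq_true, iff_true, mem_singleton]
    exact ⟨fun h => funext fun v => (h v).2, fun h => by simp [h]⟩
  | succ m ih =>
    obtain ⟨a, ha⟩ := card_pos.1 (by omega : 0 < W.card)
    rw [card_eq_sum_card_fiberwise (f := fun f : V → V => f a) (t := W.erase a), prod_range_succ,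
      sum_const_nat (m := ∏ i ∈ range m, (2 * i + 1)), card_erase_of_mem ha, hW, mul_comm]
    · rfl
    · intro b hb
      obtain ⟨hba, hb⟩ := mem_erase.1 hb
      rw [← ih ((W.erase a).erase b) (by rw [card_erase_of_mem (mem_erase.2 ⟨hba, hb⟩), card_erase_of_mem ha]; omega)]
      refine card_nbij' (fun f v => if v = a ∨ v = b then v else f v)
        (fun g v => if v = a then b else if v = b then a else g v) ?_ ?_ ?_ ?_
      · intro f hf
        simp only [PW, coe_filter, mem_filter, mem_univ, true_and, Set.mem_ofPred_eq, mem_erase] at hf ⊢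
        intro v
        have h1 := hf.1 v
        have h2 := hf.1 a
        have h3 := hf.2
        grind
      · intro g hg
        simp only [PW, coe_filter, mem_filter, mem_univ, true_and, Set.mem_ofPred_eq, mem_erase] at hg ⊢
        refine ⟨fun v => ?_, by simp⟩
        have h1 := hg v
        have h2 := hg a
        have h3 := hg b
        grind
      · intro f hf
        simp only [PW, coe_filter, mem_filter, mem_univ, true_and, Set.mem_ofPred_eq] at hf
        funext v
        have h2 := hf.1 a
        have h3 := hf.2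
        grind
      · intro g hg
        simp only [PW, coe_filter, mem_univ, true_and, Set.mem_ofPred_eq, mem_erase] at hg
        funext v
        have h2 := hg a
        have h3 := hg b
        grind
    · intro f hf
      simp only [PW, coe_filter, mem_univ, true_and, Set.mem_ofPred_eq, coe_erase, Set.mem_sdiff, mem_coe,
        Set.mem_singleton_iff] at hf ⊢
      have h1 := hf a
      have h2 := hf (f a)
      grind

theorem card_PM_fin (m : ℕ) : Fintype.card (PM (Fin (2 * m))) = ∏ i ∈ range m, (2 * i + 1) := by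
  rw [← card_PW m (univ : Finset (Fin (2 * m))) (by simp)]
  exact @Fintype.card_of_subtype _ (fun f : Fin (2 * m) → Fin (2 * m) => ∀ v, f (f v) = v ∧ f v ≠ v) (PW univ)
    (by simp [PW]) (inferInstance : Fintype (PM (Fin (2 * m))))

theorem num_eq_card {n : ℕ} (G : SimpleGraph (Fin n)) [DecidableRel G.Adj] :
    numPerfectMatchings G = (univ.filter fun X : PM (Fin n) => ∀ v, G.Adj v (X.1 v)).card := by
  symm
  refine card_bij (fun X _ => univ.image fun v => s(v, X.1 v)) (fun X hX => ?_) (fun X _ Y _ h => ?_) (fun M hM => ?_)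
  · rw [mem_filter] at hX ⊢
    refine ⟨mem_powerset.2 fun e he => ?_, fun v => card_eq_one.2 ⟨s(v, X.1 v), ?_⟩⟩
    · obtain ⟨w, -, rfl⟩ := mem_image.1 he
      simpa using hX.2 w
    · ext e
      simp only [mem_filter, mem_image, mem_univ, true_and, mem_singleton]
      constructor
      · rintro ⟨⟨w, rfl⟩, hv⟩
        rcases Sym2.mem_iff.1 hv with rfl | rfl
        · rfl
        · rw [X.inv, Sym2.eq_swap]
      · rintro rfl
        exact ⟨⟨v, rfl⟩, Sym2.mem_mk_left _ _⟩
  · refine PM.ext' fun v => ?_
    have : s(v, X.1 v) ∈ univ.image fun v => s(v, Y.1 v) := h ▸ mem_image_of_mem _ (mem_univ v)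
    obtain ⟨w, -, hw⟩ := mem_image.1 this
    rcases Sym2.eq_iff.1 hw with ⟨rfl, h2⟩ | ⟨h1, h2⟩
    · exact h2.symm
    · rw [← h1]; exact (Y.symm h2).symm
  · rw [mem_filter, mem_powerset] at hM
    have h1 : ∀ v, ∃ z, s(v, z) ∈ M ∧ ∀ e ∈ M, v ∈ e → e = s(v, z) := by
      intro v
      obtain ⟨e, he⟩ := card_eq_one.1 (hM.2 v)
      have h2 : e ∈ M.filter fun e => v ∈ e := he ▸ mem_singleton_self e
      rw [mem_filter] at h2
      obtain ⟨z, rfl⟩ := Sym2.mem_iff_exists.1 h2.2
      exact ⟨z, h2.1, fun e' h3 h4 => mem_singleton.1 (he ▸ mem_filter.2 ⟨h3, h4⟩)⟩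
    choose f hf hu using h1
    have hadj : ∀ v, G.Adj v (f v) := fun v => by simpa using hM.1 (hf v)
    refine ⟨⟨f, fun v => ⟨?_, (hadj v).ne'⟩⟩, mem_filter.2 ⟨mem_univ _, hadj⟩, ?_⟩
    · rcases Sym2.eq_iff.1 (hu (f v) _ (hf v) (Sym2.mem_mk_right _ _)) with ⟨h2, -⟩ | ⟨h2, -⟩
      · exact ((hadj v).ne h2).elim
      · exact h2.symm
    · ext e
      simp only [mem_image, mem_univ, true_and]
      constructor
      · rintro ⟨v, rfl⟩; exact hf v
      · intro he
        induction e using Sym2.ind with
        | h a b => exact ⟨a, (hu a _ he (Sym2.mem_mk_left _ _)).symm⟩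

theorem PM_even {n : ℕ} (X : PM (Fin n)) : Even n := by
  have h := sum_involution (s := (univ : Finset (Fin n))) (f := fun _ => (1 : ZMod 2)) (fun a _ => X.1 a)
    (fun _ _ => rfl) (fun a _ _ => X.ne a) (fun _ _ => mem_univ _) (fun a _ => X.inv a)
  rw [sum_const, card_univ, Fintype.card_fin, nsmul_one] at h
  exact ZMod.natCast_eq_zero_iff_even.1 h

variable {V : Type} [Fintype V] [DecidableEq V] {s S : ℕ} {P : V → V → ℤ}

/-- the floors -/
def flG (adj : V → V → Bool) (L : ℕ) (u v : V) : ℤ := if adj u v then L else 0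

/-- the number of matchings inside the graph -/
def numG (adj : V → V → Bool) : ℕ := (univ.filter fun X : PM V => ∀ v, adj v (X.1 v) = true).card

/-- the normalised final estimator -/
noncomputable def fin1 (adj : V → V → Bool) (ρ : ℝ) (L : ℕ) (P : V → V → ℤ) (X : PM V) : ℝ :=
  if ∀ v, adj v (X.1 v) = true then ρ ^ (Fintype.card V * L) / wt (lw ρ P) X else 0

theorem fin1_mem (hz : Sz V s S) (adj : V → V → Bool) {L : ℕ} (h : Good s S (flG adj L) P) (X : PM V) :
    0 ≤ fin1 adj (rho S) L P X ∧ fin1 adj (rho S) L P X ≤ 1 := by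
  have h1 := (one_lt_rho hz.pos).le
  have hρ : 0 < rho S := one_pos.trans_le h1
  have hw := wt_lw_pos hρ P X
  unfold fin1
  split_ifs with hX
  · refine ⟨by positivity, (div_le_one hw).2 ?_⟩
    rw [mul_comm, pow_mul, ← card_univ, ← prod_const]
    refine prod_le_prod (fun _ _ => by positivity) fun v _ => ?_
    rw [← zpow_natCast]
    have := (h.ge v _ (X.ne v).symm).1
    rw [flG, if_pos (hX v)] at this
    exact zpow_le_zpow_right₀ h1 this
  · exact ⟨le_rfl, zero_le_one⟩

theorem fin1_mean (hz : Sz V s S) (adj : V → V → Bool) (L : ℕ) (h : Sym P) :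
    ZZ (lw (rho S) P) * ∑ X, mu (lw (rho S) P) X * fin1 adj (rho S) L P X =
      rho S ^ (Fintype.card V * L) * numG adj := by
  have := hz.ne
  have hρ : 0 < rho S := one_pos.trans (one_lt_rho hz.pos)
  rw [numG, card_filter, Nat.cast_sum, mul_sum, mul_sum]
  refine sum_congr rfl fun X _ => ?_
  have := wt_lw_pos hρ P X
  have := ZZ_lw_pos hρ P
  unfold fin1 mu
  split_ifs
  · push_cast; field_simp
  · simp

theorem stop (hz : Sz V s S) (adj : V → V → Bool) (h : Good s S (flG adj (200 * S * s ^ 2)) P)
    (hx : ∀ u v, u ≠ v → flG adj (200 * S * s ^ 2) u v + S ≤ P u v → xm (lw (rho S) P) u v ≤ 41 / 10 * dd s)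
    (hN : 1 ≤ numG adj) :
    ZZ (lw (rho S) P) ≤ 4 * (rho S ^ (Fintype.card V * (200 * S * s ^ 2)) * numG adj) := by
  have := hz.ne
  have h1 := (one_lt_rho hz.pos).le
  have hρ : 0 < rho S := one_pos.trans_le h1
  have hd := dd_pos hz
  set L := 200 * S * s ^ 2 with hL
  set A := rho S ^ (Fintype.card V * L) with hA
  have hA0 : 0 < A := pow_pos hρ _
  have hL0 : 0 < rho S ^ L := pow_pos hρ _
  have key : ∀ X : PM V, wt (lw (rho S) P) X ≤ (if ∀ v, adj v (X.1 v) = true then A else 0) + A / rho S ^ L +
      ∑ p : V × V, if p.1 ≠ p.2 ∧ flG adj L p.1 p.2 + S ≤ P p.1 p.2 then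
        (if X.1 p.1 = p.2 then wt (lw (rho S) P) X else 0) else 0 := by
    intro X
    have hw := wt_lw_pos hρ P X
    have n1 : 0 ≤ (if ∀ v, adj v (X.1 v) = true then A else 0) := by split_ifs <;> positivity
    have n2 : 0 ≤ A / rho S ^ L := by positivity
    have n3 : ∀ p ∈ (univ : Finset (V × V)), 0 ≤ if p.1 ≠ p.2 ∧ flG adj L p.1 p.2 + S ≤ P p.1 p.2 then
        (if X.1 p.1 = p.2 then wt (lw (rho S) P) X else 0) else 0 := fun p _ => by split_ifs <;> positivity
    by_cases hlow : ∃ v, flG adj L v (X.1 v) + S ≤ P v (X.1 v)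
    · obtain ⟨v, hv⟩ := hlow
      have := single_le_sum n3 (mem_univ (v, X.1 v))
      rw [if_pos ⟨(X.ne v).symm, hv⟩, if_pos rfl] at this
      linarith
    have n4 := sum_nonneg n3
    have hP : ∀ v, P v (X.1 v) = flG adj L v (X.1 v) := by
      intro v
      obtain ⟨g1, g2⟩ := h.ge v _ (X.ne v).symm
      have g3 : P v (X.1 v) < flG adj L v (X.1 v) + S := not_le.1 fun h' => hlow ⟨v, h'⟩
      have := Int.eq_zero_of_dvd_of_nonneg_of_lt (by omega) (by omega) g2
      omega
    have hA' : A = ∏ _v : V, rho S ^ L := by rw [prod_const, card_univ, ← pow_mul, mul_comm]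
    by_cases hX : ∀ v, adj v (X.1 v) = true
    · have : wt (lw (rho S) P) X = A := by
        rw [hA']
        exact prod_congr rfl fun v _ => by rw [lw, hP, flG, if_pos (hX v), zpow_natCast]
      rw [if_pos hX]; linarith
    · obtain ⟨v, hv⟩ := not_forall.1 hX
      have : wt (lw (rho S) P) X ≤ A / rho S ^ L := by
        rw [le_div_iff₀ hL0, hA', wt, ← mul_prod_erase _ _ (mem_univ v), ← mul_prod_erase _ _ (mem_univ v), lw, hP,
          flG, if_neg hv, zpow_zero, one_mul, mul_comm]
        refine mul_le_mul_of_nonneg_left (prod_le_prod (fun w _ => (zpow_pos hρ _).le) fun w _ => ?_) hL0.le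
        rw [lw, hP, flG]
        split_ifs
        · rw [zpow_natCast]
        · rw [zpow_zero]; exact one_le_pow₀ h1
      linarith
  have hZ := ZZ_lw_pos hρ P
  have s1 : ∑ X : PM V, (if ∀ v, adj v (X.1 v) = true then A else 0) = A * numG adj := by
    rw [numG, card_filter, Nat.cast_sum, mul_sum]
    exact sum_congr rfl fun X _ => by split_ifs <;> simp
  have s2 : ∑ _X : PM V, A / rho S ^ L ≤ A := by
    have c1 : Fintype.card (PM V) ≤ 2 ^ s ^ 2 := by
      refine card_PM_le.trans ?_
      rw [sq, pow_mul]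
      exact (Nat.pow_le_pow_left (hz.card.trans Nat.lt_two_pow_self.le) _).trans
        (Nat.pow_le_pow_right (by positivity) hz.card)
    have c2 : (2 : ℝ) ≤ rho S ^ (200 * S) := by
      have hS : (0 : ℝ) < S := by exact_mod_cast hz.pos
      have h0 : (0 : ℝ) ≤ 1 / (200 * S) := by positivity
      have := one_add_mul_le_pow (a := (1 / (200 * S) : ℝ)) (by linarith) (200 * S)
      rw [show ((200 * S : ℕ) : ℝ) * (1 / (200 * S)) = 1 by push_cast; field_simp] at this
      unfold rho; linarith
    have c3 : (Fintype.card (PM V) : ℝ) ≤ rho S ^ L := by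
      rw [hL, pow_mul]
      exact le_trans (by exact_mod_cast c1) (pow_le_pow_left₀ (by norm_num) c2 _)
    rw [sum_const, card_univ, nsmul_eq_mul, ← mul_div_assoc, div_le_iff₀ hL0, mul_comm]
    exact mul_le_mul_of_nonneg_left c3 hA0.le
  have s3 : ∑ X : PM V, ∑ p : V × V, (if p.1 ≠ p.2 ∧ flG adj L p.1 p.2 + S ≤ P p.1 p.2 then
      (if X.1 p.1 = p.2 then wt (lw (rho S) P) X else 0) else 0) ≤ ZZ (lw (rho S) P) / 2 := by
    rw [sum_comm]
    calc _ ≤ ∑ _p : V × V, 41 / 10 * dd s * ZZ (lw (rho S) P) := by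
          refine sum_le_sum fun p _ => ?_
          rw [sum_ite_irrel]
          split_ifs with hp
          · rw [← xm_mul_ZZ hρ]
            exact mul_le_mul_of_nonneg_right (hx _ _ hp.1 hp.2) hZ.le
          · rw [sum_const_zero]; positivity
      _ = (Fintype.card V : ℝ) ^ 2 * dd s * (41 / 10) * ZZ (lw (rho S) P) := by
          rw [sum_const, card_univ, Fintype.card_prod, nsmul_eq_mul]; push_cast; ring
      _ ≤ 1 / 100 * (41 / 10) * ZZ (lw (rho S) P) := by
          refine mul_le_mul_of_nonneg_right (mul_le_mul_of_nonneg_right ?_ (by norm_num)) hZ.le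
          have hn : (Fintype.card V : ℝ) ≤ s := by exact_mod_cast hz.card
          have hs : (100 : ℝ) ≤ s := by exact_mod_cast hz.big
          have := pow_le_pow_left₀ (Nat.cast_nonneg _) hn 2
          unfold dd
          rw [mul_one_div, div_le_iff₀ (by positivity)]
          linarith
      _ ≤ _ := by linarith
  have s4 : ZZ (lw (rho S) P) ≤ _ := sum_le_sum fun X (_ : X ∈ univ) => key X
  rw [sum_add_distrib, sum_add_distrib, s1] at s4
  have s5 : A ≤ A * numG adj := le_mul_of_one_le_right hA0.le (by exact_mod_cast hN)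
  linarith

end Crest.Agent.R304
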