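import Crest.Agent.R304.Par
import Crest.Agent.R304.PopC
import Crest.Agent.R304.Stop
import Crest.Agent.R304.Gap

/-!
# R304: the list algorithm simulates the moves on matchings

PLAN.  Lists: `List.ext_getElem`, `List.ofFn`, `ofFn_eq_map_range`.  `cyc_enc`: induction on `t` for the pair (vertex, parity)
(`Function.iterate_succ_apply'`).  `mixL` with `closed_comp`, `mix_apply`.  `sample_enc`: `mstep` commutes with `encP` (`prpL_enc`), induction on `T`.
`hasGap`: the sum over `θ ∈ range (2^(2b))` of nonnegative terms is at least the sum over `θ = b + pw2 s * c`, `b c : Fin n`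
(`Finset.sum_le_sum_of_subset_of_nonneg`, `sum_image`), where `tau θ = mv b c`; `gap`, `AA_ge`.
-/

set_option autoImplicit false
open Finset Crest.Agent.PTime Crest.Agent.R309

namespace Crest.Agent.R304

variable {n s r : ℕ}

def encM (X : PM (Fin n)) : List ℕ := List.ofFn fun v => (X.1 v).val
def encP (M : Fin r → PM (Fin n)) : List (List ℕ) := List.ofFn fun i => encM (M i)

def tau (n s θ : ℕ) (a : PM (Fin n) × PM (Fin n)) : PM (Fin n) × PM (Fin n) :=
  if h : θ % pw2 s < n ∧ θ / pw2 s < n then mv ⟨_, h.1⟩ ⟨_, h.2⟩ a else a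

/-- the exponents as a function on vertices -/
def PA (n s : ℕ) (ms : List Bump) (u v : Fin n) : ℤ := PL s ms u v

/-- the weights after the changes `ms` -/
noncomputable def lA (n s : ℕ) (ms : List Bump) : Fin n → Fin n → ℝ := lw (rho (SS s)) (PA n s ms)

def adjA (n : ℕ) (g : List Bool) (u v : Fin n) : Bool := adjL n g u v

def sgn (up : Bool) : ℤ := if up = true then 1 else -1

theorem map_range_eq {α : Type} (f : ℕ → α) (g : Fin n → α) (h : ∀ i : Fin n, f i = g i) :
    (List.range n).map f = List.ofFn g := by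
  rw [← ofFn_eq_map_range]
  exact congrArg List.ofFn (funext h)

theorem swN_val (b c v : Fin n) : swN b c v = (Equiv.swap b c v).val := by
  simp only [swN, Equiv.swap_apply_def, Fin.val_inj]
  split_ifs <;> rfl

theorem gn_encM (X : PM (Fin n)) (v : Fin n) : gn (encM X) v = X.1 v := by
  simp [gn, encM]

theorem cjL_enc (X : PM (Fin n)) (b c : Fin n) : cjL n (encM X) b c = encM (cj X b c) := by
  refine map_range_eq _ _ fun v => ?_
  rw [swN_val, gn_encM, swN_val]
  rfl

theorem cyc_enc' (X Y : PM (Fin n)) (a : Fin n) (t : ℕ) :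
    (cycS (encM X) (encM Y))^[t] (a, false) = ((cyc X Y a t).val, decide (t % 2 = 1)) := by
  induction t with
  | zero => rfl
  | succ t ih =>
    rw [Function.iterate_succ_apply', ih]
    rcases Nat.mod_two_eq_zero_or_one t with h | h
    · have h' : (t + 1) % 2 = 1 := by omega
      simp [cycS, cyc, h, h', gn_encM]
    · have h' : (t + 1) % 2 = 0 := by omega
      simp [cycS, cyc, h, h', gn_encM]

theorem cyc_enc (X Y : PM (Fin n)) (a : Fin n) (t : ℕ) :
    ((cycS (encM X) (encM Y))^[t] (a, false)).1 = cyc X Y a t := by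
  rw [cyc_enc']

theorem mem_compL (X Y : PM (Fin n)) (a v : Fin n) : v.val ∈ compL n (encM X) (encM Y) a ↔ v ∈ comp X Y a := by
  simp only [compL, comp, List.mem_map, List.mem_range, mem_image, mem_range, Fintype.card_fin, cyc_enc, Fin.val_inj]

theorem mixL_enc (X Y : PM (Fin n)) (a : Fin n) (Z W : PM (Fin n)) (h : Closed Z W (comp X Y a)) :
    mixL n (compL n (encM X) (encM Y) a) (encM Z) (encM W) = encM (mix (comp X Y a) Z W) := by
  refine map_range_eq _ _ fun v => ?_
  rw [mix_apply h, gn_encM, gn_encM]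
  simp only [mem_compL]
  split_ifs <;> rfl

theorem mvL_enc (θ : ℕ) (a : PM (Fin n) × PM (Fin n)) :
    mvL n s θ (encM a.1, encM a.2) = (encM (tau n s θ a).1, encM (tau n s θ a).2) := by
  unfold mvL tau
  by_cases h : θ % pw2 s < n ∧ θ / pw2 s < n
  · rw [if_pos h, dif_pos h]
    unfold mv
    by_cases e : θ % pw2 s = θ / pw2 s
    · rw [if_pos e, if_pos (Fin.ext e)]
      exact Prod.ext (mixL_enc a.1 a.2 ⟨_, h.1⟩ a.1 a.2 (closed_comp _ _ _))
        (mixL_enc a.1 a.2 ⟨_, h.1⟩ a.2 a.1 (closed_comp _ _ _).symm)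
    · rw [if_neg e, if_neg (fun k => e (congrArg Fin.val k))]
      exact Prod.ext (cjL_enc a.1 ⟨_, h.1⟩ ⟨_, h.2⟩) rfl
  · rw [if_neg h, dif_neg h]

theorem getD_encP (M : Fin r → PM (Fin n)) (i : Fin r) : (encP M).getD i [] = encM (M i) := by
  simp [encP]

theorem set_encP (M : Fin r → PM (Fin n)) (i : Fin r) (X : PM (Fin n)) :
    (encP M).set i (encM X) = encP (Function.update M i X) := by
  apply List.ext_getElem
  · simp [encP]
  · intro j h1 h2
    simp only [encP, List.getElem_set, List.getElem_ofFn, Function.update_apply, Fin.ext_iff]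
    by_cases e : i.val = j
    · rw [if_pos e, if_pos e.symm]
    · rw [if_neg e, if_neg (fun k => e k.symm)]

theorem prpL_enc (M : Fin (rr s) → PM (Fin n)) (k : ℕ) :
    prpL n s (encP M) k = encP (prp (tau n s) (rr s) M k) := by
  have h0 := rr_pos s
  unfold prpL prp
  rw [dif_pos h0]
  by_cases e : k % rr s = k / rr s % rr s
  · rw [if_pos e, if_pos e]
  · rw [if_neg e, if_neg e]
    have e1 := getD_encP M ⟨k % rr s, Nat.mod_lt _ h0⟩
    have e2 := getD_encP M ⟨k / rr s % rr s, Nat.mod_lt _ h0⟩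
    simp only at e1 e2
    rw [e1, e2, mvL_enc (k / rr s / rr s) (M ⟨k % rr s, Nat.mod_lt _ h0⟩, M ⟨k / rr s % rr s, Nat.mod_lt _ h0⟩)]
    exact (congrArg (fun l => List.set l _ _) (set_encP M ⟨k % rr s, Nat.mod_lt _ h0⟩ _)).trans
      (set_encP _ ⟨k / rr s % rr s, Nat.mod_lt _ h0⟩ _)

theorem sample_enc (W : List (List ℕ) → ℚ) (b B T : ℕ) (M : Fin (rr s) → PM (Fin n)) (t : List Bool) :
    sample W (prpL n s) b B T (encP M) t = encP (sample (fun M => W (encP M)) (prp (tau n s) (rr s)) b B T M t) := by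
  unfold sample
  induction T generalizing M t with
  | zero => rfl
  | succ T ih =>
    simp only [runL]
    rw [← ih]
    congr 1
    unfold mstep
    rw [prpL_enc]
    split_ifs <;> rfl

theorem tau_tau (θ : ℕ) (a : PM (Fin n) × PM (Fin n)) : tau n s θ (tau n s θ a) = a := by
  unfold tau
  by_cases h : θ % pw2 s < n ∧ θ / pw2 s < n
  · simp only [dif_pos h, mv_mv]
  · simp only [dif_neg h]

theorem cnt_symm (ms : List Bump) (u v : ℕ) (up : Bool) : cnt ms u v up = cnt ms v u up := by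
  simp only [cnt, or_comm]

theorem rho_pos' (S : ℕ) : 0 < rho S := by
  unfold rho; positivity

theorem PA_sym (ms : List Bump) : Sym (PA n s ms) := by
  intro u v
  simp only [PA, PL, cnt_symm ms u v]

theorem wt_lA (ms : List Bump) : Wt (lA n s ms) := by
  exact wt_lw (rho_pos' _) (PA_sym ms)

theorem PA_nil : PA n s [] = fun _ _ => ((200 * SS s * s ^ 2 : ℕ) : ℤ) := by
  funext u v
  simp [PA, PL, cnt, LL]

theorem PA_cons (ms : List Bump) (u v : Fin n) (up : Bool) :
    PA n s ((u.val, v.val, up) :: ms) = bp (PA n s ms) u v (sgn up) := by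
  funext a b
  have key : ∀ w : Bool, (((u.val, v.val, up) : Bump) = (a.val, b.val, w) ∨
      ((u.val, v.val, up) : Bump) = (b.val, a.val, w)) ↔ ((a = u ∧ b = v) ∨ (a = v ∧ b = u)) ∧ up = w := by
    intro w
    simp only [Prod.mk.injEq, Fin.val_inj]
    constructor
    · rintro (⟨rfl, rfl, rfl⟩ | ⟨rfl, rfl, rfl⟩) <;> simp
    · rintro ⟨⟨rfl, rfl⟩ | ⟨rfl, rfl⟩, rfl⟩ <;> simp
  simp only [PA, PL, bp, cnt, List.countP_cons, key, decide_eq_true_eq, sgn]
  by_cases h : (a = u ∧ b = v) ∨ (a = v ∧ b = u)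
  · cases up <;> simp [h] <;> ring
  · simp [h]

theorem PA_perm {ms ms' : List Bump} (h : ms.Perm ms') : PA n s ms = PA n s ms' := by
  funext a b
  simp only [PA, PL, cnt, h.countP_eq]

theorem PA_replicate (ms : List Bump) (u v : Fin n) (up : Bool) (k : ℕ) :
    PA n s (List.replicate k (u.val, v.val, up) ++ ms) = bp (PA n s ms) u v (sgn up * k) := by
  induction k with
  | zero => simp [bp_zero]
  | succ k ih =>
    rw [List.replicate_succ, List.cons_append, PA_cons, ih, bp_bp]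
    congr 1
    push_cast
    ring

theorem wq_enc (ms : List Bump) (X : PM (Fin n)) : (wq n s ms (encM X) : ℝ) = wt (lA n s ms) X := by
  unfold wq
  rw [map_range_eq _ (fun v : Fin n => lq s ms v (X.1 v)) (fun v => by rw [gn_encM]), List.prod_ofFn, Rat.cast_prod]
  refine prod_congr rfl fun v _ => ?_
  have h := (rho_pos' (SS s)).ne'
  simp only [lq, lA, lw, PA, PL, Rat.cast_div, Rat.cast_pow, rq_cast]
  rw [zpow_sub₀ h, zpow_natCast, ← Nat.cast_add, zpow_natCast]

theorem WP_enc (ms : List Bump) (M : Fin r → PM (Fin n)) : (WP n s ms (encP M) : ℝ) = ∏ i, wt (lA n s ms) (M i) := by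
  unfold WP encP
  rw [List.map_ofFn, List.prod_ofFn, Rat.cast_prod]
  exact prod_congr rfl fun i _ => wq_enc ms (M i)

theorem countP_eq_sum {α : Type} (p : α → Bool) (l : List α) :
    l.countP p = (l.map fun x => if p x = true then 1 else 0).sum := by
  induction l with
  | nil => rfl
  | cons a l ih => simp only [List.countP_cons, List.map_cons, List.sum_cons, ih]; omega

theorem est_enc (M : Fin r → PM (Fin n)) (u v : Fin n) :
    (est (encP M) u v : ℝ) = S1 (fun X : PM (Fin n) => if X.1 u = v then 1 else 0) M / r := by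
  unfold est S1
  rw [countP_eq_sum, encP, List.map_ofFn, List.sum_ofFn, List.length_ofFn]
  push_cast
  congr 1
  refine sum_congr rfl fun i _ => ?_
  simp only [Function.comp, gn_encM, Fin.val_inj, decide_eq_true_eq]
  split_ifs <;> simp

theorem finq_enc (g : List Bool) (ms : List Bump) (M : Fin r → PM (Fin n)) :
    ((((encP M).map (finq n s g ms)).sum : ℚ) : ℝ) = S1 (fin1 (adjA n g) (rho (SS s)) (LL s) (PA n s ms)) M := by
  unfold S1 encP
  rw [List.map_ofFn, List.sum_ofFn, Rat.cast_sum]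
  refine sum_congr rfl fun i _ => ?_
  have e : (List.range n).all (fun v => adjL n g v (gn (encM (M i)) v)) = true ↔
      ∀ v, adjA n g v ((M i).1 v) = true := by
    simp only [List.all_eq_true, List.mem_range, adjA]
    constructor
    · intro h v
      have := h v v.2
      rwa [gn_encM] at this
    · intro h v hv
      have := h ⟨v, hv⟩
      rwa [← gn_encM] at this
  simp only [Function.comp, finq, fin1, e]
  split_ifs
  · rw [Rat.cast_div, Rat.cast_pow, rq_cast, wq_enc, Fintype.card_fin]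
    rfl
  · exact Rat.cast_zero

theorem mem_prs {e : ℕ × ℕ} : e ∈ prs n ↔ e.1 < n ∧ e.2 < n ∧ e.1 ≠ e.2 := by
  obtain ⟨a, b⟩ := e
  simp only [prs, List.mem_flatMap, List.mem_map, List.mem_filter, List.mem_range, decide_eq_true_eq, Prod.mk.injEq]
  constructor
  · rintro ⟨u, hu, v, ⟨hv, huv⟩, rfl, rfl⟩
    exact ⟨hu, hv, huv⟩
  · rintro ⟨h1, h2, h3⟩
    exact ⟨a, h1, b, ⟨h2, h3⟩, rfl, rfl⟩

theorem hasGap [Nonempty (PM (Fin n))] (h0 : 0 < n) (hn : n ≤ s) (hs : 100 ≤ s) {ℓ : Fin n → Fin n → ℝ} (hW : Wt ℓ)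
    (hx : ∀ u v, u ≠ v → dd s ≤ xm ℓ u v) : HasGap (mu ℓ) (tau n s) (2 * bz s) (AA s) := by
  intro u hu
  have : Nonempty (Fin n) := ⟨⟨0, h0⟩⟩
  have hs' : (100 : ℝ) ≤ s := by exact_mod_cast hs
  have hd : 0 < dd s := by unfold dd; positivity
  have hd1 : dd s ≤ 1 := by
    unfold dd
    rw [div_le_one (by positivity)]
    nlinarith
  have hg := gap hW hd hd1 hx u hu
  rw [Fintype.card_fin] at hg
  have hA := AA_ge hs hn
  have hp : n ≤ pw2 s := hn.trans (lt_pw2 s).le
  have hp0 : 0 < pw2 s := h0.trans_le hp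
  obtain ⟨F, hF⟩ : ∃ F : ℕ → ℝ, F = fun θ => ∑ a, min (m2 (mu ℓ) a) (m2 (mu ℓ) (tau n s θ a)) *
      (sm u a - sm u (tau n s θ a)) ^ 2 := ⟨_, rfl⟩
  have hF0 : ∀ θ, 0 ≤ F θ := fun θ => by
    rw [hF]
    refine sum_nonneg fun a _ => mul_nonneg (le_min ?_ ?_) (sq_nonneg _)
    · exact mul_nonneg (mu_pos hW _).le (mu_pos hW _).le
    · exact mul_nonneg (mu_pos hW _).le (mu_pos hW _).le
  have hm : ∀ b c : Fin n, (b.val + pw2 s * c.val) % pw2 s = b.val ∧ (b.val + pw2 s * c.val) / pw2 s = c.val := by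
    intro b c
    have hb : b.val < pw2 s := b.2.trans_le hp
    refine ⟨by rw [Nat.add_mul_mod_self_left, Nat.mod_eq_of_lt hb], ?_⟩
    rw [Nat.add_mul_div_left _ _ hp0, Nat.div_eq_of_lt hb, zero_add]
  have ht : ∀ (b c : Fin n) a, tau n s (b.val + pw2 s * c.val) a = mv b c a := by
    intro b c a
    unfold tau
    rw [dif_pos ⟨by rw [(hm b c).1]; exact b.2, by rw [(hm b c).2]; exact c.2⟩]
    congr 1
    · exact Fin.ext (hm b c).1
    · exact Fin.ext (hm b c).2
  have h1 : ∑ b, ∑ c, ∑ a : PM (Fin n) × PM (Fin n),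
      min (mu ℓ a.1 * mu ℓ a.2) (mu ℓ (mv b c a).1 * mu ℓ (mv b c a).2) *
        (u a.1 + u a.2 - u (mv b c a).1 - u (mv b c a).2) ^ 2 ≤ ∑ θ ∈ range (2 ^ (2 * bz s)), F θ := by
    have e : ∑ b, ∑ c, ∑ a : PM (Fin n) × PM (Fin n),
        min (mu ℓ a.1 * mu ℓ a.2) (mu ℓ (mv b c a).1 * mu ℓ (mv b c a).2) *
          (u a.1 + u a.2 - u (mv b c a).1 - u (mv b c a).2) ^ 2 =
        ∑ q : Fin n × Fin n, F (q.1.val + pw2 s * q.2.val) := by
      rw [Fintype.sum_prod_type]
      refine sum_congr rfl fun b _ => sum_congr rfl fun c _ => ?_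
      rw [hF]
      refine sum_congr rfl fun a _ => ?_
      simp only [ht, m2, sm, sub_add_eq_sub_sub]
    rw [e, ← sum_image (s := univ) (g := fun q : Fin n × Fin n => q.1.val + pw2 s * q.2.val) (f := F)]
    · refine sum_le_sum_of_subset_of_nonneg (fun θ hθ => ?_) fun θ _ _ => hF0 θ
      obtain ⟨q, -, rfl⟩ := mem_image.1 hθ
      have e2 : 2 ^ (2 * bz s) = pw2 s * pw2 s := by rw [two_mul, pow_add]; rfl
      rw [mem_range, e2]
      have hb : q.1.val < pw2 s := q.1.2.trans_le hp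
      have hc : q.2.val + 1 ≤ pw2 s := q.2.2.trans_le hp
      have := Nat.mul_le_mul_left (pw2 s) hc
      rw [mul_add, mul_one] at this
      omega
    · intro q _ q' _ h
      have a1 := hm q.1 q.2
      have a2 := hm q'.1 q'.2
      simp only at h
      rw [h] at a1
      exact Prod.ext (Fin.ext (a1.1.symm.trans a2.1)) (Fin.ext (a1.2.symm.trans a2.2))
  have e1 : ip (mu ℓ) u u = ∑ X, mu ℓ X * u X ^ 2 := by simp only [ip, sq]
  have e2 : Dir (mu ℓ) (tau n s) (2 * bz s) (sm u) = (∑ θ ∈ range (2 ^ (2 * bz s)), F θ) / 2 ^ (2 * bz s) := by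
    rw [hF]; rfl
  rw [e1, e2]
  have hS : 0 ≤ ∑ θ ∈ range (2 ^ (2 * bz s)), F θ := sum_nonneg fun θ _ => hF0 θ
  obtain ⟨K, hK⟩ : ∃ K, K = 18 * (n : ℝ) ^ 23 * (2 * n / dd s) ^ 12 := ⟨_, rfl⟩
  have hK0 : 0 ≤ K := by rw [hK]; positivity
  rw [← hK] at hA hg
  have h2 := hg.trans (mul_le_mul_of_nonneg_left h1 hK0)
  have hq : (0 : ℝ) < 2 ^ (2 * bz s) := by positivity
  rw [← mul_div_assoc, le_div_iff₀ hq]
  have h3 := mul_le_mul_of_nonneg_right hA hS
  have h4 := mul_le_mul_of_nonneg_right h2 hq.le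
  linarith

end Crest.Agent.R304
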