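import Crest.Agent.R304.Macro
import Crest.Agent.R304.PTA
import Crest.Agent.R309.Top

/-!
# R304: reading the input
-/

set_option autoImplicit false
open Finset Crest.Agent.PTime Crest.Agent.R309 Crest.Enc Crest.Matchings

namespace Crest.Agent.R304

def nOf (w : List Bool) : ℕ := min (parseNat w).1 w.length
def gOf (w : List Bool) : List Bool := (parseNat w).2

theorem getD_flatten_rows {n : ℕ} (f : Fin n → Fin n → Bool) (rest : List Bool) (u v : Fin n) :
    (((List.finRange n).map fun i => (List.finRange n).map fun j => f i j).flatten ++ rest).getD (u * n + v) false =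
      f u v := by
  have key : ∀ (L : List (List Bool)) (i : ℕ) (hi : i < L.length), (∀ l ∈ L, l.length = n) →
      (L.flatten ++ rest).getD (i * n + v) false = (L[i]).getD v false := by
    intro L
    induction L with
    | nil => intro i hi; simp at hi
    | cons l L ih =>
      intro i hi hL
      have hl : l.length = n := hL l (by simp)
      cases i with
      | zero =>
        simp only [List.flatten_cons, List.append_assoc, zero_mul, zero_add, List.getElem_cons_zero]
        rw [List.getD_append _ _ _ _ (by rw [hl]; exact v.2)]
      | succ i =>
        simp only [List.flatten_cons, List.append_assoc, List.getElem_cons_succ]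
        rw [List.getD_append_right _ _ _ _ (by rw [hl]; nlinarith)]
        have : (i + 1) * n + v - l.length = i * n + v := by rw [hl, add_mul]; omega
        rw [this]
        exact ih i (by simpa using hi) fun l' h' => hL l' (by simp [h'])
  rw [key _ u (by simp) (by simp)]
  simp

theorem length_rows {n : ℕ} (f : Fin n → Fin n → Bool) :
    ((List.finRange n).map fun i => (List.finRange n).map fun j => f i j).flatten.length = n * n := by
  simp [List.length_flatten, Function.comp_def]

theorem nOf_code (n : ℕ) (G : SimpleGraph (Fin n)) [DecidableRel G.Adj] (rest : List Bool) :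
    nOf (graphCode n G ++ rest) = n := by
  unfold nOf graphCode
  rw [List.append_assoc, parseNat_natCode]
  refine min_eq_left ?_
  simp only [List.length_append, length_rows]
  nlinarith [Nat.zero_le (natCode n).length, Nat.zero_le rest.length, Nat.le_mul_self n]

theorem adj_code (n : ℕ) (G : SimpleGraph (Fin n)) [DecidableRel G.Adj] (rest : List Bool) (u v : Fin n) :
    adjA n (gOf (graphCode n G ++ rest)) u v = decide (G.Adj u v) := by
  unfold adjA adjL gOf graphCode
  rw [List.append_assoc, parseNat_natCode]
  exact getD_flatten_rows (fun i j => decide (G.Adj i j)) rest u v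

theorem numG_code (n : ℕ) (G : SimpleGraph (Fin n)) [DecidableRel G.Adj] (rest : List Bool) :
    numG (adjA n (gOf (graphCode n G ++ rest))) = numPerfectMatchings G := by
  rw [num_eq_card, numG]
  simp only [adj_code, decide_eq_true_eq]

theorem pt_top : PT (fun p : List Bool × List Bool => ratCode (cntA (nOf p.1) (sOf p.1) (gOf p.1) p.2)) := by
  refine PT.ratCode (PT.cntA ?_ ?_ ?_ ?_ ?_ PT.id.snd)
  · unfold nOf; fun_prop
  · unfold nOf; exact PB.min_right (PB.length PT.id.fst)
  · unfold sOf; fun_prop
  · unfold sOf; fun_prop
  · unfold gOf; fun_prop

end Crest.Agent.R304
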