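import Crest.Agent.R304.BR

/-!
# R304: induction over a triangulation of the cycle

PLAN.  `ψ p q = φ (Ts I C N c p q)`, `θ p = ψ p (p+1)` depends on the parity of `p` only (`Ts_edge_eq`), `ψ q (p+N) = ψ p q`
(`Ts_turn`), `r p q = ψ p q - θ p`.  Claim, by strong induction on `j - i`, for `0 ≤ i < j ≤ N-1` whose edges `e i`, `e j` lie on
a common point: `|r p q| ≤ 6 (j-i-1) ε` for `p ∈ {i,i+1}`, `q ∈ {j,j+1}`, `q - p` odd.  For `j = i+1` these are `r i (i+1) = 0` and
`r (i+1) (i+2) = 0`.  Otherwise take `k` from `tri` and the gauge of the common point of `e i, e k, e j`.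
* `j - i` even: `br (p,q,z,y) = (i+1, j, i+N, i+N)` gives `|r (i+1) j + r i (j+1)| ≤ 3ε` (★).
  `k - i` even: `br (i+1, k, j, j)` gives `r (i+1) j ≈ r (i+1) k + r (k+1) j`, then (★).
  `k - i` odd: `br' (k, j, i+N, k)` gives `r i k ≈ r k j + r i (j+1)`, then (★).
* `j - i` odd, `k - i` even: `br (i+1, k, j+1, j)` gives `r (i+1) (j+1) ≈ r (i+1) k + r (k+1) (j+1)`; `br' (j-N, i, k, j-N)` gives
  `r k j ≈ r i j + r (i+1) k`.
* `j - i` odd, `k - i` odd: `br' (i, k, j, i)` gives `r i j ≈ r i k + r (k+1) j`; `br (k+1, j, i+1+N, i+N)` gives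
  `r (i+1) (k+1) ≈ r (k+1) j + r (i+1) (j+1)`.
Finally `i = 0`, `j = N-1` (`adj` at the vertex `c 0 = c N`): `r 0 (N-1) = θ (N-1) - θ 0`.  `cyc_bound`: `exists_cy`; for `N = 2` the cycle is a
common edge and `mix C I F = I`; otherwise `Cy.rg`, `Cy.Ts_zero`, `Cy.Ts_one`.
-/

set_option autoImplicit false
open Finset

namespace Crest.Agent.R304

variable {V : Type} [Fintype V] [DecidableEq V]

/-- a system of points with the triangulation property -/
structure Pts (ℓ : V → V → ℝ) (K : ℝ) {P : Type} (On : P → V → V → Prop) : Prop where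
  gauge : ∀ x, ∃ g, Gauge ℓ K g ∧ ∀ u v, On x u v → ℓ u v ≤ g u * g v
  symm : ∀ x u v, On x u v → On x v u
  adj : ∀ a b b', a ≠ b → a ≠ b' → ∃ x, On x a b ∧ On x a b'
  tri : ∀ (c : ℤ → V) (i j : ℤ), i + 1 < j → c (i + 1) ≠ c j →
    (∃ x, On x (c i) (c (i + 1)) ∧ On x (c j) (c (j + 1))) →
    ∃ k, i < k ∧ k < j ∧ ∃ x, On x (c i) (c (i + 1)) ∧ On x (c k) (c (k + 1)) ∧ On x (c j) (c (j + 1))

variable {ℓ : V → V → ℝ} {K ε : ℝ} {φ : PM V → ℝ} {I F : PM V} {P : Type} {On : P → V → V → Prop}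

theorem ring_bound (hW : Wt ℓ) (hP : Pts ℓ K On) {C : Finset V} {N : ℕ} {c : ℤ → V} (hR : Rg I F C N c)
    (hH : Hyp ℓ K φ I F C ε) (hε : 0 ≤ ε) : |φ (Ts I C N c 1 2) - φ (Ts I C N c 0 1)| ≤ 6 * N * ε := by
  have hL := hR.toLp
  have hn := hL.mod_two
  have h4 : (4 : ℤ) ≤ N := by exact_mod_cast hR.four
  have hI : ∀ v ∈ C, I.1 v ∈ C := fun v hv => (hR.closed v hv).1
  set ψ : ℤ → ℤ → ℝ := fun p q => φ (Ts I C N c p q) with hψ
  have hθ : ∀ p q : ℤ, (q - p) % 2 = 0 → ψ q (q + 1) = ψ p (p + 1) := fun p q h =>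
    congrArg φ (Ts_edge_eq hL hI (Int.even_iff.2 h))
  have hT : ∀ p q : ℤ, p < q → q < p + N → (q - p) % 2 = 1 → ψ q (p + N) = ψ p q := fun p q a b h =>
    congrArg φ (Ts_turn hL hI a b (Int.odd_iff.2 h))
  have key : ∀ n : ℕ, ∀ i j : ℤ, j - i = n + 1 → j < i + N →
      (∃ x, On x (c i) (c (i + 1)) ∧ On x (c j) (c (j + 1))) →
      ((j - i) % 2 = 0 → |ψ (i + 1) j - ψ (i + 1) (i + 1 + 1)| ≤ 6 * n * ε ∧
        |ψ i (j + 1) - ψ i (i + 1)| ≤ 6 * n * ε) ∧
      ((j - i) % 2 = 1 → |ψ i j - ψ i (i + 1)| ≤ 6 * n * ε ∧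
        |ψ (i + 1) (j + 1) - ψ (i + 1) (i + 1 + 1)| ≤ 6 * n * ε) := by
    intro n
    induction n using Nat.strong_induction_on with
    | _ n ih =>
      intro i j hij hN hx
      rcases Nat.eq_zero_or_pos n with rfl | hn0
      · obtain rfl : j = i + 1 := by omega
        exact ⟨fun h => by omega, fun _ => by simp⟩
      obtain ⟨k, hik, hkj, x, x1, x2, x3⟩ := hP.tri c i j (by omega) (hL.ne (by omega) (by omega)) hx
      obtain ⟨g, hg, hx'⟩ := hP.gauge x
      have ei := hx' _ _ x1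
      have ek := hx' _ _ x2
      have ej := hx' _ _ x3
      have ei1 : ℓ (c (i + 1 - 1)) (c (i + 1)) ≤ g (c (i + 1 - 1)) * g (c (i + 1)) := by
        rwa [add_sub_cancel_right]
      have ek1 : ℓ (c (k + 1 - 1)) (c (k + 1)) ≤ g (c (k + 1 - 1)) * g (c (k + 1)) := by
        rwa [add_sub_cancel_right]
      have eiN : ℓ (c (i + N)) (c (i + N + 1)) ≤ g (c (i + N)) * g (c (i + N + 1)) := by
        rwa [hL.per, show i + N + 1 = i + 1 + N by ring, hL.per]
      have ejN : ℓ (c (j - N)) (c (j - N + 1)) ≤ g (c (j - N)) * g (c (j - N + 1)) := by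
        rwa [← hL.per (j - N), ← hL.per (j - N + 1), sub_add_cancel,
          show j - N + 1 + N = j + 1 by ring]
      obtain ⟨a, ha⟩ : ∃ a : ℕ, k - i = a + 1 := ⟨(k - i - 1).toNat, by omega⟩
      obtain ⟨b, hb⟩ : ∃ b : ℕ, j - k = b + 1 := ⟨(j - k - 1).toNat, by omega⟩
      have hab : (n : ℝ) = a + b + 1 := by exact_mod_cast (by omega : n = a + b + 1)
      obtain ⟨A0, A1⟩ := ih a (by omega) i k ha (by omega) ⟨x, x1, x2⟩
      obtain ⟨B0, B1⟩ := ih b (by omega) k j hb (by omega) ⟨x, x2, x3⟩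
      rw [hab]
      refine ⟨fun h => ?_, fun h => ?_⟩
      · have s : |ψ (i + 1) (i + N) + ψ (i + 1) (i + 1 + 1) - ψ (i + 1) j - ψ (j + 1) (i + N)| ≤ 3 * ε :=
          br hW hR hH hg (by omega) (by omega) (by omega) (Int.odd_iff.2 (by omega))
            (Int.odd_iff.2 (by omega)) (Or.inl rfl) ei1 ej eiN
        rw [hT i (i + 1) (by omega) (by omega) (by omega), hT i (j + 1) (by omega) (by omega) (by omega)] at s
        rcases Int.emod_two_eq_zero_or_one (k - i) with h' | h'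
        · have t : |ψ (i + 1) j + ψ (i + 1) (i + 1 + 1) - ψ (i + 1) k - ψ (k + 1) j| ≤ 3 * ε :=
            br hW hR hH hg (by omega) (by omega) (by omega) (Int.odd_iff.2 (by omega))
              (Int.odd_iff.2 (by omega)) (Or.inl rfl) ei1 ek ej
          have u := (A0 h').1
          have v := (B0 (by omega)).1
          rw [hθ (i + 1) (k + 1) (by omega)] at v
          simp only [abs_le] at s t u v ⊢
          refine ⟨⟨?_, ?_⟩, ?_, ?_⟩ <;> linarith [s.1, s.2, t.1, t.2, u.1, u.2, v.1, v.2]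
        · have t : |ψ k (i + N) + ψ k (k + 1) - ψ k j - ψ (j + 1) (i + N)| ≤ 3 * ε :=
            br' hW hR hH hg (by omega) (by omega) (by omega) (Int.odd_iff.2 (by omega))
              (Int.odd_iff.2 (by omega)) (Or.inl rfl) eiN ej ek
          rw [hT i k (by omega) (by omega) (by omega), hT i (j + 1) (by omega) (by omega) (by omega)] at t
          have u := (A1 h').1
          have v := (B1 (by omega)).1
          simp only [abs_le] at s t u v ⊢
          refine ⟨⟨?_, ?_⟩, ?_, ?_⟩ <;> linarith [s.1, s.2, t.1, t.2, u.1, u.2, v.1, v.2]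
      · rcases Int.emod_two_eq_zero_or_one (k - i) with h' | h'
        · have s : |ψ (i + 1) (j + 1) + ψ (i + 1) (i + 1 + 1) - ψ (i + 1) k - ψ (k + 1) (j + 1)| ≤ 3 * ε :=
            br hW hR hH hg (by omega) (by omega) (by omega) (Int.odd_iff.2 (by omega))
              (Int.odd_iff.2 (by omega)) (Or.inr (by ring)) ei1 ek ej
          have t : |ψ (j - N) k + ψ (j - N) (j - N + 1) - ψ (j - N) i - ψ (i + 1) k| ≤ 3 * ε :=
            br' hW hR hH hg (by omega) (by omega) (by omega) (Int.odd_iff.2 (by omega))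
              (Int.odd_iff.2 (by omega)) (Or.inl rfl) ek ei ejN
          rw [← hT (j - N) k (by omega) (by omega) (by omega), ← hT (j - N) i (by omega) (by omega) (by omega),
            sub_add_cancel, hθ (i + 1) (j - N) (by omega)] at t
          have u := (A0 h').1
          obtain ⟨v, w⟩ := B1 (by omega)
          rw [hθ i k h'] at v
          rw [hθ (i + 1) (k + 1) (by omega)] at w
          simp only [abs_le] at s t u v w ⊢
          refine ⟨⟨?_, ?_⟩, ?_, ?_⟩ <;> linarith [s.1, s.2, t.1, t.2, u.1, u.2, v.1, v.2, w.1, w.2]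
        · have s : |ψ i j + ψ i (i + 1) - ψ i k - ψ (k + 1) j| ≤ 3 * ε :=
            br' hW hR hH hg (by omega) (by omega) (by omega) (Int.odd_iff.2 (by omega))
              (Int.odd_iff.2 (by omega)) (Or.inl rfl) ej ek ei
          have t : |ψ (k + 1) (i + 1 + N) + ψ (k + 1) (k + 1 + 1) - ψ (k + 1) j - ψ (j + 1) (i + 1 + N)| ≤
              3 * ε :=
            br hW hR hH hg (by omega) (by omega) (by omega) (Int.odd_iff.2 (by omega))
              (Int.odd_iff.2 (by omega)) (Or.inr (by ring)) ek1 ej eiN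
          rw [hT (i + 1) (k + 1) (by omega) (by omega) (by omega),
            hT (i + 1) (j + 1) (by omega) (by omega) (by omega)] at t
          obtain ⟨u, w⟩ := A1 h'
          have v := (B0 (by omega)).1
          have e := hθ i (k + 1) (by omega)
          simp only [abs_le] at s t u v w ⊢
          refine ⟨⟨?_, ?_⟩, ?_, ?_⟩ <;> linarith [s.1, s.2, t.1, t.2, u.1, u.2, v.1, v.2, w.1, w.2]
  obtain ⟨x, x1, x2⟩ := hP.adj (c 0) (c (0 + 1)) (c (N - 1)) (hL.ne (by omega) (by omega))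
    (hL.ne (by omega) (by omega))
  have e0 : c (N - 1 + 1) = c 0 := by rw [← hL.per 0]; congr 1; ring
  have h := ((key (N - 2) 0 (N - 1) (by have := hR.four; omega) (by omega)
    ⟨x, x1, e0 ▸ hP.symm _ _ _ x2⟩).2 (by omega)).1
  rw [← hT 0 (N - 1) (by omega) (by omega) (by omega), show (0 : ℤ) + N = N - 1 + 1 by ring,
    hθ 1 (N - 1) (by omega)] at h
  have h2 : ((N - 2 : ℕ) : ℝ) ≤ N := by exact_mod_cast Nat.sub_le _ _
  exact h.trans (by nlinarith)

theorem cyc_bound (hW : Wt ℓ) (hP : Pts ℓ K On) (a : V) (hH : Hyp ℓ K φ I F (comp I F a) ε) (hε : 0 ≤ ε) :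
    |φ (mix (comp I F a) I F) - φ I| ≤ 6 * Fintype.card V * ε := by
  obtain ⟨N, c, h, -, hN⟩ := exists_cy I F a
  by_cases h4 : 4 ≤ N
  · have := ring_bound hW hP (h.rg h4) hH hε
    rw [h.Ts_zero, h.Ts_one] at this
    have h2 : (N : ℝ) ≤ Fintype.card V := by exact_mod_cast hN
    exact this.trans (by nlinarith)
  · have h2 : N = 2 := by
      obtain ⟨k, hk⟩ := h.even
      have := h.pos
      omega
    have e : mix (comp I F a) I F = I := by
      refine PM.ext' fun v => ?_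
      rw [mix_apply (closed_comp I F a)]
      split_ifs with hv
      · obtain ⟨t, rfl⟩ := (h.mem v).1 hv
        have e : c (t + 1) = c (t - 1) := (h.inj _ _).2 ⟨1, by rw [h2]; ring⟩
        rcases h.nb' t with ⟨h1, h3⟩ | ⟨h1, h3⟩ <;> rw [h1, h3, e]
      · rfl
    rw [e, sub_self, abs_zero]
    positivity

end Crest.Agent.R304
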