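import Crest.Agent.R304.Poly

/-!
# R304: the support of a feasible point contains a perfect matching

PLAN.  Let `G : SimpleGraph W` (vertices: the subtype of `W`), `a ~ b` iff `a ≠ b` and some edge `e` with `x e ≠ 0` has
ends `(a,b)` or `(b,a)`.  `SimpleGraph.tutte`: for a set `u`, every odd component `C` of `G - u`, read as a finset
`S_C ⊆ W` of odd size, has `1 ≤ cut x S_C`; a support edge with exactly one end in `S_C` has its other end in `u`
(otherwise it stays in the component), and the `S_C` are disjoint, so `#odd components ≤ ∑_C cut x S_C ≤ ∑_{v ∈ u} cut x {v} = |u|`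
(termwise in `e`: an edge is cut by at most as many `S_C` as it has ends in `u`).  From the perfect matching subgraph pick
for every matched pair one edge `e` (choice on unordered pairs, e.g. the image of `M.edgeSet` under a choice function, or
the set of `e` that are the `Classical.epsilon`-choice for their pair of ends).
-/

set_option autoImplicit false
open Finset

namespace Crest.Agent.R304

variable {V E : Type} [Fintype V] [DecidableEq V] [Fintype E] [DecidableEq E]

namespace TutteA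

theorem count {ends : E → V × V} {W : Finset V} {x : E → ℝ} (h : Feas ends W x) {ι : Type} (T : Finset ι)
    (S : ι → Finset V) (U : Finset V) (hU : U ⊆ W) (hS : ∀ c ∈ T, S c ⊆ W ∧ Odd (S c).card)
    (huniq : ∀ c ∈ T, ∀ c' ∈ T, ∀ v, v ∈ S c → v ∈ S c' → c = c')
    (h1 : ∀ c ∈ T, ∀ e, x e ≠ 0 → (ends e).1 ∈ S c → (ends e).2 ∈ S c ∨ (ends e).2 ∈ U)
    (h2 : ∀ c ∈ T, ∀ e, x e ≠ 0 → (ends e).2 ∈ S c → (ends e).1 ∈ S c ∨ (ends e).1 ∈ U) : T.card ≤ U.card := by
  have one : ∀ (a : V) (y : ℝ), 0 ≤ y → ∑ c ∈ T, (if a ∈ S c then y else 0) ≤ y := fun a y hy => by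
    rw [← sum_filter, sum_const, nsmul_eq_mul]
    have : (T.filter fun c => a ∈ S c).card ≤ 1 := card_le_one.2 fun c hc c' hc' =>
      huniq c (mem_filter.1 hc).1 c' (mem_filter.1 hc').1 a (mem_filter.1 hc).2 (mem_filter.1 hc').2
    have h' : ((T.filter fun c => a ∈ S c).card : ℝ) ≤ 1 := by exact_mod_cast this
    nlinarith
  have key : ∑ c ∈ T, cut ends x (S c) ≤ ∑ v ∈ U, cut ends x {v} := by
    unfold cut
    rw [sum_comm, sum_comm (s := U)]
    refine sum_le_sum fun e _ => ?_
    by_cases hx : x e = 0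
    · simp [hx]
    have hne := (h.supp e hx).2.2
    have hp := h.nonneg e
    have e1 : ∑ v ∈ U, (if ((ends e).1 ∈ ({v} : Finset V) ↔ (ends e).2 ∈ ({v} : Finset V)) then 0 else x e) =
        (if (ends e).2 ∈ U then x e else 0) + (if (ends e).1 ∈ U then x e else 0) := by
      rw [← sum_ite_eq U (ends e).2 (fun _ => x e), ← sum_ite_eq U (ends e).1 (fun _ => x e), ← sum_add_distrib]
      refine sum_congr rfl fun v _ => ?_
      simp only [mem_singleton]
      by_cases k1 : (ends e).1 = v <;> by_cases k2 : (ends e).2 = v <;> simp [k1, k2]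
      exact absurd (k1.trans k2.symm) hne
    rw [e1]
    refine le_trans ?_ (add_le_add (one (ends e).1 _ (by split_ifs <;> simp [hp]))
      (one (ends e).2 _ (by split_ifs <;> simp [hp])))
    rw [← sum_add_distrib]
    refine sum_le_sum fun c hc => ?_
    have k1 := h1 c hc e hx
    have k2 := h2 c hc e hx
    by_cases a1 : (ends e).1 ∈ S c <;> by_cases a2 : (ends e).2 ∈ S c <;> simp [a1, a2] at k1 k2 ⊢
    · split_ifs <;> linarith
    · simp [k1]
    · simp [k2]
  have a1 : (T.card : ℝ) ≤ ∑ c ∈ T, cut ends x (S c) := by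
    rw [card_eq_sum_ones, Nat.cast_sum]
    exact sum_le_sum fun c hc => by simpa using h.odd _ (hS c hc).1 (hS c hc).2
  have a2 : ∑ v ∈ U, cut ends x {v} = U.card := by
    rw [sum_congr rfl fun v hv => h.deg v (hU hv)]
    simp
  exact_mod_cast a1.trans (key.trans a2.le)

/-- the support graph -/
def G (ends : E → V × V) (W : Finset V) (x : E → ℝ) : SimpleGraph W where
  Adj a b := a ≠ b ∧ ∃ e, x e ≠ 0 ∧ s((ends e).1, (ends e).2) = s(a.1, b.1)
  symm := ⟨fun a b ⟨h, e, he, he'⟩ => ⟨h.symm, e, he, he'.trans Sym2.eq_swap⟩⟩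
  loopless := ⟨fun a h => h.1 rfl⟩

theorem no_viol {ends : E → V × V} {W : Finset V} {x : E → ℝ} (h : Feas ends W x) (u : Set W) :
    ¬ (G ends W x).IsTutteViolator u := by
  classical
  unfold SimpleGraph.IsTutteViolator
  rw [not_lt]
  set H := ((⊤ : (G ends W x).Subgraph).deleteVerts u).coe with hH
  let ι : ((⊤ : (G ends W x).Subgraph).deleteVerts u).verts → V := fun a => a.1.1
  have hι : Function.Injective ι := fun a b hab => Subtype.ext (Subtype.ext hab)
  let S : H.ConnectedComponent → Finset V := fun c => (c.supp.toFinite.toFinset).image ι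
  have memS : ∀ c v, v ∈ S c ↔ ∃ a, H.connectedComponentMk a = c ∧ ι a = v := fun c v => by
    simp [S]
  have step : ∀ c (a b : V) (e : E), x e ≠ 0 → s((ends e).1, (ends e).2) = s(a, b) → a ≠ b → b ∈ W → a ∈ S c →
      b ∈ S c ∨ b ∈ (u.toFinite.toFinset).image Subtype.val := by
    intro c a b e he hab hne hb ha
    obtain ⟨a', rfl, rfl⟩ := (memS _ _).1 ha
    by_cases hbu : (⟨b, hb⟩ : W) ∈ u
    · exact Or.inr (mem_image.2 ⟨⟨b, hb⟩, (Set.Finite.mem_toFinset u.toFinite).2 hbu, rfl⟩)
    · left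
      refine (memS _ _).2 ⟨⟨⟨b, hb⟩, by simpa using hbu⟩, ?_, rfl⟩
      refine SimpleGraph.ConnectedComponent.connectedComponentMk_eq_of_adj ?_
      have ha' : a'.1 ∉ u := a'.2.2
      simp only [hH, SimpleGraph.Subgraph.coe_adj, SimpleGraph.Subgraph.deleteVerts_adj,
        SimpleGraph.Subgraph.verts_top, Set.mem_univ, true_and, SimpleGraph.Subgraph.top_adj]
      exact ⟨hbu, ha', fun h' => hne (congrArg Subtype.val h').symm, e, he, hab.trans Sym2.eq_swap⟩
  have := count h H.oddComponents.toFinite.toFinset S ((u.toFinite.toFinset).image Subtype.val)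
    (fun v hv => by obtain ⟨a, -, rfl⟩ := mem_image.1 hv; exact a.2)
    (fun c hc => ⟨fun v hv => by obtain ⟨a, -, rfl⟩ := (memS _ _).1 hv; exact a.1.2, by
      rw [card_image_of_injective _ hι, ← Set.ncard_eq_toFinset_card]
      exact (Set.Finite.mem_toFinset H.oddComponents.toFinite).1 hc⟩)
    (fun c _ c' _ v hv hv' => by
      obtain ⟨a, rfl, rfl⟩ := (memS _ _).1 hv
      obtain ⟨a', rfl, h'⟩ := (memS _ _).1 hv'
      rw [hι h'])
    (fun c _ e he => step c _ _ e he rfl (h.supp e he).2.2 (h.supp e he).2.1)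
    (fun c _ e he => step c _ _ e he Sym2.eq_swap (h.supp e he).2.2.symm (h.supp e he).1)
  rwa [card_image_of_injective _ Subtype.val_injective, ← Set.ncard_eq_toFinset_card,
    ← Set.ncard_eq_toFinset_card] at this

end TutteA

theorem exists_pm {ends : E → V × V} {W : Finset V} {x : E → ℝ} (h : Feas ends W x) :
    ∃ M : Finset E, PMon ends W M ∧ ∀ e ∈ M, x e ≠ 0 := by
  obtain ⟨M, hM⟩ := SimpleGraph.tutte.2 (TutteA.no_viol h)
  rw [SimpleGraph.Subgraph.isPerfectMatching_iff] at hM
  choose σ hσ hσ' using hM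
  have hσσ : ∀ v, σ (σ v) = v := fun v => (hσ' (σ v) v (hσ v).symm).symm
  choose g hg using fun z : {z : Sym2 V // ∃ e, x e ≠ 0 ∧ s((ends e).1, (ends e).2) = z} => z.2
  let c : W → E := fun v => g ⟨s(v.1, (σ v).1), (M.adj_sub (hσ v)).2⟩
  have hc : ∀ v, x (c v) ≠ 0 ∧ s((ends (c v)).1, (ends (c v)).2) = s(v.1, (σ v).1) := fun v => hg _
  have hcσ : ∀ v, c (σ v) = c v := fun v => congrArg g (Subtype.ext (by simp only [hσσ]; exact Sym2.eq_swap))
  refine ⟨univ.image c, fun w hw => card_eq_one.2 ⟨c ⟨w, hw⟩, ?_⟩, fun e he => ?_⟩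
  · ext e
    simp only [mem_filter, mem_image, mem_univ, true_and, mem_singleton]
    constructor
    · rintro ⟨⟨v, rfl⟩, hv⟩
      have : w ∈ s(v.1, (σ v).1) := by
        rw [← (hc v).2, Sym2.mem_iff]
        exact hv.imp Eq.symm Eq.symm
      rcases Sym2.mem_iff.1 this with h' | h'
      · rw [show (⟨w, hw⟩ : W) = v from Subtype.ext h']
      · rw [show (⟨w, hw⟩ : W) = σ v from Subtype.ext h', hcσ]
    · rintro rfl
      refine ⟨⟨_, rfl⟩, ?_⟩
      have : w ∈ s((ends (c ⟨w, hw⟩)).1, (ends (c ⟨w, hw⟩)).2) := by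
        rw [(hc _).2]
        exact Sym2.mem_mk_left _ _
      exact (Sym2.mem_iff.1 this).imp Eq.symm Eq.symm
  · obtain ⟨v, -, rfl⟩ := mem_image.1 he
    exact (hc v).1

end Crest.Agent.R304
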