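import Crest.Agent.R304.Quad
import Crest.Agent.R304.Tri

/-!
# R304: the approximating ultrametric and the points of its tree

PLAN.  `ultra`: for `a ≠ b`, `u a b` = the maximum over the sets `B` with `a ∈ B`, `b ∉ B` of the minimum of `ω x z` over `x ∈ B`,
`z ∉ B` (`Finset.sup'`/`inf'`, or `sSup {h | ∃ B, a ∈ B ∧ b ∉ B ∧ ∀ x ∈ B, ∀ z ∉ B, h ≤ ω x z}`).  Symmetry by complements; an optimal `B`
for `(a,c)` separates `(a,b)` or `(b,c)`.  With `h = u a b`, `B k = {x | x = a ∨ ω a x ≤ k κ h}`: if `b ∉ B k` there are `x ∈ B k`,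
`z ∉ B k` with `ω x z ≤ h`, so `z ∈ B (k+1)`; hence `k + 1 ≤ |B k|` as long as `b ∉ B k`.
`tree_tri`: `a = c (i+1)`, `b = c j`, `s = u (c i) a`, `s' = u b (c (j+1))`, `t = u a b > 0`.  Take the point `(a,t)` if `t ≤ s, s'`;
`(a,s)` if `s < t`, `s ≤ s'`; `(b,s')` if `s' < t`, `s' ≤ s`.  For this point `(v,h)` exactly one of `a, b` lies in the ball
`{x | u x v < h}`, so some step `c k, c (k+1)` with `i < k < j` crosses its boundary, and then `h ≤ u (c k) (c (k+1))`.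
`points`: fix `o`; `T = ∑` of all `Wv a b / (Wv o a * Wv o b)` plus one; `β a = Wv o a` for `a ≠ o`, `β o = 1/T`; `ω a b = Wv a b / (β a β b)`
(so `ω o a = T`); the quasi-triangle inequality with `κ = 1 + 1/δ ≤ 2/δ` is `quad` when `o ∉ {x,y,z}` and trivial otherwise.  For the point
`(v,h)` with `h > 0`: `ρ a = max h (u a v)`, `g a = √(√h / (β a ρ a))`; `h * u a b ≤ ρ a ρ b` for all `a, b`, and
`ρ a ρ b ≤ h * u a b` on the point; `δ / Wv a b ≤ ℓ a b ^ 2 ≤ 1 / Wv a b`.  (For `h ≤ 0` nothing is on the point; use any other gauge,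
e.g. replace `h` by `1`.)  `adj`: the point `(a, min (u a b) (u a b'))`.
-/

set_option autoImplicit false
set_option linter.unusedSectionVars false
open Finset

namespace Crest.Agent.R304

variable {V : Type} [Fintype V] [DecidableEq V]

structure Ult (u : V → V → ℝ) : Prop where
  self : ∀ a, u a a = 0
  symm : ∀ a b, u a b = u b a
  pos : ∀ a b, a ≠ b → 0 < u a b
  tri : ∀ a b c, u a c ≤ max (u a b) (u b c)

theorem ultra_spec (ω : V → V → ℝ) {a b : V} (hab : a ≠ b) :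
    ∃ h : ℝ, (∃ B : Finset V, a ∈ B ∧ b ∉ B ∧ ∀ x ∈ B, ∀ z, z ∉ B → h ≤ ω x z) ∧
      ∀ B : Finset V, a ∈ B → b ∉ B → ∃ x ∈ B, ∃ z, z ∉ B ∧ ω x z ≤ h := by
  have h1 : ∀ B : Finset V, ∃ m : ℝ, a ∈ B → b ∉ B →
      (∀ x ∈ B, ∀ z, z ∉ B → m ≤ ω x z) ∧ ∃ x ∈ B, ∃ z, z ∉ B ∧ ω x z ≤ m := by
    intro B
    by_cases h : a ∈ B ∧ b ∉ B
    · obtain ⟨p, hp, hmin⟩ := exists_min_image (B ×ˢ Bᶜ) (fun p => ω p.1 p.2)
        ⟨(a, b), by simp [h.1, h.2]⟩
      rw [mem_product, mem_compl] at hp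
      exact ⟨ω p.1 p.2, fun _ _ => ⟨fun x hx z hz => hmin (x, z) (by simp [hx, hz]),
        p.1, hp.1, p.2, hp.2, le_rfl⟩⟩
    · exact ⟨0, fun h1 h2 => (h ⟨h1, h2⟩).elim⟩
  choose m hm using h1
  obtain ⟨B, hB, hmax⟩ := exists_max_image (univ.filter fun B : Finset V => a ∈ B ∧ b ∉ B) m
    ⟨{a}, by simp [hab.symm]⟩
  rw [mem_filter] at hB
  refine ⟨m B, ⟨B, hB.2.1, hB.2.2, (hm B hB.2.1 hB.2.2).1⟩, fun B' h1 h2 => ?_⟩
  obtain ⟨x, hx, z, hz, hle⟩ := (hm B' h1 h2).2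
  exact ⟨x, hx, z, hz, hle.trans (hmax B' (by simp [h1, h2]))⟩

theorem ultra (ω : V → V → ℝ) (κ : ℝ) (hκ : 1 ≤ κ) (hs : ∀ a b, ω a b = ω b a) (hp : ∀ a b, a ≠ b → 0 < ω a b)
    (ht : ∀ x y z, x ≠ y → x ≠ z → y ≠ z → ω x z ≤ ω x y + κ * ω y z) :
    ∃ u, Ult u ∧ ∀ a b, a ≠ b → u a b ≤ ω a b ∧ ω a b ≤ Fintype.card V * κ * u a b := by
  have h0 : ∀ a b : V, ∃ h : ℝ, (a = b → h = 0) ∧ (a ≠ b →
      (∃ B : Finset V, a ∈ B ∧ b ∉ B ∧ ∀ x ∈ B, ∀ z, z ∉ B → h ≤ ω x z) ∧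
      ∀ B : Finset V, a ∈ B → b ∉ B → ∃ x ∈ B, ∃ z, z ∉ B ∧ ω x z ≤ h) := by
    intro a b
    by_cases hab : a = b
    · exact ⟨0, fun _ => rfl, fun h => (h hab).elim⟩
    · obtain ⟨h, hh⟩ := ultra_spec ω hab
      exact ⟨h, fun e => (hab e).elim, fun _ => hh⟩
  choose u hu0 hu using h0
  have hself : ∀ a, u a a = 0 := fun a => hu0 a a rfl
  have hpos : ∀ a b, a ≠ b → 0 < u a b := by
    intro a b hab
    obtain ⟨x, hx, z, hz, hle⟩ := (hu a b hab).2 {a} (by simp) (by simp [hab.symm])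
    exact (hp x z (fun e => hz (e ▸ hx))).trans_le hle
  have hnn : ∀ a b, 0 ≤ u a b := by
    intro a b
    by_cases hab : a = b
    · exact (hu0 a b hab).ge
    · exact (hpos a b hab).le
  have hsy : ∀ a b, u a b ≤ u b a := by
    intro a b
    by_cases hab : a = b
    · rw [hab]
    obtain ⟨B, ha, hb, hB⟩ := (hu a b hab).1
    obtain ⟨x, hx, z, hz, hle⟩ := (hu b a (Ne.symm hab)).2 Bᶜ (by simpa using hb) (by simpa using ha)
    rw [mem_compl] at hx
    rw [mem_compl, not_not] at hz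
    exact (hB z hz x hx).trans ((hs z x).le.trans hle)
  refine ⟨u, ⟨hself, fun a b => le_antisymm (hsy a b) (hsy b a), hpos, fun a b c => ?_⟩, fun a b hab => ⟨?_, ?_⟩⟩
  · by_cases hac : a = c
    · rw [hu0 a c hac]; exact le_max_of_le_left (hnn _ _)
    obtain ⟨B, ha, hc, hB⟩ := (hu a c hac).1
    by_cases hb : b ∈ B
    · obtain ⟨x, hx, z, hz, hle⟩ := (hu b c (fun e => hc (e ▸ hb))).2 B hb hc
      exact le_max_of_le_right ((hB x hx z hz).trans hle)
    · obtain ⟨x, hx, z, hz, hle⟩ := (hu a b (fun e => hb (e ▸ ha))).2 B ha hb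
      exact le_max_of_le_left ((hB x hx z hz).trans hle)
  · obtain ⟨B, ha, hb, hB⟩ := (hu a b hab).1
    exact hB a ha b hb
  · have hh := hpos a b hab
    set h := u a b with hdef
    have hκh : 0 ≤ κ * h := by positivity
    let B : ℕ → Finset V := fun k => univ.filter fun x => x = a ∨ ω a x ≤ k * κ * h
    have hmem : ∀ k x, x ∈ B k ↔ x = a ∨ ω a x ≤ k * κ * h := fun k x => by simp [B]
    have hmono : ∀ k, B k ⊆ B (k + 1) := by
      intro k x hx
      rw [hmem] at hx ⊢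
      refine hx.imp id fun h1 => h1.trans ?_
      push_cast; nlinarith
    have key : ∀ k, b ∈ B k ∨ k + 1 ≤ (B k).card := by
      intro k
      induction k with
      | zero => exact Or.inr (card_pos.2 ⟨a, (hmem 0 a).2 (Or.inl rfl)⟩)
      | succ k ih =>
        by_cases hb : b ∈ B k
        · exact Or.inl (hmono k hb)
        have ih' := ih.resolve_left hb
        have ha : a ∈ B k := (hmem k a).2 (Or.inl rfl)
        obtain ⟨x, hx, z, hz, hle⟩ := (hu a b hab).2 (B k) ha hb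
        have hz' : z ∈ B (k + 1) := by
          rw [hmem]
          right
          have hk : (0 : ℝ) ≤ k * (κ * h) := by positivity
          by_cases hxa : x = a
          · rw [hxa] at hle
            push_cast; nlinarith
          · have h1 := ((hmem k x).1 hx).resolve_left hxa
            have h2 := ht a x z (Ne.symm hxa) (fun e => hz (e ▸ ha)) (fun e => hz (e ▸ hx))
            have h3 : κ * ω x z ≤ κ * h := mul_le_mul_of_nonneg_left hle (by linarith)
            push_cast; nlinarith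
        right
        have : insert z (B k) ⊆ B (k + 1) := insert_subset hz' (hmono k)
        have := card_le_card this
        rw [card_insert_of_notMem hz] at this
        omega
    rcases key (Fintype.card V) with h1 | h1
    · exact ((hmem _ b).1 h1).resolve_left (Ne.symm hab)
    · have := card_le_univ (B (Fintype.card V))
      omega

/-- the path from `a` to `b` passes through the point at height `x.2` above `x.1` -/
def TOn (u : V → V → ℝ) (x : V × ℝ) (a b : V) : Prop :=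
  0 < x.2 ∧ x.2 ≤ u a b ∧ (u a x.1 ≤ x.2 ∨ u b x.1 ≤ x.2)

theorem cross_int (Q : ℤ → Prop) {p q : ℤ} (hpq : p ≤ q) (h : ¬ (Q p ↔ Q q)) :
    ∃ k, p ≤ k ∧ k < q ∧ ¬ (Q k ↔ Q (k + 1)) := by
  induction q, hpq using Int.leInduction with
  | base => exact (h Iff.rfl).elim
  | succ q hq ih =>
    by_cases h1 : Q p ↔ Q q
    · exact ⟨q, hq, by omega, fun h2 => h (h1.trans h2)⟩
    · obtain ⟨k, k1, k2, k3⟩ := ih h1
      exact ⟨k, k1, by omega, k3⟩

theorem TOn.symm {u : V → V → ℝ} (hu : Ult u) {x : V × ℝ} {a b : V} (h : TOn u x a b) : TOn u x b a :=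
  ⟨h.1, hu.symm a b ▸ h.2.1, h.2.2.symm⟩

theorem TOn_cross {u : V → V → ℝ} (hu : Ult u) {v a b : V} {h : ℝ} (hh : 0 < h)
    (hc : ¬ (u a v < h ↔ u b v < h)) : TOn u (v, h) a b := by
  have aux : ∀ a b : V, u a v < h → ¬ u b v < h → TOn u (v, h) a b := by
    intro a b h1 h2
    refine ⟨hh, ?_, Or.inl h1.le⟩
    have h3 := (not_lt.1 h2).trans (hu.tri b a v)
    rcases le_max_iff.1 h3 with h4 | h4
    · exact hu.symm b a ▸ h4
    · exact (h1.not_ge h4).elim
  by_cases h1 : u a v < h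
  · exact aux a b h1 fun h2 => hc ⟨fun _ => h2, fun _ => h1⟩
  · by_cases h2 : u b v < h
    · exact (aux b a h2 h1).symm hu
    · exact (hc ⟨fun h3 => (h1 h3).elim, fun h3 => (h2 h3).elim⟩).elim

theorem tri_point {u : V → V → ℝ} (hu : Ult u) {a' a b b' : V} {x : V × ℝ} (h1 : TOn u x a' a) (h2 : TOn u x b b')
    (hlt : u a' a < u a b) (hle : u a' a ≤ u b b') : TOn u (a, u a' a) b b' := by
  have hs : 0 < u a' a := h1.1.trans_le h1.2.1
  refine ⟨hs, hle, Or.inr ?_⟩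
  have h3 : u a x.1 ≤ u a' a := by
    rcases h1.2.2 with h | h
    · exact (hu.tri a a' x.1).trans (max_le (hu.symm a a').le (h.trans h1.2.1))
    · exact h.trans h1.2.1
  rcases h2.2.2 with h | h
  · have := (hu.tri a x.1 b).trans (max_le h3 ((hu.symm _ _).le.trans (h.trans h1.2.1)))
    exact (hlt.not_ge this).elim
  · exact (hu.tri b' x.1 a).trans (max_le (h.trans h1.2.1) ((hu.symm _ _).le.trans h3))

theorem tree_tri {u : V → V → ℝ} (hu : Ult u) (c : ℤ → V) (i j : ℤ) (hij : i + 1 < j) (hne : c (i + 1) ≠ c j)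
    (h : ∃ x, TOn u x (c i) (c (i + 1)) ∧ TOn u x (c j) (c (j + 1))) :
    ∃ k, i < k ∧ k < j ∧ ∃ x, TOn u x (c i) (c (i + 1)) ∧ TOn u x (c k) (c (k + 1)) ∧ TOn u x (c j) (c (j + 1)) := by
  obtain ⟨x, h1, h2⟩ := h
  have ht := hu.pos _ _ hne
  have hs : 0 < u (c i) (c (i + 1)) := h1.1.trans_le h1.2.1
  have hs' : 0 < u (c j) (c (j + 1)) := h2.1.trans_le h2.2.1
  have fin : ∀ (v : V) (h : ℝ), 0 < h → TOn u (v, h) (c i) (c (i + 1)) → TOn u (v, h) (c j) (c (j + 1)) →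
      ¬ (u (c (i + 1)) v < h ↔ u (c j) v < h) →
      ∃ k, i < k ∧ k < j ∧ ∃ x, TOn u x (c i) (c (i + 1)) ∧ TOn u x (c k) (c (k + 1)) ∧
        TOn u x (c j) (c (j + 1)) := by
    intro v h hh k1 k2 k3
    obtain ⟨k, a1, a2, a3⟩ := cross_int (fun k => u (c k) v < h) hij.le k3
    exact ⟨k, by omega, a2, (v, h), k1, TOn_cross hu hh a3, k2⟩
  by_cases hA : u (c (i + 1)) (c j) ≤ u (c i) (c (i + 1)) ∧ u (c (i + 1)) (c j) ≤ u (c j) (c (j + 1))
  · refine fin (c (i + 1)) _ ht ⟨ht, hA.1, Or.inr ?_⟩ ⟨ht, hA.2, Or.inl (hu.symm _ _).le⟩ ?_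
    · rw [hu.self]; exact ht.le
    · rw [hu.self, hu.symm (c j)]; simp [ht]
  · rw [not_and_or, not_le, not_le] at hA
    rcases le_total (u (c i) (c (i + 1))) (u (c j) (c (j + 1))) with hB | hB
    · have hlt : u (c i) (c (i + 1)) < u (c (i + 1)) (c j) := hA.elim id hB.trans_lt
      refine fin (c (i + 1)) _ hs ⟨hs, le_rfl, Or.inr ?_⟩ (tri_point hu h1 h2 hlt hB) ?_
      · rw [hu.self]; exact hs.le
      · rw [hu.self, hu.symm (c j)]; simp [hs, hlt.le]
    · have hlt : u (c j) (c (j + 1)) < u (c (i + 1)) (c j) := hA.elim hB.trans_lt id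
      have h3 := tri_point hu (h2.symm hu) (h1.symm hu)
        (by rw [hu.symm (c (j + 1)), hu.symm (c j) (c (i + 1))]; exact hlt)
        (by rw [hu.symm (c (j + 1)), hu.symm (c (i + 1))]; exact hB)
      rw [hu.symm (c (j + 1))] at h3
      refine fin (c j) _ hs' (h3.symm hu) ⟨hs', le_rfl, Or.inl ?_⟩ ?_
      · rw [hu.self]; exact hs'.le
      · rw [hu.self]; simp [hs', hlt.le]

theorem gauge_pt {ℓ : V → V → ℝ} (hW : Wt ℓ) {u : V → V → ℝ} (hu : Ult u) {β : V → ℝ} (hβ : ∀ a, 0 < β a) {K : ℝ}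
    (hK : 0 < K) (h1 : ∀ a b, a ≠ b → ℓ a b ^ 2 * (β a * β b * u a b) ≤ 1)
    (h2 : ∀ a b, a ≠ b → 1 ≤ (K * ℓ a b) ^ 2 * (β a * β b * u a b)) (v : V) {h : ℝ} (hh : 0 < h) :
    ∃ g, Gauge ℓ K g ∧ ∀ a b, TOn u (v, h) a b → ℓ a b ≤ g a * g b := by
  let ρ : V → ℝ := fun a => max h (u a v)
  have hρ : ∀ a, h ≤ ρ a := fun a => le_max_left _ _
  have hρ' : ∀ a, u a v ≤ ρ a := fun a => le_max_right _ _
  have hρ0 : ∀ a, 0 < ρ a := fun a => hh.trans_le (hρ a)
  let g : V → ℝ := fun a => √(√h / (β a * ρ a))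
  have hg0 : ∀ a, 0 < g a := fun a =>
    Real.sqrt_pos.2 (div_pos (Real.sqrt_pos.2 hh) (mul_pos (hβ a) (hρ0 a)))
  have hsq : ∀ a b, (g a * g b) ^ 2 * (β a * β b * (ρ a * ρ b)) = h := by
    intro a b
    have e : ∀ a, g a ^ 2 = √h / (β a * ρ a) := fun a =>
      Real.sq_sqrt (div_pos (Real.sqrt_pos.2 hh) (mul_pos (hβ a) (hρ0 a))).le
    have := hβ a; have := hβ b; have := hρ0 a; have := hρ0 b
    rw [mul_pow, e, e]
    field_simp
    exact Real.sq_sqrt hh.le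
  refine ⟨g, ⟨hg0, fun a b hab => ?_⟩, fun a b hon => ?_⟩
  · have h3 : h * u a b ≤ ρ a * ρ b := by
      rcases le_max_iff.1 (hu.tri a v b) with h4 | h4
      · rw [mul_comm]
        exact mul_le_mul (h4.trans (hρ' a)) (hρ b) hh.le (hρ0 a).le
      · exact mul_le_mul (hρ a) (h4.trans ((hu.symm _ _).le.trans (hρ' b))) (hu.pos a b hab).le (hρ0 a).le
    have hD : 0 < β a * β b * u a b := mul_pos (mul_pos (hβ a) (hβ b)) (hu.pos a b hab)
    have h5 : (g a * g b) ^ 2 * (β a * β b * u a b) ≤ 1 := by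
      refine le_of_mul_le_mul_left ?_ hh
      calc h * ((g a * g b) ^ 2 * (β a * β b * u a b)) = (g a * g b) ^ 2 * (β a * β b * (h * u a b)) := by ring
        _ ≤ (g a * g b) ^ 2 * (β a * β b * (ρ a * ρ b)) :=
          mul_le_mul_of_nonneg_left (mul_le_mul_of_nonneg_left h3 (mul_pos (hβ a) (hβ b)).le) (sq_nonneg _)
        _ = h * 1 := by rw [hsq, mul_one]
    exact (pow_le_pow_iff_left₀ (mul_pos (hg0 a) (hg0 b)).le (mul_pos hK (hW.pos a b)).le two_ne_zero).1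
      (le_of_mul_le_mul_right (h5.trans (h2 a b hab)) hD)
  · have hu0 : 0 < u a b := hh.trans_le hon.2.1
    have hab : a ≠ b := fun e => by rw [e, hu.self] at hu0; exact lt_irrefl _ hu0
    have h3 : ρ a * ρ b ≤ h * u a b := by
      have hle : h ≤ u a b := hon.2.1
      rcases hon.2.2 with h4 | h4
      · have h4' : u a v ≤ h := h4
        refine mul_le_mul (max_le le_rfl h4') (max_le hle ?_) (hρ0 b).le hh.le
        exact (hu.tri b a v).trans (max_le (hu.symm _ _).le (h4'.trans hle))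
      · have h4' : u b v ≤ h := h4
        rw [mul_comm]
        refine mul_le_mul (max_le le_rfl h4') (max_le hle ?_) (hρ0 a).le hh.le
        exact (hu.tri a b v).trans (max_le le_rfl (h4'.trans hle))
    have hD : 0 < β a * β b * u a b := mul_pos (mul_pos (hβ a) (hβ b)) hu0
    have h5 : 1 ≤ (g a * g b) ^ 2 * (β a * β b * u a b) := by
      refine le_of_mul_le_mul_left ?_ hh
      calc h * 1 = (g a * g b) ^ 2 * (β a * β b * (ρ a * ρ b)) := by rw [hsq, mul_one]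
        _ ≤ (g a * g b) ^ 2 * (β a * β b * (h * u a b)) :=
          mul_le_mul_of_nonneg_left (mul_le_mul_of_nonneg_left h3 (mul_pos (hβ a) (hβ b)).le) (sq_nonneg _)
        _ = h * ((g a * g b) ^ 2 * (β a * β b * u a b)) := by ring
    exact (pow_le_pow_iff_left₀ (hW.pos a b).le (mul_pos (hg0 a) (hg0 b)).le two_ne_zero).1
      (le_of_mul_le_mul_right ((h1 a b hab).trans h5) hD)

theorem points [Nonempty V] {ℓ : V → V → ℝ} (hW : Wt ℓ) {δ : ℝ} (hδ : 0 < δ) (hδ1 : δ ≤ 1)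
    (hx : ∀ u v, u ≠ v → δ ≤ xm ℓ u v) :
    ∃ On : V × ℝ → V → V → Prop, Pts ℓ (2 * Fintype.card V / δ) On := by
  obtain ⟨o⟩ := ‹Nonempty V›
  have hWn : ∀ a b, 0 ≤ Wv ℓ a b := fun a b => div_nonneg (xm_nonneg hW a b) (sq_nonneg _)
  have hWp : ∀ a b, a ≠ b → 0 < Wv ℓ a b := fun a b hab =>
    div_pos (hδ.trans_le (hx a b hab)) (pow_pos (hW.pos a b) 2)
  have hWs : ∀ a b, Wv ℓ a b = Wv ℓ b a := fun a b => by rw [Wv, Wv, xm_symm, hW.symm]
  set T : ℝ := 1 + ∑ p : V × V, Wv ℓ p.1 p.2 / (Wv ℓ o p.1 * Wv ℓ o p.2) with hT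
  have hterm : ∀ p : V × V, 0 ≤ Wv ℓ p.1 p.2 / (Wv ℓ o p.1 * Wv ℓ o p.2) := fun p =>
    div_nonneg (hWn _ _) (mul_nonneg (hWn _ _) (hWn _ _))
  have hT0 : 0 < T := add_pos_of_pos_of_nonneg one_pos (sum_nonneg fun p _ => hterm p)
  let β : V → ℝ := fun a => if a = o then 1 / T else Wv ℓ o a
  have hβo : β o = 1 / T := if_pos rfl
  have hβn : ∀ a, a ≠ o → β a = Wv ℓ o a := fun a ha => if_neg ha
  have hβ : ∀ a, 0 < β a := fun a => by
    by_cases ha : a = o
    · rw [ha, hβo]; positivity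
    · rw [hβn a ha]; exact hWp _ _ (Ne.symm ha)
  let ω : V → V → ℝ := fun a b => Wv ℓ a b / (β a * β b)
  have hωs : ∀ a b, ω a b = ω b a := fun a b => by simp only [ω]; rw [hWs, mul_comm]
  have hωp : ∀ a b, a ≠ b → 0 < ω a b := fun a b hab => div_pos (hWp a b hab) (mul_pos (hβ a) (hβ b))
  have hωo : ∀ a, a ≠ o → ω o a = T := fun a ha => by
    have := hWp _ _ (Ne.symm ha)
    simp only [ω]; rw [hβo, hβn a ha]; field_simp
  have hωT : ∀ a b, a ≠ b → ω a b ≤ T := by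
    intro a b hab
    by_cases ha : a = o
    · subst ha; exact (hωo b hab.symm).le
    by_cases hb : b = o
    · subst hb; rw [hωs]; exact (hωo a hab).le
    simp only [ω]; rw [hβn a ha, hβn b hb]
    have := single_le_sum (f := fun p : V × V => Wv ℓ p.1 p.2 / (Wv ℓ o p.1 * Wv ℓ o p.2))
      (fun p _ => hterm p) (mem_univ (a, b))
    linarith
  have hκ : (1 : ℝ) ≤ 1 + 1 / δ := le_add_of_nonneg_right (by positivity)
  obtain ⟨u, hu, hc⟩ := ultra ω (1 + 1 / δ) hκ hωs hωp (by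
    intro x y z hxy hxz hyz
    have p1 := hωp x y hxy
    have p2 := hωp y z hyz
    have p3 := hωT x z hxz
    have p4 : ω y z ≤ (1 + 1 / δ) * ω y z := le_mul_of_one_le_left p2.le hκ
    by_cases h1 : x = o
    · subst h1; have := hωo y hxy.symm; linarith
    by_cases h2 : y = o
    · subst h2; have := hωo x hxy; rw [hωs] at this; linarith
    by_cases h3 : z = o
    · subst h3; have := hωo y hyz; rw [hωs] at this; linarith
    have q := quad hW hδ hx (Ne.symm h1) (Ne.symm h2) (Ne.symm h3) hxy hxz hyz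
    have a1 := hWp _ _ (Ne.symm h1)
    have a2 := hWp _ _ (Ne.symm h2)
    have a3 := hWp _ _ (Ne.symm h3)
    simp only [ω]; rw [hβn x h1, hβn y h2, hβn z h3]
    have e1 : Wv ℓ x z / (Wv ℓ o x * Wv ℓ o z) =
        Wv ℓ x z * Wv ℓ o y / (Wv ℓ o x * Wv ℓ o y * Wv ℓ o z) := by field_simp
    have e2 : Wv ℓ x y / (Wv ℓ o x * Wv ℓ o y) + (1 + 1 / δ) * (Wv ℓ y z / (Wv ℓ o y * Wv ℓ o z)) =
        (Wv ℓ x y * Wv ℓ o z + (1 + 1 / δ) * (Wv ℓ o x * Wv ℓ y z)) / (Wv ℓ o x * Wv ℓ o y * Wv ℓ o z) := by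
      field_simp
    rw [e1, e2]
    exact div_le_div_of_nonneg_right q (by positivity))
  have hn : (1 : ℝ) ≤ Fintype.card V := by exact_mod_cast Fintype.card_pos_iff.2 ⟨o⟩
  have hK : 0 < 2 * (Fintype.card V : ℝ) / δ := by positivity
  have hx' : ∀ a b, ℓ a b ^ 2 * (β a * β b * ω a b) = xm ℓ a b := fun a b => by
    have := hβ a; have := hβ b; have := hW.pos a b
    simp only [ω, Wv]; field_simp
  have hG := fun v h hh => gauge_pt hW hu hβ hK (fun a b hab => by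
      refine le_trans ?_ ((hx' a b).le.trans (xm_le_one hW a b))
      exact mul_le_mul_of_nonneg_left (mul_le_mul_of_nonneg_left (hc a b hab).1 (mul_pos (hβ a) (hβ b)).le)
        (sq_nonneg _)) (fun a b hab => by
      have h1 : δ ≤ ℓ a b ^ 2 * (β a * β b * (Fintype.card V * (1 + 1 / δ) * u a b)) := by
        refine ((hx a b hab).trans (hx' a b).ge).trans ?_
        exact mul_le_mul_of_nonneg_left (mul_le_mul_of_nonneg_left (hc a b hab).2 (mul_pos (hβ a) (hβ b)).le)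
          (sq_nonneg _)
      have h2 : 0 ≤ ℓ a b ^ 2 * (β a * β b * u a b) :=
        mul_nonneg (sq_nonneg _) (mul_pos (mul_pos (hβ a) (hβ b)) (hu.pos a b hab)).le
      have h3 : Fintype.card V * (1 + 1 / δ) ≤ δ * (2 * (Fintype.card V : ℝ) / δ) ^ 2 := by
        have e : δ * (2 * (Fintype.card V : ℝ) / δ) ^ 2 = Fintype.card V * (4 * Fintype.card V * (1 / δ)) := by
          field_simp; norm_num
        rw [e]
        refine mul_le_mul_of_nonneg_left ?_ (by linarith)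
        have : 1 ≤ 1 / δ := one_le_one_div hδ hδ1
        nlinarith
      refine le_of_mul_le_mul_left ?_ hδ
      calc δ * 1 = δ := mul_one δ
        _ ≤ Fintype.card V * (1 + 1 / δ) * (ℓ a b ^ 2 * (β a * β b * u a b)) := h1.trans_eq (by ring)
        _ ≤ δ * (2 * (Fintype.card V : ℝ) / δ) ^ 2 * (ℓ a b ^ 2 * (β a * β b * u a b)) :=
          mul_le_mul_of_nonneg_right h3 h2
        _ = _ := by ring) v (h := h) hh
  refine ⟨TOn u, ⟨fun x => ?_, fun x a b h => h.symm hu, fun a b b' h1 h2 => ?_, tree_tri hu⟩⟩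
  · by_cases hh : 0 < x.2
    · exact hG x.1 x.2 hh
    · obtain ⟨g, hg, -⟩ := hG x.1 1 one_pos
      exact ⟨g, hg, fun a b hon => (hh hon.1).elim⟩
  · have hm : 0 < min (u a b) (u a b') := lt_min (hu.pos _ _ h1) (hu.pos _ _ h2)
    exact ⟨(a, min (u a b) (u a b')), ⟨hm, min_le_left _ _, Or.inl ((hu.self a).le.trans hm.le)⟩,
      ⟨hm, min_le_right _ _, Or.inl ((hu.self a).le.trans hm.le)⟩⟩

end Crest.Agent.R304
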